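import Vale.Agent.P128.Bonnet.Interface
import Vale.Agent.P128.Islands.Tools
import Vale.Agent.P128.Classify.Polar

/-!
# Competitors in a disk

`vary_ball` compares with a function `V` in the disk which is smooth off a set `T` and agrees
with `u` near the rest of the circle. `exists_blend` builds such functions in polar coordinates
from boundary values `G` and a radial profile `w`, blended in a thin annulus at small extra cost.
-/

namespace Vale.Agent.P128.Bonnet

open MeasureTheory Filter Metric Set Islands Connected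
open scoped Topology ENNReal NNReal ContDiff Real

/-- A function smooth off `T` in a disk, matching `u` on the rest of the circle, as competitor. -/
theorem vary_ball {u : ℂ → ℝ} {K : Set ℂ} (h : Reg u K) {x : ℂ} {r : ℝ} {T : Set ℂ}
    {V : ℂ → ℝ} (hTc : IsClosed T) (hTb : T ⊆ closedBall x r)
    (hT : Measure.hausdorffMeasure 1 T ≠ ⊤) (hV : ContDiffOn ℝ ∞ V (ball x r \ T))
    (hglue : ∀ y ∈ sphere x r, y ∉ T → y ∉ K ∧ ∀ᶠ w in 𝓝 y, w ∈ ball x r → V w = u w)
    (hmem : MemLp (grad V) 2 (volume.restrict (ball x r)))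
    (hsep : ∃ R₀, ∀ R ≥ R₀, KeepsSeparation K ((K \ ball x r) ∪ T) (ball 0 R)) :
    Len K x r + En u x r ≤
      (Measure.hausdorffMeasure 1 T).toReal + ∫ y in ball x r, ‖grad V y‖ ^ 2 := by
  obtain ⟨R₀, hR₀⟩ := hsep
  set ρ := max R₀ (‖x‖ + |r|) with hρ
  set B := ball (0 : ℂ) (ρ + 1) with hB
  have hcb : closedBall x r ⊆ closedBall 0 ρ := closedBall_subset_closedBall' (by
    rw [dist_zero_right]; linarith [le_abs_self r, le_max_right R₀ (‖x‖ + |r|)])
  have hcB : closedBall x r ⊆ B := hcb.trans (closedBall_subset_ball (by linarith))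
  have hbB : ball x r ⊆ B := ball_subset_closedBall.trans hcB
  set L := (K \ ball x r) ∪ T with hL
  classical
  set δ : ℂ → ℝ := fun y => if y ∈ ball x r then V y - u y else 0 with hδ
  have hKo : IsOpen Kᶜ := h.isClosed.isOpen_compl
  have hLc : IsClosed L := (h.isClosed.sdiff isOpen_ball).union hTc
  have hTn : (volume : Measure ℂ) T = 0 := volume_eq_zero_of_length hT
  have hLn : (volume : Measure ℂ) L = 0 :=
    measure_union_null (measure_mono_null sdiff_subset h.null) hTn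
  have hcl : ∀ y, y ∉ ball x r → y ∉ sphere x r → y ∉ closedBall x r := fun y h1 h2 h3 => by
    rw [mem_ball, not_lt] at h1
    exact h2 (mem_sphere.2 (le_antisymm (mem_closedBall.1 h3) h1))
  have hout : ∀ y, y ∉ closedBall x r → grad δ y = 0 := fun y hy =>
    grad_eq_zero_outside isClosed_closedBall
      (fun w hw => if_neg fun hw' => hw (ball_subset_closedBall hw')) hy
  have hgd : grad δ =ᵐ[volume] (ball x r).indicator fun y => grad V y - grad u y := by
    filter_upwards [measure_eq_zero_iff_ae_notMem.1 (Measure.addHaar_sphere (volume : Measure ℂ) x r),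
      measure_eq_zero_iff_ae_notMem.1 h.null, measure_eq_zero_iff_ae_notMem.1 hTn] with y hys hyK hyT
    by_cases hyb : y ∈ ball x r
    · rw [indicator_of_mem hyb, ← grad_sub
        (((hV y ⟨hyb, hyT⟩).contDiffAt ((isOpen_ball.sdiff hTc).mem_nhds ⟨hyb, hyT⟩)
          ).differentiableAt (by simp))
        (((h.smooth y hyK).contDiffAt (hKo.mem_nhds hyK)).differentiableAt (by simp))]
      exact grad_congr (eventually_of_mem (isOpen_ball.mem_nhds hyb) fun w hw => if_pos hw)
    · rw [indicator_of_notMem hyb, hout y (hcl y hyb hys)]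
  have hu2 : MemLp (grad u) 2 (volume.restrict (ball x r)) :=
    (h.memLp (ρ + 1)).mono_measure (Measure.restrict_mono_set _ hbB)
  have hd2 : MemLp (fun y => grad V y - grad u y) 2 (volume.restrict (ball x r)) := hmem.sub hu2
  have hdmem : MemLp (grad δ) 2 :=
    (memLp_congr_ae hgd).2 ((memLp_indicator_iff_restrict measurableSet_ball).2 hd2)
  have hsmooth : ContDiffOn ℝ ∞ (fun y => u y + δ y) Lᶜ := by
    intro y hy
    refine ContDiffAt.contDiffWithinAt ?_
    have hyT : y ∉ T := fun hT' => hy (Or.inr hT')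
    by_cases hyb : y ∈ ball x r
    · refine ((hV y ⟨hyb, hyT⟩).contDiffAt
        ((isOpen_ball.sdiff hTc).mem_nhds ⟨hyb, hyT⟩)).congr_of_eventuallyEq ?_
      filter_upwards [isOpen_ball.mem_nhds hyb] with w hw
      simp only [hδ, if_pos hw]
      ring
    · have hyK : y ∉ K := fun hK => hy (Or.inl ⟨hK, hyb⟩)
      refine ((h.smooth y hyK).contDiffAt (hKo.mem_nhds hyK)).congr_of_eventuallyEq ?_
      by_cases hys : y ∈ sphere x r
      · filter_upwards [(hglue y hys hyT).2] with w hw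
        by_cases hwb : w ∈ ball x r
        · simp only [hδ, if_pos hwb, hw hwb]
          ring
        · simp only [hδ, if_neg hwb, add_zero]
      · filter_upwards [isClosed_closedBall.isOpen_compl.mem_nhds (hcl y hyb hys)] with w hw
        have hw' : w ∉ ball x r := fun h' => hw (ball_subset_closedBall h')
        simp only [hδ, if_neg hw', add_zero]
  have hzero : ∀ y, y ∉ closedBall 0 ρ → δ y = 0 := fun y hy =>
    if_neg fun hy' => hy (hcb (ball_subset_closedBall hy'))
  have heq : L \ closedBall 0 ρ = K \ closedBall 0 ρ := by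
    ext y
    constructor
    · rintro ⟨⟨hK, -⟩ | hT', hy⟩
      · exact ⟨hK, hy⟩
      · exact absurd (hcb (hTb hT')) hy
    · rintro ⟨hK, hy⟩
      exact ⟨Or.inl ⟨hK, fun hb => hy (hcb (ball_subset_closedBall hb))⟩, hy⟩
  set len : Measure ℂ := Measure.hausdorffMeasure 1 with hlen
  have hkin : len (K ∩ ball x r) ≠ ⊤ :=
    ne_top_of_le_ne_top (h.length_ne_top (ρ + 1)) (measure_mono (inter_subset_inter_right _ hbB))
  have hkout : len ((K ∩ B) \ ball x r) ≠ ⊤ :=
    ne_top_of_le_ne_top (h.length_ne_top (ρ + 1)) (measure_mono sdiff_subset)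
  have hLle : len (L ∩ B) ≤ len ((K ∩ B) \ ball x r) + len T := by
    refine (measure_mono (fun y hy => ?_)).trans (measure_union_le _ T)
    rcases hy with ⟨⟨hK, hb⟩ | hT', hyB⟩
    · exact Or.inl ⟨⟨hK, hyB⟩, hb⟩
    · exact Or.inr hT'
  have hLtop : len (L ∩ B) ≠ ⊤ :=
    ne_top_of_le_ne_top (ENNReal.add_ne_top.2 ⟨hkout, hT⟩) hLle
  have hKB : len (K ∩ B) = len (K ∩ ball x r) + len ((K ∩ B) \ ball x r) := by
    rw [← measure_inter_add_sdiff (K ∩ B) (measurableSet_ball (x := x) (ε := r)),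
      inter_assoc, inter_eq_self_of_subset_right hbB]
  have hv := h.vary L δ ρ hLc hLn hsmooth hzero heq
    (hR₀ (ρ + 1) (by linarith [le_max_left R₀ (‖x‖ + |r|)])) hLtop hdmem
  have e : (∫ y, ‖grad δ y‖ ^ 2) + 2 * ∫ y, dot (grad u y) (grad δ y) =
      (∫ y in ball x r, ‖grad V y‖ ^ 2) - ∫ y in ball x r, ‖grad u y‖ ^ 2 := by
    have e1 : ∫ y, ‖grad δ y‖ ^ 2 = ∫ y in ball x r, ‖grad V y - grad u y‖ ^ 2 := by
      rw [← integral_indicator measurableSet_ball]
      refine integral_congr_ae (hgd.mono fun y hy => ?_)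
      simp only [hy]
      by_cases hyb : y ∈ ball x r <;> simp [hyb]
    have e2 : ∫ y, dot (grad u y) (grad δ y) =
        ∫ y in ball x r, dot (grad u y) (grad V y - grad u y) := by
      rw [← integral_indicator measurableSet_ball]
      refine integral_congr_ae (hgd.mono fun y hy => ?_)
      simp only [hy]
      by_cases hyb : y ∈ ball x r <;> simp [hyb, dot]
    rw [e1, e2, ← integral_const_mul, ← integral_sub hmem.norm.integrable_sq hu2.norm.integrable_sq,
      ← integral_add hd2.norm.integrable_sq ((Islands.integrable_dot hu2 hd2).const_mul 2)]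
    refine integral_congr_ae (Eventually.of_forall fun y => ?_)
    simp only [Complex.sq_norm, Complex.normSq_apply, dot, Complex.sub_re, Complex.sub_im]
    ring
  change 0 ≤ ((len (L ∩ B)).toReal - (len (K ∩ B)).toReal) + _ + _ at hv
  rw [hKB, ENNReal.toReal_add hkin hkout, add_assoc, e] at hv
  have hreal := ENNReal.toReal_mono (ENNReal.add_ne_top.2 ⟨hkout, hT⟩) hLle
  rw [ENNReal.toReal_add hkout hT] at hreal
  change (len (K ∩ ball x r)).toReal + ∫ y in ball x r, ‖grad u y‖ ^ 2 ≤ _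
  linarith

/-! ### Polar coordinates round `x`, from the direction `τ` -/

/-- The point with polar coordinates `p` round `x`, angles measured from `τ`. -/
noncomputable def pol (x τ : ℂ) (p : ℝ × ℝ) : ℂ := x + τ * circleMap 0 p.1 p.2

/-- A function given in polar coordinates. -/
noncomputable def unpol (x τ : ℂ) (Φ : ℝ × ℝ → ℝ) (y : ℂ) : ℝ :=
  Φ (‖y - x‖, Complex.arg ((y - x) / τ))

/-- Energy density in polar coordinates. -/
noncomputable def pen (Φ : ℝ × ℝ → ℝ) (p : ℝ × ℝ) : ℝ :=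
  p.1 * fderiv ℝ Φ p (1, 0) ^ 2 + fderiv ℝ Φ p (0, 1) ^ 2 / p.1

lemma dist_pol {x τ : ℂ} (hτ : ‖τ‖ = 1) {p : ℝ × ℝ} (hp : 0 ≤ p.1) :
    ‖pol x τ p - x‖ = p.1 := by
  simp [pol, circleMap, hτ, abs_of_nonneg hp]

lemma arg_pol {x τ : ℂ} (hτ : ‖τ‖ = 1) {p : ℝ × ℝ} (hp : 0 < p.1)
    (hp' : p.2 ∈ Ioc (-π) π) : Complex.arg ((pol x τ p - x) / τ) = p.2 := by
  have h0 : τ ≠ 0 := fun h => by simp [h] at hτ
  simp only [pol, add_sub_cancel_left, circleMap_zero]
  rw [mul_div_cancel_left₀ _ h0, Complex.exp_mul_I, Complex.arg_mul_cos_add_sin_mul_I hp hp']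

lemma unpol_pol {x τ : ℂ} (hτ : ‖τ‖ = 1) (Φ : ℝ × ℝ → ℝ) {p : ℝ × ℝ} (hp : 0 < p.1)
    (hp' : p.2 ∈ Ioc (-π) π) : unpol x τ Φ (pol x τ p) = Φ p := by
  rw [unpol, dist_pol hτ hp.le, arg_pol hτ hp hp']

lemma pol_unpol {x τ : ℂ} (hτ : τ ≠ 0) (hτ' : ‖τ‖ = 1) (y : ℂ) :
    pol x τ (‖y - x‖, Complex.arg ((y - x) / τ)) = y := by
  have h := Complex.norm_mul_exp_arg_mul_I ((y - x) / τ)
  rw [norm_div, hτ', div_one] at h
  simp only [pol, circleMap_zero]
  rw [h, mul_div_cancel₀ _ hτ, add_sub_cancel]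

lemma contDiffAt_arg {z : ℂ} (hz : z ∈ Complex.slitPlane) : ContDiffAt ℝ ∞ Complex.arg z := by
  have e : Complex.arg = fun w => (Complex.log w).im := by
    funext w; exact (Complex.log_im w).symm
  rw [e]
  exact Complex.imCLM.contDiff.contDiffAt.comp z
    ((Complex.contDiffAt_log hz).restrict_scalars ℝ)

/-- Away from the ray opposite to `τ` a polar function is smooth. -/
lemma contDiffAt_unpol {x τ : ℂ} {Φ : ℝ × ℝ → ℝ} {y : ℂ}
    (hy : (y - x) / τ ∈ Complex.slitPlane)
    (hΦ : ContDiffAt ℝ ∞ Φ (‖y - x‖, Complex.arg ((y - x) / τ))) :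
    ContDiffAt ℝ ∞ (unpol x τ Φ) y := by
  have hne : y - x ≠ 0 := fun h => Complex.slitPlane_ne_zero hy (by simp [h])
  have hdiv : ContDiff ℝ ∞ fun w : ℂ => (w - x) / τ := by
    simp only [div_eq_mul_inv]
    exact (contDiff_id.sub contDiff_const).mul contDiff_const
  have h1 : ContDiffAt ℝ ∞ (fun w : ℂ => (‖w - x‖, Complex.arg ((w - x) / τ))) y :=
    ((contDiffAt_norm ℝ hne).comp y (contDiffAt_id.sub contDiffAt_const)).prodMk
      (ContDiffAt.comp (g := Complex.arg) (f := fun w : ℂ => (w - x) / τ) y (contDiffAt_arg hy)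
        hdiv.contDiffAt)
  exact hΦ.comp y h1

/-- The gradient of a polar function. -/
lemma normSq_grad_unpol {x τ : ℂ} (hτ : ‖τ‖ = 1) {Φ : ℝ × ℝ → ℝ} {p : ℝ × ℝ} (hp : 0 < p.1)
    (hp' : p.2 ∈ Ioo (-π) π) (hΦ : ContDiffAt ℝ ∞ Φ p) :
    p.1 * ‖grad (unpol x τ Φ) (pol x τ p)‖ ^ 2 = pen Φ p := by
  have h0 : τ ≠ 0 := fun h => by simp [h] at hτ
  set y := pol x τ p with hy
  have hslit : (y - x) / τ ∈ Complex.slitPlane := by
    refine Complex.mem_slitPlane_iff_arg.2 ⟨?_, ?_⟩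
    · rw [arg_pol hτ hp (Ioo_subset_Ioc_self hp')]
      exact hp'.2.ne
    · have := dist_pol (x := x) hτ hp.le
      exact div_ne_zero (norm_ne_zero_iff.1 (by rw [this]; exact hp.ne')) h0
  have hV : DifferentiableAt ℝ (unpol x τ Φ) y := (contDiffAt_unpol hslit (by
    rwa [dist_pol hτ hp.le, arg_pol hτ hp (Ioo_subset_Ioc_self hp')])).differentiableAt (by simp)
  have hΦd := (hΦ.differentiableAt (by simp)).hasFDerivAt
  set e := τ * Complex.exp (p.2 * Complex.I) with he
  have d1 : HasDerivAt (fun t : ℝ => pol x τ (t, p.2)) e p.1 := by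
    have := (((hasDerivAt_id p.1).ofReal_comp).mul_const (Complex.exp (p.2 * Complex.I))).const_mul τ
    simpa [pol, circleMap_zero, he] using this.const_add x
  have d2 : HasDerivAt (fun t : ℝ => pol x τ (p.1, t)) (p.1 • (Complex.I * e)) p.2 := by
    have := ((hasDerivAt_circleMap 0 p.1 p.2).const_mul τ).const_add x
    refine this.congr_deriv ?_
    simp [circleMap_zero, he, Complex.real_smul]
    ring
  have key1 : fderiv ℝ (unpol x τ Φ) y e = fderiv ℝ Φ p (1, 0) := by
    have a := hV.hasFDerivAt.comp_hasDerivAt_of_eq p.1 d1 (by rfl)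
    have b := hΦd.comp_hasDerivAt_of_eq p.1
      ((hasDerivAt_id p.1).prodMk (hasDerivAt_const p.1 p.2)) rfl
    refine a.unique (b.congr_of_eventuallyEq ?_)
    filter_upwards [Ioi_mem_nhds hp] with t ht
    exact unpol_pol hτ Φ (p := (t, p.2)) ht (Ioo_subset_Ioc_self hp')
  have key2 : fderiv ℝ (unpol x τ Φ) y (p.1 • (Complex.I * e)) = fderiv ℝ Φ p (0, 1) := by
    have a := hV.hasFDerivAt.comp_hasDerivAt_of_eq p.2 d2 (by rfl)
    have b := hΦd.comp_hasDerivAt_of_eq p.2
      ((hasDerivAt_const p.2 p.1).prodMk (hasDerivAt_id p.2)) rfl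
    refine a.unique (b.congr_of_eventuallyEq ?_)
    filter_upwards [isOpen_Ioo.mem_nhds hp'] with t ht
    exact unpol_pol hτ Φ (p := (p.1, t)) hp (Ioo_subset_Ioc_self ht)
  have hn : e.re * e.re + e.im * e.im = 1 := by
    rw [← Complex.normSq_apply, ← Complex.sq_norm]
    simp [he, hτ, Complex.norm_exp]
  set a := grad (unpol x τ Φ) y with ha
  have f1 : ∀ v, fderiv ℝ (unpol x τ Φ) y v = a.re * v.re + a.im * v.im := fun v => by
    conv_lhs => rw [show v = v.re • (1 : ℂ) + v.im • Complex.I by simp]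
    rw [map_add, map_smul, map_smul]
    simp only [ha, smul_eq_mul, grad_re, grad_im]
    ring
  rw [pen, ← key1, ← key2, map_smul, smul_eq_mul, f1, f1, Complex.sq_norm, Complex.normSq_apply]
  simp only [Complex.mul_re, Complex.mul_im, Complex.I_re, Complex.I_im]
  field_simp
  linear_combination (-(a.re ^ 2 + a.im ^ 2)) * hn

/-- Polar integration of the energy of a polar function. -/
lemma lintegral_grad_unpol {x τ : ℂ} (hτ : ‖τ‖ = 1) {Φ : ℝ × ℝ → ℝ} {r : ℝ}
    (hΦ : ContDiffOn ℝ ∞ Φ (Ioo 0 r ×ˢ univ)) :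
    ∫⁻ y in ball x r, ENNReal.ofReal (‖grad (unpol x τ Φ) y‖ ^ 2) =
      ∫⁻ p in Ioo 0 r ×ˢ Ioo (-π) π, ENNReal.ofReal (pen Φ p) := by
  set F : ℂ → ℝ≥0∞ := fun y => ENNReal.ofReal (‖grad (unpol x τ Φ) y‖ ^ 2) with hF
  have hτ' : τ ∈ Submonoid.unitSphere ℂ := mem_sphere_zero_iff_norm.2 hτ
  set e : ℂ ≃ₗᵢ[ℝ] ℂ := rotation ⟨τ, hτ'⟩ with he
  have hmp : MeasurePreserving (fun w : ℂ => x + e w) volume volume :=
    (measurePreserving_add_left (volume : Measure ℂ) x).comp e.measurePreserving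
  have hme : MeasurableEmbedding (fun w : ℂ => x + e w) :=
    (MeasurableEquiv.addLeft x).measurableEmbedding.comp e.toHomeomorph.measurableEmbedding
  have hpre : (fun w : ℂ => x + e w) ⁻¹' ball x r = ball 0 r := by
    ext w
    simp [dist_eq_norm]
  rw [← hmp.setLIntegral_comp_preimage_emb hme, hpre, ← lintegral_indicator measurableSet_ball,
    ← Complex.lintegral_comp_polarCoord_symm, polarCoord_target]
  rw [← lintegral_indicator (measurableSet_Ioi.prod measurableSet_Ioo),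
    ← lintegral_indicator (measurableSet_Ioo.prod measurableSet_Ioo)]
  refine lintegral_congr fun p => ?_
  by_cases hp : p ∈ Ioi (0 : ℝ) ×ˢ Ioo (-π) π
  · have hp1 : (0 : ℝ) < p.1 := hp.1
    have epol : x + e (Complex.polarCoord.symm p) = pol x τ p := by
      rw [he]
      show x + τ * Complex.polarCoord.symm p = _
      simp [pol, circleMap, Complex.exp_mul_I]
    have hnorm : ‖Complex.polarCoord.symm p‖ = p.1 := by
      rw [Complex.norm_polarCoord_symm, abs_of_pos hp1]
    rw [indicator_of_mem hp]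
    by_cases hr : p.1 < r
    · have hΦp : ContDiffAt ℝ ∞ Φ p := (hΦ p ⟨⟨hp1, hr⟩, trivial⟩).contDiffAt
        ((isOpen_Ioo.prod isOpen_univ).mem_nhds ⟨⟨hp1, hr⟩, trivial⟩)
      rw [indicator_of_mem (show Complex.polarCoord.symm p ∈ ball (0 : ℂ) r by
          rwa [mem_ball_zero_iff, hnorm]),
        indicator_of_mem (show p ∈ Ioo 0 r ×ˢ Ioo (-π) π from ⟨⟨hp1, hr⟩, hp.2⟩)]
      simp only [smul_eq_mul, epol]
      rw [← ENNReal.ofReal_mul hp1.le, normSq_grad_unpol hτ hp1 hp.2 hΦp]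
    · rw [indicator_of_notMem (show Complex.polarCoord.symm p ∉ ball (0 : ℂ) r by
          rwa [mem_ball_zero_iff, hnorm]),
        indicator_of_notMem (show p ∉ Ioo 0 r ×ˢ Ioo (-π) π from fun h => hr h.1.2), smul_zero]
  · rw [indicator_of_notMem hp, indicator_of_notMem (fun h => hp ⟨h.1.1, h.2⟩)]

/-! ### Blending -/

/-- Values `G` near the circle of radius `r` extended by the profile `w`, at almost no extra
cost; inside half the disk only `w` and the values on the circle enter, and the values at an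
angle depend only on those of `G` at this angle. -/
theorem exists_blend_factor {r ε A B : ℝ} (hr : 0 < r) (hε : 0 < ε) (m : ℝ) {G : ℝ × ℝ → ℝ}
    (hG : ContDiffOn ℝ ∞ G (Ioo (r - ε) (r + ε) ×ˢ univ)) {w : ℝ → ℝ}
    (hw : ContDiffOn ℝ ∞ w (Ioi 0)) (hw1 : w r = 1) (hA : 0 ≤ A) (hB : 0 ≤ B)
    (hwA : ∫⁻ t in Ioo 0 r, ENNReal.ofReal (t * deriv w t ^ 2) ≤ ENNReal.ofReal A)
    (hwB : ∫⁻ t in Ioo 0 r, ENNReal.ofReal (w t ^ 2 / t) ≤ ENNReal.ofReal B)
    {η : ℝ} (hη : 0 < η) :
    ∃ (Φ : ℝ × ℝ → ℝ) (h : ℝ), 0 < h ∧ h < ε ∧ h < r ∧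
      ContDiffOn ℝ ∞ Φ (Ioo 0 r ×ˢ univ) ∧
      (∀ t ∈ Ioo (r - h) r, ∀ φ, Φ (t, φ) = m + G (t, φ)) ∧
      (∀ t ≤ r / 2, ∀ φ, Φ (t, φ) = m + w t * G (r, φ)) ∧
      (∀ φ φ', (∀ t, G (t, φ) = G (t, φ')) → ∀ t, Φ (t, φ) = Φ (t, φ')) ∧
      ∫⁻ p in Ioo 0 r ×ˢ Ioo (-π) π, ENNReal.ofReal (pen Φ p) ≤
        ENNReal.ofReal (A * (∫ φ in -π..π, G (r, φ) ^ 2) +
          B * (∫ φ in -π..π, fderiv ℝ G (r, φ) (0, 1) ^ 2) + η) := by
  -- bounds on the compact annulus
  set a := max (r / 2) (r - ε / 2) with ha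
  have har : a < r := max_lt (by linarith) (by linarith)
  have ha0 : 0 < a := lt_max_of_lt_left (by linarith)
  set Q : Set (ℝ × ℝ) := Icc a r ×ˢ Icc (-π) π with hQ
  set U : Set (ℝ × ℝ) := Ioo (r - ε) (r + ε) ×ˢ univ with hU
  have hUo : IsOpen U := isOpen_Ioo.prod isOpen_univ
  have hQU : Q ⊆ U := fun p hp => ⟨⟨by linarith [hp.1.1, le_max_right (r / 2) (r - ε / 2)],
    by linarith [hp.1.2]⟩, trivial⟩
  have hQc : IsCompact Q := isCompact_Icc.prod isCompact_Icc
  have hdG : ∀ v, ContinuousOn (fun p => fderiv ℝ G p v) U := fun v =>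
    ((hG.fderiv_of_isOpen hUo (m := ∞) le_rfl).clm_apply contDiffOn_const).continuousOn
  obtain ⟨M₀, hM₀⟩ := hQc.exists_bound_of_continuousOn (hG.continuousOn.mono hQU)
  obtain ⟨M₁, hM₁⟩ := hQc.exists_bound_of_continuousOn ((hdG (1, 0)).mono hQU)
  obtain ⟨M₂, hM₂⟩ := hQc.exists_bound_of_continuousOn ((hdG (0, 1)).mono hQU)
  have hsub : Icc a r ⊆ Ioi (0 : ℝ) := fun t ht => ha0.trans_le ht.1
  obtain ⟨W₀, hW₀⟩ := isCompact_Icc.exists_bound_of_continuousOn (hw.continuousOn.mono hsub)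
  have hdw : ContinuousOn (deriv w) (Ioi 0) :=
    (hw.deriv_of_isOpen isOpen_Ioi (m := ∞) le_rfl).continuousOn
  obtain ⟨W₁, hW₁⟩ := isCompact_Icc.exists_bound_of_continuousOn (hdw.mono hsub)
  have hTd : Continuous (deriv Real.smoothTransition) :=
    (Real.smoothTransition.contDiff (n := 1)).continuous_deriv le_rfl
  obtain ⟨C₀, hC₀⟩ := (isCompact_Icc (a := (0 : ℝ)) (b := 2)).exists_bound_of_continuousOn
    hTd.continuousOn
  have hK0 : 0 ≤ C₀ := (norm_nonneg _).trans (hC₀ 0 ⟨le_rfl, zero_le_two⟩)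
  have hW00 : 0 ≤ W₀ := (norm_nonneg _).trans (hW₀ r ⟨har.le, le_rfl⟩)
  have hW10 : 0 ≤ W₁ := (norm_nonneg _).trans (hW₁ r ⟨har.le, le_rfl⟩)
  have hπ := Real.pi_pos
  have hM00 : 0 ≤ M₀ := (norm_nonneg _).trans (hM₀ (r, 0) ⟨⟨har.le, le_rfl⟩, by linarith, hπ.le⟩)
  set Ma := (2 * C₀ * W₁ + W₁) * M₀ + (W₀ + 1) * M₁ * (2 * C₀ + 1) with hMa
  set Mb := (W₀ + 1) * M₂ with hMb
  set M := r * Ma ^ 2 + 2 * Mb ^ 2 / r with hM
  have hM0 : 0 ≤ M := by positivity
  set h := min (r - a) (η / (2 * π * (M + 1))) with hh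
  have hh0 : 0 < h := lt_min (by linarith) (by positivity)
  have hha : h ≤ r - a := min_le_left _ _
  have hhη : h * (2 * π * (M + 1)) ≤ η := (le_div_iff₀ (by positivity)).1 (min_le_right _ _)
  -- the functions
  set κ : ℝ → ℝ := fun t => Real.smoothTransition (2 * ((t - r) / h) + 2) with hκ
  have hκs : ContDiff ℝ ∞ κ := Real.smoothTransition.contDiff.comp
    (((contDiff_id.sub contDiff_const).div_const h).const_smul (2 : ℝ) |>.add contDiff_const)
  have hκ1 : ∀ t, r - h / 2 ≤ t → κ t = 1 := fun t ht => by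
    refine Real.smoothTransition.one_of_one_le ?_
    have : -(1 / 2) ≤ (t - r) / h := by rw [le_div_iff₀ hh0]; linarith
    linarith
  have hκ0 : ∀ t, t ≤ r - h → κ t = 0 := fun t ht => by
    refine Real.smoothTransition.zero_of_nonpos ?_
    have : (t - r) / h ≤ -1 := by rw [div_le_iff₀ hh0]; linarith
    linarith
  set R : ℝ → ℝ := fun t => r + κ t * (t - r) with hR
  set W : ℝ → ℝ := fun t => (1 - κ t) * w t + κ t with hW
  set Φ : ℝ × ℝ → ℝ := fun p => m + W p.1 * G (R p.1, p.2) with hΦdef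
  have hRs : ContDiff ℝ ∞ R := contDiff_const.add (hκs.mul (contDiff_id.sub contDiff_const))
  have hRmem : ∀ t, t < r → R t ∈ Icc a r := by
    intro t ht
    have h1 := Real.smoothTransition.nonneg (2 * ((t - r) / h) + 2)
    have h2 := Real.smoothTransition.le_one (2 * ((t - r) / h) + 2)
    constructor
    · rcases le_or_gt t (r - h) with h' | h'
      · simp only [hR, hκ0 t h']; linarith
      · have := mul_le_mul_of_nonpos_right h2 (by linarith : t - r ≤ 0)
        simp only [hR, hκ]; linarith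
    · have := mul_nonpos_of_nonneg_of_nonpos h1 (by linarith : t - r ≤ 0)
      simp only [hR, hκ]; linarith
  have hmap : MapsTo (fun p : ℝ × ℝ => (R p.1, p.2)) (Ioo 0 r ×ˢ univ) U := fun p hp =>
    ⟨⟨by linarith [(hRmem p.1 hp.1.2).1, le_max_right (r / 2) (r - ε / 2)],
      by linarith [(hRmem p.1 hp.1.2).2]⟩, trivial⟩
  have hΦs : ContDiffOn ℝ ∞ Φ (Ioo 0 r ×ˢ univ) := by
    refine contDiffOn_const.add (ContDiffOn.mul ?_ ?_)
    · have hWs : ContDiffOn ℝ ∞ W (Ioi 0) :=
        ((contDiff_const.sub hκs).contDiffOn.mul hw).add hκs.contDiffOn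
      exact hWs.comp contDiff_fst.contDiffOn fun p hp => hp.1.1
    · exact hG.comp ((hRs.comp contDiff_fst).prodMk contDiff_snd).contDiffOn hmap
  refine ⟨Φ, h / 2, by linarith, by linarith [le_max_right (r / 2) (r - ε / 2)],
    by linarith [le_max_left (r / 2) (r - ε / 2)], hΦs, fun t ht φ => ?_, fun t ht φ => ?_,
    fun φ φ' he t => by simp only [hΦdef, he], ?_⟩
  · have := hκ1 t ht.1.le
    simp only [hΦdef, hW, hR, this]
    ring_nf
  · have := hκ0 t (by linarith [le_max_left (r / 2) (r - ε / 2)])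
    simp only [hΦdef, hW, hR, this]
    ring_nf
  -- the two derivatives
  have hd : ∀ p ∈ Ioo 0 r ×ˢ Ioo (-π) π,
      fderiv ℝ Φ p (1, 0) = ((1 - κ p.1) * deriv w p.1 + deriv κ p.1 * (1 - w p.1)) *
          G (R p.1, p.2) +
        W p.1 * (fderiv ℝ G (R p.1, p.2) (1, 0) * (deriv κ p.1 * (p.1 - r) + κ p.1)) ∧
      fderiv ℝ Φ p (0, 1) = W p.1 * fderiv ℝ G (R p.1, p.2) (0, 1) := by
    rintro ⟨t, φ⟩ ⟨ht, hφ⟩
    have hm : ((t, φ) : ℝ × ℝ) ∈ Ioo (0 : ℝ) r ×ˢ (univ : Set ℝ) := ⟨ht, trivial⟩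
    have hΦd := ((hΦs _ hm).contDiffAt ((isOpen_Ioo.prod isOpen_univ).mem_nhds hm)
      ).differentiableAt (by simp)
    have hGd := ((hG _ (hmap hm)).contDiffAt (hUo.mem_nhds (hmap hm))).differentiableAt (by simp)
    have hwd : HasDerivAt w (deriv w t) t := ((hw t ht.1).contDiffAt
      (Ioi_mem_nhds ht.1)).differentiableAt (by simp) |>.hasDerivAt
    have hκd : HasDerivAt κ (deriv κ t) t := (hκs.differentiable (by simp) t).hasDerivAt
    constructor
    · have a1 := hΦd.hasFDerivAt.comp_hasDerivAt_of_eq t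
        ((hasDerivAt_id t).prodMk (hasDerivAt_const t φ)) rfl
      have hR' : HasDerivAt R (deriv κ t * (t - r) + κ t) t := by
        simpa [hR] using (hκd.mul ((hasDerivAt_id t).sub_const r)).const_add r
      have hW' : HasDerivAt W ((1 - κ t) * deriv w t + deriv κ t * (1 - w t)) t :=
        (((hκd.const_sub 1).mul hwd).add hκd).congr_deriv (by simp; ring)
      have a2 := hGd.hasFDerivAt.comp_hasDerivAt_of_eq t
        (hR'.prodMk (hasDerivAt_const t φ)) rfl
      have a3 := ((hW'.mul a2).const_add m)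
      rw [a1.unique a3]
      have : ((deriv κ t * (t - r) + κ t, (0 : ℝ)) : ℝ × ℝ) =
          (deriv κ t * (t - r) + κ t) • ((1 : ℝ), (0 : ℝ)) := by simp
      rw [this, map_smul, smul_eq_mul]
      simp only [Function.comp_apply]
      ring
    · have a1 := hΦd.hasFDerivAt.comp_hasDerivAt_of_eq φ
        ((hasDerivAt_const φ t).prodMk (hasDerivAt_id φ)) rfl
      have a2 := hGd.hasFDerivAt.comp_hasDerivAt_of_eq φ
        ((hasDerivAt_const φ (R t)).prodMk (hasDerivAt_id φ)) rfl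
      exact a1.unique ((a2.const_mul (W t)).const_add m)
  set g : ℝ → ℝ := fun φ => G (r, φ) ^ 2 with hg
  set g' : ℝ → ℝ := fun φ => fderiv ℝ G (r, φ) (0, 1) ^ 2 with hg'
  have hrU : ∀ φ : ℝ, ((r, φ) : ℝ × ℝ) ∈ U := fun φ => ⟨⟨by linarith, by linarith⟩, trivial⟩
  have hline : Continuous fun φ : ℝ => ((r, φ) : ℝ × ℝ) := continuous_const.prodMk continuous_id
  have hgc : Continuous g := (hG.continuousOn.comp_continuous hline hrU).pow 2
  have hgc' : Continuous g' := ((hdG (0, 1)).comp_continuous hline hrU).pow 2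
  have hpt : ∀ p ∈ Ioo 0 r ×ˢ Ioo (-π) π, ENNReal.ofReal (pen Φ p) ≤
      ENNReal.ofReal (p.1 * deriv w p.1 ^ 2) * ENNReal.ofReal (g p.2) +
        ENNReal.ofReal (w p.1 ^ 2 / p.1) * ENNReal.ofReal (g' p.2) +
        (Ico (r - h) r).indicator (fun _ => ENNReal.ofReal M) p.1 := by
    rintro ⟨t, φ⟩ hp
    obtain ⟨ht, hφ⟩ := hp
    obtain ⟨e1, e2⟩ := hd (t, φ) ⟨ht, hφ⟩
    rcases lt_or_ge t (r - h) with h' | h'
    · have z : deriv κ t = 0 := by
        have : κ =ᶠ[𝓝 t] fun _ => (0 : ℝ) :=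
          eventually_of_mem (Iio_mem_nhds h') fun s hs => hκ0 s (le_of_lt hs)
        rw [this.deriv_eq, deriv_const]
      refine le_add_of_le_of_nonneg ?_ zero_le
      rw [← ENNReal.ofReal_mul (mul_nonneg ht.1.le (sq_nonneg _)),
        ← ENNReal.ofReal_mul (div_nonneg (sq_nonneg _) ht.1.le),
        ← ENNReal.ofReal_add (mul_nonneg (mul_nonneg ht.1.le (sq_nonneg _)) (sq_nonneg _))
          (mul_nonneg (div_nonneg (sq_nonneg _) ht.1.le) (sq_nonneg _))]
      refine ENNReal.ofReal_le_ofReal (le_of_eq ?_)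
      simp only [pen, e1, e2, z, hκ0 t h'.le, hW, hR]
      ring_nf
    · refine le_add_of_nonneg_of_le (zero_le) ?_
      rw [indicator_of_mem (show t ∈ Ico (r - h) r from ⟨h', ht.2⟩)]
      refine ENNReal.ofReal_le_ofReal ?_
      have hta : t ∈ Icc a r := ⟨by linarith, ht.2.le⟩
      have hQm : ((R t, φ) : ℝ × ℝ) ∈ Q := ⟨hRmem t ht.2, Ioo_subset_Icc_self hφ⟩
      have b0 : |G (R t, φ)| ≤ M₀ := hM₀ _ hQm
      have b1 : |fderiv ℝ G (R t, φ) (1, 0)| ≤ M₁ := hM₁ _ hQm
      have b2 : |fderiv ℝ G (R t, φ) (0, 1)| ≤ M₂ := hM₂ _ hQm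
      have k01 : 0 ≤ κ t ∧ κ t ≤ 1 :=
        ⟨Real.smoothTransition.nonneg _, Real.smoothTransition.le_one _⟩
      have k' : |deriv κ t| ≤ 2 * C₀ / h := by
        have hd' : HasDerivAt κ (deriv Real.smoothTransition (2 * ((t - r) / h) + 2) * (2 * (1 / h))) t :=
          (((Real.smoothTransition.contDiff (n := 1)).differentiable one_ne_zero _).hasDerivAt).comp t
            (((((hasDerivAt_id t).sub_const r).div_const h).const_mul 2).add_const 2)
        rw [hd'.deriv, abs_mul, show 2 * C₀ / h = C₀ * (2 * (1 / h)) by ring,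
          abs_of_pos (show 0 < 2 * (1 / h) by positivity)]
        refine mul_le_mul_of_nonneg_right (hC₀ _ ⟨?_, ?_⟩) (by positivity)
        · have : -1 ≤ (t - r) / h := by rw [le_div_iff₀ hh0]; linarith
          linarith
        · have : (t - r) / h ≤ 0 := div_nonpos_of_nonpos_of_nonneg (by linarith [ht.2]) hh0.le
          linarith
      have hw' : |1 - w t| ≤ W₁ * h := by
        have := (convex_Icc a r).norm_image_sub_le_of_norm_deriv_le
          (fun s hs => ((hw s (hsub hs)).contDiffAt (Ioi_mem_nhds (hsub hs))).differentiableAt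
            (by simp)) hW₁ hta ⟨har.le, le_rfl⟩
        rw [hw1] at this
        refine this.trans (mul_le_mul_of_nonneg_left ?_ hW10)
        rw [Real.norm_eq_abs, abs_of_nonneg (by linarith [ht.2])]
        linarith
      have hWb : |W t| ≤ W₀ + 1 := by
        have := hW₀ t hta
        rw [Real.norm_eq_abs] at this
        refine (abs_add_le _ _).trans (add_le_add ?_ (abs_le.2 ⟨by linarith, k01.2⟩))
        rw [abs_mul, abs_of_nonneg (by linarith : 0 ≤ 1 - κ t)]
        exact (mul_le_of_le_one_left (abs_nonneg _) (by linarith)).trans this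
      have d1 : |deriv κ t * (1 - w t)| ≤ 2 * C₀ * W₁ := by
        rw [abs_mul]
        exact (mul_le_mul k' hw' (abs_nonneg _) (by positivity)).trans
          (le_of_eq (by field_simp))
      have d2 : |deriv κ t * (t - r) + κ t| ≤ 2 * C₀ + 1 := by
        refine (abs_add_le _ _).trans (add_le_add ?_ (abs_le.2 ⟨by linarith, k01.2⟩))
        rw [abs_mul]
        refine (mul_le_mul k' (show |t - r| ≤ h by
          rw [abs_le]; constructor <;> linarith [ht.2]) (abs_nonneg _) (by positivity)).trans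
          (le_of_eq (by field_simp))
      have hea : |fderiv ℝ Φ (t, φ) (1, 0)| ≤ Ma := by
        rw [e1]
        refine (abs_add_le _ _).trans (add_le_add ?_ ?_)
        · rw [abs_mul]
          refine mul_le_mul ?_ b0 (abs_nonneg _) (by positivity)
          refine (abs_add_le _ _).trans ?_
          rw [abs_mul, abs_of_nonneg (by linarith : (0 : ℝ) ≤ 1 - κ t)]
          have := hW₁ t hta
          rw [Real.norm_eq_abs] at this
          linarith [mul_le_of_le_one_left (abs_nonneg (deriv w t))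
            (by linarith : 1 - κ t ≤ 1)]
        · rw [abs_mul, abs_mul, mul_assoc]
          exact mul_le_mul hWb (mul_le_mul b1 d2 (abs_nonneg _) ((abs_nonneg _).trans b1))
            (by positivity) (by positivity)
      have heb : |fderiv ℝ Φ (t, φ) (0, 1)| ≤ Mb := by
        rw [e2, abs_mul]
        exact mul_le_mul hWb b2 (abs_nonneg _) (by positivity)
      have hsa : fderiv ℝ Φ (t, φ) (1, 0) ^ 2 ≤ Ma ^ 2 :=
        sq_le_sq' (abs_le.1 hea).1 (abs_le.1 hea).2
      have hsb : fderiv ℝ Φ (t, φ) (0, 1) ^ 2 ≤ Mb ^ 2 :=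
        sq_le_sq' (abs_le.1 heb).1 (abs_le.1 heb).2
      have htr : r / 2 ≤ t := (le_max_left _ _).trans hta.1
      refine add_le_add (mul_le_mul ht.2.le hsa (sq_nonneg _) hr.le) ?_
      calc fderiv ℝ Φ (t, φ) (0, 1) ^ 2 / t ≤ Mb ^ 2 / (r / 2) :=
            div_le_div₀ (sq_nonneg _) hsb (by linarith) htr
        _ = 2 * Mb ^ 2 / r := by ring
  refine (setLIntegral_mono' (measurableSet_Ioo.prod measurableSet_Ioo) hpt).trans ?_
  have hmw : AEMeasurable (fun t => ENNReal.ofReal (t * deriv w t ^ 2))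
      (volume.restrict (Ioo 0 r)) :=
    ((measurable_id.mul ((measurable_deriv w).pow_const 2)).ennreal_ofReal).aemeasurable
  have hmw' : AEMeasurable (fun t => ENNReal.ofReal (w t ^ 2 / t))
      (volume.restrict (Ioo 0 r)) :=
    (((hw.continuousOn.mono Ioo_subset_Ioi_self).pow 2).div continuousOn_id
      (fun t ht => ne_of_gt ht.1)).aemeasurable measurableSet_Ioo |>.ennreal_ofReal
  have hmg : AEMeasurable (fun φ => ENNReal.ofReal (g φ)) (volume.restrict (Ioo (-π) π)) :=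
    hgc.measurable.ennreal_ofReal.aemeasurable
  have hmg' : AEMeasurable (fun φ => ENNReal.ofReal (g' φ)) (volume.restrict (Ioo (-π) π)) :=
    hgc'.measurable.ennreal_ofReal.aemeasurable
  have hind : Measurable ((Ico (r - h) r).indicator fun _ : ℝ => ENNReal.ofReal M) :=
    measurable_const.indicator measurableSet_Ico
  rw [Measure.volume_eq_prod, ← Measure.prod_restrict,
    lintegral_add_right _ (show Measurable (fun p : ℝ × ℝ =>
      (Ico (r - h) r).indicator (fun _ => ENNReal.ofReal M) p.1) from hind.comp measurable_fst),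
    lintegral_add_left' (show AEMeasurable (fun p : ℝ × ℝ =>
      ENNReal.ofReal (p.1 * deriv w p.1 ^ 2) * ENNReal.ofReal (g p.2)) _ from (hmw.comp_quasiMeasurePreserving
        Measure.quasiMeasurePreserving_fst).mul (hmg.comp_quasiMeasurePreserving
        Measure.quasiMeasurePreserving_snd)),
    lintegral_prod_mul hmw hmg,
    lintegral_prod_mul hmw' hmg']
  have ig : ∫⁻ φ in Ioo (-π) π, ENNReal.ofReal (g φ) = ENNReal.ofReal (∫ φ in -π..π, g φ) := by
    rw [intervalIntegral.integral_of_le (by linarith), integral_Ioc_eq_integral_Ioo,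
      ofReal_integral_eq_lintegral_ofReal
        (hgc.integrableOn_Icc.mono_set Ioo_subset_Icc_self)
        (Eventually.of_forall fun φ => sq_nonneg _)]
  have ig' : ∫⁻ φ in Ioo (-π) π, ENNReal.ofReal (g' φ) = ENNReal.ofReal (∫ φ in -π..π, g' φ) := by
    rw [intervalIntegral.integral_of_le (by linarith), integral_Ioc_eq_integral_Ioo,
      ofReal_integral_eq_lintegral_ofReal
        (hgc'.integrableOn_Icc.mono_set Ioo_subset_Icc_self)
        (Eventually.of_forall fun φ => sq_nonneg _)]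
  have e3 : ∫⁻ p, (Ico (r - h) r).indicator (fun _ => ENNReal.ofReal M) p.1
      ∂((volume.restrict (Ioo 0 r)).prod (volume.restrict (Ioo (-π) π))) ≤ ENNReal.ofReal η := by
    rw [lintegral_prod _ (show Measurable (fun p : ℝ × ℝ =>
      (Ico (r - h) r).indicator (fun _ => ENNReal.ofReal M) p.1) from
        hind.comp measurable_fst).aemeasurable]
    simp only [lintegral_const, Measure.restrict_apply_univ, Real.volume_Ioo]
    rw [lintegral_mul_const _ hind, lintegral_indicator measurableSet_Ico, lintegral_const,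
      Measure.restrict_restrict measurableSet_Ico, Measure.restrict_apply_univ]
    refine (mul_le_mul_left (mul_le_mul_right (measure_mono inter_subset_left) _) _).trans ?_
    rw [Real.volume_Ico, ← ENNReal.ofReal_mul hM0, ← ENNReal.ofReal_mul (mul_nonneg hM0 (by linarith))]
    refine ENNReal.ofReal_le_ofReal (le_trans (le_of_eq ?_)
      ((mul_le_mul_of_nonneg_left (mul_le_mul_of_nonneg_left (le_add_of_nonneg_right zero_le_one)
        (by positivity : (0 : ℝ) ≤ 2 * π)) hh0.le).trans hhη))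
    ring
  refine (add_le_add (add_le_add (mul_le_mul hwA (le_of_eq ig) zero_le zero_le)
    (mul_le_mul hwB (le_of_eq ig') zero_le zero_le)) e3).trans (le_of_eq ?_)
  have i0 : 0 ≤ ∫ φ in -π..π, g φ :=
    intervalIntegral.integral_nonneg (by linarith) fun φ _ => sq_nonneg _
  have i0' : 0 ≤ ∫ φ in -π..π, g' φ :=
    intervalIntegral.integral_nonneg (by linarith) fun φ _ => sq_nonneg _
  rw [← ENNReal.ofReal_mul hA, ← ENNReal.ofReal_mul hB,
    ← ENNReal.ofReal_add (mul_nonneg hA i0) (mul_nonneg hB i0'),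
    ← ENNReal.ofReal_add (add_nonneg (mul_nonneg hA i0) (mul_nonneg hB i0')) hη.le]

/-- `exists_blend_factor` without the dependence on the angle. -/
theorem exists_blend_inner {r ε A B : ℝ} (hr : 0 < r) (hε : 0 < ε) (m : ℝ) {G : ℝ × ℝ → ℝ}
    (hG : ContDiffOn ℝ ∞ G (Ioo (r - ε) (r + ε) ×ˢ univ)) {w : ℝ → ℝ}
    (hw : ContDiffOn ℝ ∞ w (Ioi 0)) (hw1 : w r = 1) (hA : 0 ≤ A) (hB : 0 ≤ B)
    (hwA : ∫⁻ t in Ioo 0 r, ENNReal.ofReal (t * deriv w t ^ 2) ≤ ENNReal.ofReal A)
    (hwB : ∫⁻ t in Ioo 0 r, ENNReal.ofReal (w t ^ 2 / t) ≤ ENNReal.ofReal B)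
    {η : ℝ} (hη : 0 < η) :
    ∃ (Φ : ℝ × ℝ → ℝ) (h : ℝ), 0 < h ∧ h < ε ∧ h < r ∧
      ContDiffOn ℝ ∞ Φ (Ioo 0 r ×ˢ univ) ∧
      (∀ t ∈ Ioo (r - h) r, ∀ φ, Φ (t, φ) = m + G (t, φ)) ∧
      (∀ t ≤ r / 2, ∀ φ, Φ (t, φ) = m + w t * G (r, φ)) ∧
      ∫⁻ p in Ioo 0 r ×ˢ Ioo (-π) π, ENNReal.ofReal (pen Φ p) ≤
        ENNReal.ofReal (A * (∫ φ in -π..π, G (r, φ) ^ 2) +
          B * (∫ φ in -π..π, fderiv ℝ G (r, φ) (0, 1) ^ 2) + η) := by
  obtain ⟨Φ, h, h0, h1, h2, h3, h4, h5, -, h6⟩ :=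
    exists_blend_factor hr hε m hG hw hw1 hA hB hwA hwB hη
  exact ⟨Φ, h, h0, h1, h2, h3, h4, h5, h6⟩

/-- Values `G` near the circle of radius `r` extended by the profile `w`, at almost no extra
cost. -/
theorem exists_blend {r ε A B : ℝ} (hr : 0 < r) (hε : 0 < ε) (m : ℝ) {G : ℝ × ℝ → ℝ}
    (hG : ContDiffOn ℝ ∞ G (Ioo (r - ε) (r + ε) ×ˢ univ)) {w : ℝ → ℝ}
    (hw : ContDiffOn ℝ ∞ w (Ioi 0)) (hw1 : w r = 1) (hA : 0 ≤ A) (hB : 0 ≤ B)
    (hwA : ∫⁻ t in Ioo 0 r, ENNReal.ofReal (t * deriv w t ^ 2) ≤ ENNReal.ofReal A)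
    (hwB : ∫⁻ t in Ioo 0 r, ENNReal.ofReal (w t ^ 2 / t) ≤ ENNReal.ofReal B)
    {η : ℝ} (hη : 0 < η) :
    ∃ (Φ : ℝ × ℝ → ℝ) (h : ℝ), 0 < h ∧ h < ε ∧ h < r ∧
      ContDiffOn ℝ ∞ Φ (Ioo 0 r ×ˢ univ) ∧
      (∀ t ∈ Ioo (r - h) r, ∀ φ, Φ (t, φ) = m + G (t, φ)) ∧
      ∫⁻ p in Ioo 0 r ×ˢ Ioo (-π) π, ENNReal.ofReal (pen Φ p) ≤
        ENNReal.ofReal (A * (∫ φ in -π..π, G (r, φ) ^ 2) +
          B * (∫ φ in -π..π, fderiv ℝ G (r, φ) (0, 1) ^ 2) + η) := by
  obtain ⟨Φ, h, h0, h1, h2, h3, h4, -, h5⟩ :=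
    exists_blend_inner hr hε m hG hw hw1 hA hB hwA hwB hη
  exact ⟨Φ, h, h0, h1, h2, h3, h4, h5⟩

/-- A finite polar energy gives a square integrable gradient and bounds its integral. -/
lemma energy_unpol {x τ : ℂ} (hτ : ‖τ‖ = 1) {Φ : ℝ × ℝ → ℝ} {r E : ℝ} (hE : 0 ≤ E)
    (hΦ : ContDiffOn ℝ ∞ Φ (Ioo 0 r ×ˢ univ))
    (h : ∫⁻ p in Ioo 0 r ×ˢ Ioo (-π) π, ENNReal.ofReal (pen Φ p) ≤ ENNReal.ofReal E) :
    MemLp (grad (unpol x τ Φ)) 2 (volume.restrict (ball x r)) ∧
      ∫ y in ball x r, ‖grad (unpol x τ Φ) y‖ ^ 2 ≤ E := by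
  set V := unpol x τ Φ
  have hfin : ∫⁻ y in ball x r, ENNReal.ofReal (‖grad V y‖ ^ 2) ≤ ENNReal.ofReal E := by
    rw [lintegral_grad_unpol hτ hΦ]; exact h
  have hmeas : Measurable (grad V) := by
    have e : grad V = fun y => ((fderiv ℝ V y 1 : ℝ) : ℂ) +
        ((fderiv ℝ V y Complex.I : ℝ) : ℂ) * Complex.I := by
      funext y; simp [grad, Complex.ext_iff]
    rw [e]
    exact (Complex.measurable_ofReal.comp (measurable_fderiv_apply_const ℝ V 1)).add
      ((Complex.measurable_ofReal.comp (measurable_fderiv_apply_const ℝ V Complex.I)).mul_const _)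
  have hint : Integrable (fun y => ‖grad V y‖ ^ 2) (volume.restrict (ball x r)) :=
    ⟨(hmeas.norm.pow_const 2).aestronglyMeasurable,
      (hasFiniteIntegral_iff_ofReal (Eventually.of_forall fun y => sq_nonneg _)).2
        (hfin.trans_lt ENNReal.ofReal_lt_top)⟩
  refine ⟨(memLp_two_iff_integrable_sq_norm hmeas.aestronglyMeasurable).2 hint, ?_⟩
  have := ofReal_integral_eq_lintegral_ofReal hint (Eventually.of_forall fun y => sq_nonneg _)
  rw [← this] at hfin
  exact (ENNReal.ofReal_le_ofReal_iff hE).1 hfin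

/-! ### Tangential energy -/

/-- The derivative of `u` along a circle. -/
lemma hasDerivAt_circle {u : ℂ → ℝ} {K : Set ℂ} (h : Reg u K) {x : ℂ} {r : ℝ} (hr : 0 < r)
    {θ : ℝ} (hθ : circleMap x r θ ∉ K) :
    HasDerivAt (fun t => u (circleMap x r t))
      (r * dot (grad u (circleMap x r θ)) (Complex.I * dir x (circleMap x r θ))) θ := by
  set y := circleMap x r θ with hy
  have hd := ((h.smooth y hθ).contDiffAt (h.isClosed.isOpen_compl.mem_nhds hθ)).differentiableAt
    (by simp)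
  refine (hd.hasFDerivAt.comp_hasDerivAt θ (hasDerivAt_circleMap x r θ)).congr_deriv ?_
  have hn : ‖y - x‖ = r := by simp [hy, circleMap, abs_of_pos hr]
  have e : circleMap 0 r θ * Complex.I = r • (Complex.I * dir x y) := by
    rw [dir, hn, ← mul_smul_comm, smul_smul, mul_inv_cancel₀ hr.ne', one_smul]
    simp [hy, circleMap]
    ring
  rw [e, map_smul, smul_eq_mul]
  congr 1
  conv_lhs => rw [show Complex.I * dir x y = (Complex.I * dir x y).re • (1 : ℂ) +
    (Complex.I * dir x y).im • Complex.I from Complex.ext (by simp) (by simp)]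
  rw [map_add, map_smul, map_smul]
  simp only [dot, smul_eq_mul, grad_re, grad_im]
  ring

/-- On almost every circle the tangential energy is an honest integral. -/
lemma ae_intervalIntegrable_tang {u : ℂ → ℝ} {K : Set ℂ} (h : Reg u K) (x : ℂ) :
    ∀ᵐ r : ℝ, 0 < r → ∀ a b, IntervalIntegrable
      (fun θ => dot (grad u (circleMap x r θ)) (Complex.I * dir x (circleMap x r θ)) ^ 2)
      volume a b := by
  have key : ∀ n : ℕ, ∀ᵐ r : ℝ, r ∈ Ioo (0 : ℝ) (n : ℝ) → IntervalIntegrable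
      (fun θ => ‖grad u (circleMap x r θ)‖ ^ 2) volume (-π) π := by
    intro n
    have hi : IntegrableOn (fun y => ‖grad u y‖ ^ 2) (ball x n) :=
      ((h.memLp (‖x‖ + n)).mono_measure (Measure.restrict_mono_set _
        (ball_subset_ball' (by rw [dist_zero_right]; linarith)))).norm.integrable_sq
    have := Classify.ae_integrableOn_circle
      ((integrable_indicator_iff measurableSet_ball).2 hi) x
    rw [ae_restrict_iff' measurableSet_Ioi] at this
    filter_upwards [this] with r hr hr'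
    refine (hr hr'.1).congr fun θ _ => ?_
    refine indicator_of_mem (f := fun y => ‖grad u y‖ ^ 2) ?_
    rw [mem_ball, dist_eq_norm, show ‖circleMap x r θ - x‖ = r by
      simp [circleMap, abs_of_pos hr'.1]]
    exact hr'.2
  filter_upwards [ae_all_iff.2 key] with r hr hr0 a b
  obtain ⟨n, hn⟩ := exists_nat_gt r
  have h1 := hr n ⟨hr0, hn⟩
  have hp : Function.Periodic (fun θ => ‖grad u (circleMap x r θ)‖ ^ 2) (2 * π) := fun θ => by
    simp only [periodic_circleMap x r θ]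
  have h2 := hp.intervalIntegrable (t := -π) (by positivity)
    (by rwa [show -π + 2 * π = π by ring]) a b
  refine IntervalIntegrable.mono_fun' h2 ?_ (Eventually.of_forall fun θ => ?_)
  · have hc : Measurable (grad u) := by
      have e : grad u = fun y => ((fderiv ℝ u y 1 : ℝ) : ℂ) +
          ((fderiv ℝ u y Complex.I : ℝ) : ℂ) * Complex.I := by
        funext y; simp [grad, Complex.ext_iff]
      rw [e]
      exact (Complex.measurable_ofReal.comp (measurable_fderiv_apply_const ℝ u 1)).add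
        ((Complex.measurable_ofReal.comp (measurable_fderiv_apply_const ℝ u Complex.I)).mul_const _)
    have hcm : Measurable (circleMap x r) := (continuous_circleMap x r).measurable
    have hdd : Measurable fun θ => Complex.I * dir x (circleMap x r θ) := by
      unfold dir; fun_prop
    unfold dot
    exact ((((hc.comp hcm).re.mul hdd.re).add ((hc.comp hcm).im.mul hdd.im)).pow_const 2
      ).aestronglyMeasurable
  · simp only [Real.norm_eq_abs]
    rw [abs_of_nonneg (sq_nonneg _)]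
    have hd1 : ‖Complex.I * dir x (circleMap x r θ)‖ = 1 := by
      simp [dir, circleMap, abs_of_pos hr0, hr0.ne']
    rw [dot_eq_inner, ← sq_abs]
    refine pow_le_pow_left₀ (abs_nonneg _) ((abs_real_inner_le_norm _ _).trans ?_) 2
    rw [hd1, mul_one]

/-- The tangential energy on any period. -/
lemma tang_eq {u : ℂ → ℝ} (x : ℂ) (r t : ℝ) :
    tang u x r = r * ∫ θ in t..t + 2 * π,
      dot (grad u (circleMap x r θ)) (Complex.I * dir x (circleMap x r θ)) ^ 2 := by
  have hp : Function.Periodic (fun θ =>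
      dot (grad u (circleMap x r θ)) (Complex.I * dir x (circleMap x r θ)) ^ 2) (2 * π) := fun θ => by
    simp only [periodic_circleMap x r θ]
  rw [hp.intervalIntegral_add_eq t (-π), show -π + 2 * π = π by ring,
    intervalIntegral.integral_of_le (by linarith [Real.pi_pos])]
  rfl

end Vale.Agent.P128.Bonnet
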