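import Vale.Agent.P128.Bonnet.Competitor.Blend
import Vale.Agent.P128.Classify.Wirtinger

/-!
# Clamped angles

A smooth monotone clamp of angles to an arc, so that boundary values can be read on a compact
arc free of the singular set, and the Wirtinger inequality for the clamped values.
-/

namespace Vale.Agent.P128.Bonnet

open MeasureTheory Filter Metric Set
open scoped Topology ContDiff Real

/-- The clamp: the identity on `[-p, p]`, constant outside `[-q, q]`, slope in `[0, 1]`. -/
theorem exists_clamp {p q : ℝ} (hp : 0 < p) (hpq : p < q) :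
    ∃ c : ℝ → ℝ, ContDiff ℝ ∞ c ∧ (∀ φ, 0 ≤ deriv c φ ∧ deriv c φ ≤ 1) ∧
      (∀ φ, |φ| ≤ p → c φ = φ) ∧ (∀ φ, |c φ| ≤ q) ∧
      (∀ φ, q ≤ φ → c φ = c q) ∧ ∀ φ, φ ≤ -q → c φ = c (-q) := by
  let b : ContDiffBump (0 : ℝ) := ⟨p, q, hp, hpq⟩
  set c : ℝ → ℝ := fun φ => ∫ t in (0 : ℝ)..φ, b t with hc
  have hd : ∀ φ, HasDerivAt c (b φ) φ := fun φ => intervalIntegral.integral_hasDerivAt_right
    (b.continuous.intervalIntegrable _ _) (b.continuous.stronglyMeasurableAtFilter _ _)
    b.continuous.continuousAt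
  have hde : deriv c = ⇑b := funext fun φ => (hd φ).deriv
  have hcd : ContDiff ℝ ∞ c :=
    contDiff_infty_iff_deriv.2 ⟨fun φ => (hd φ).differentiableAt, by rw [hde]; exact b.contDiff⟩
  have hout : ∀ u v, (∀ t ∈ uIcc u v, q ≤ |t|) → c v = c u := by
    intro u v h
    have e := intervalIntegral.integral_add_adjacent_intervals
      (b.continuous.intervalIntegrable (μ := volume) 0 u) (b.continuous.intervalIntegrable u v)
    have z : ∫ t in u..v, b t = 0 := by
      rw [intervalIntegral.integral_congr (g := fun _ => (0 : ℝ)) fun t ht =>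
        b.zero_of_le_dist (by simpa [Real.dist_eq] using h t ht)]
      simp
    simp only [hc]
    rw [← e, z, add_zero]
  have hq : ∀ φ, q ≤ φ → c φ = c q := fun φ h => hout q φ fun t ht => by
    rw [uIcc_of_le h] at ht
    exact ht.1.trans (le_abs_self t)
  have hq' : ∀ φ, φ ≤ -q → c φ = c (-q) := fun φ h => hout (-q) φ fun t ht => by
    rw [uIcc_of_ge h] at ht
    exact le_trans (by linarith [ht.2]) (neg_le_abs t)
  have hlip : ∀ φ, |c φ| ≤ |φ| := by
    intro φ
    have := intervalIntegral.norm_integral_le_of_norm_le_const (C := 1) (f := fun t => b t)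
      (a := 0) (b := φ) fun t _ => by rw [Real.norm_eq_abs, abs_of_nonneg b.nonneg]; exact b.le_one
    simpa [hc] using this
  refine ⟨c, hcd, fun φ => by rw [hde]; exact ⟨b.nonneg, b.le_one⟩, fun φ hφ => ?_,
    fun φ => ?_, hq, hq'⟩
  · simp only [hc]
    rw [intervalIntegral.integral_congr (g := fun _ => (1 : ℝ)) fun t ht =>
      b.one_of_mem_closedBall (x := t) (by
        rw [mem_closedBall, Real.dist_eq, sub_zero]
        rw [abs_le] at hφ
        rcases le_total 0 φ with h | h
        · rw [uIcc_of_le h] at ht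
          exact abs_le.2 ⟨by linarith [ht.1], by linarith [ht.2, hφ.2]⟩
        · rw [uIcc_of_ge h] at ht
          exact abs_le.2 ⟨by linarith [ht.1, hφ.1], by linarith [ht.2]⟩)]
    simp
  · rcases le_total q φ with h | h
    · rw [hq φ h]
      exact (hlip q).trans (le_of_eq (abs_of_pos (hp.trans hpq)))
    rcases le_total φ (-q) with h' | h'
    · rw [hq' φ h']
      exact (hlip (-q)).trans (le_of_eq (by rw [abs_neg, abs_of_pos (hp.trans hpq)]))
    · exact (hlip φ).trans (abs_le.2 ⟨h', h⟩)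

/-- Clamped values have no more energy. -/
theorem integral_sq_clamp_le {c g' : ℝ → ℝ} {q : ℝ} (hq' : q ≤ π)
    (hc : ContDiff ℝ ∞ c) (hd : ∀ φ, 0 ≤ deriv c φ ∧ deriv c φ ≤ 1) (hcb : ∀ φ, |c φ| ≤ q)
    (hg : ContinuousOn g' (Icc (-q) q))
    (hi : IntervalIntegrable (fun ψ => g' ψ ^ 2) volume (-π) π) :
    ∫ φ in -π..π, (g' (c φ) * deriv c φ) ^ 2 ≤ ∫ ψ in -π..π, g' ψ ^ 2 := by
  have hπ := Real.pi_pos
  have hdc : Continuous (deriv c) := hc.continuous_deriv (by simp)
  have hmem : ∀ φ, c φ ∈ Icc (-q) q := fun φ => abs_le.1 (hcb φ)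
  have hgc : Continuous fun φ => g' (c φ) := hg.comp_continuous hc.continuous hmem
  have hci : Continuous fun φ => g' (c φ) ^ 2 * deriv c φ := (hgc.pow 2).mul hdc
  refine (intervalIntegral.integral_mono_on (by linarith)
    (((hgc.mul hdc).pow 2).intervalIntegrable _ _) (hci.intervalIntegrable _ _) fun φ _ => ?_).trans ?_
  · simp only [Pi.pow_apply, Pi.mul_apply, mul_pow]
    refine mul_le_mul_of_nonneg_left ?_ (sq_nonneg _)
    nlinarith [hd φ]
  have e := intervalIntegral.integral_comp_mul_deriv' (a := -π) (b := π) (f := c) (f' := deriv c)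
    (g := fun ψ => g' ψ ^ 2) (fun φ _ => (hc.differentiable (by simp) φ).hasDerivAt)
    hdc.continuousOn ((hg.pow 2).mono (by rintro _ ⟨φ, -, rfl⟩; exact hmem φ))
  simp only [Function.comp_apply] at e
  rw [e]
  refine intervalIntegral.integral_mono_interval (by linarith [(hmem (-π)).1]) ?_
    (by linarith [(hmem π).2]) (Eventually.of_forall fun ψ => sq_nonneg _) hi
  exact (monotone_of_deriv_nonneg (hc.differentiable (by simp)) fun φ => (hd φ).1) (by linarith)

/-- Wirtinger for values which vanish at `0` and are constant beyond `q`. -/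
theorem wirtinger_half {Q Q' : ℝ → ℝ} {q : ℝ} (hq : q < π) (hd : ∀ φ, HasDerivAt Q (Q' φ) φ)
    (hQ' : Continuous Q') (h0 : Q 0 = 0) (hc : ∀ φ, q ≤ φ → Q φ = Q q) :
    ∫ φ in (0 : ℝ)..π, Q φ ^ 2 ≤ 4 * ∫ φ in (0 : ℝ)..π, Q' φ ^ 2 := by
  have hπ := Real.pi_pos
  have hQc : Continuous Q := continuous_iff_continuousAt.2 fun φ => (hd φ).continuousAt
  have hz : ∀ φ, q < φ → Q' φ = 0 := fun φ h => (hd φ).unique
    ((hasDerivAt_const φ (Q q)).congr_of_eventuallyEq
      (eventually_of_mem (Ioi_mem_nhds h) fun s hs => hc s (le_of_lt hs)))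
  set F : ℝ → ℝ := fun φ => Q (min φ (2 * π - φ)) with hF
  set F' : ℝ → ℝ := fun φ => if φ ≤ π then Q' φ else -Q' (2 * π - φ) with hF'
  have hFd : ∀ φ, HasDerivAt F (F' φ) φ := by
    intro φ
    rcases lt_trichotomy φ π with h | h | h
    · simp only [hF', if_pos h.le]
      refine (hd φ).congr_of_eventuallyEq (eventually_of_mem (Iio_mem_nhds h) fun s hs => ?_)
      simp only [hF, min_eq_left (by linarith [mem_Iio.1 hs] : s ≤ 2 * π - s)]
    · subst h
      simp only [hF', if_pos le_rfl, hz π hq]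
      refine (hasDerivAt_const π (Q q)).congr_of_eventuallyEq ?_
      filter_upwards [Ioo_mem_nhds hq (show π < 2 * π - q by linarith)] with s hs
      exact hc _ (le_min hs.1.le (by linarith [hs.2]))
    · simp only [hF', if_neg (not_le.2 h)]
      refine (((hd (2 * π - φ)).comp φ ((hasDerivAt_id φ).const_sub (2 * π))).congr_deriv
        (by simp)).congr_of_eventuallyEq (eventually_of_mem (Ioi_mem_nhds h) fun s hs => ?_)
      simp only [hF, Function.comp_apply, min_eq_right (by linarith [mem_Ioi.1 hs] : 2 * π - s ≤ s)]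
  have hFc : Continuous F := hQc.comp (continuous_id.min (continuous_const.sub continuous_id))
  have hF'c : Continuous fun φ => F' φ := by
    simp only [hF']
    refine Continuous.if_le hQ' (hQ'.comp (continuous_const.sub continuous_id)).neg continuous_id
      continuous_const fun φ hφ => ?_
    subst hφ
    rw [hz π hq, show 2 * π - π = π by ring, hz π hq, neg_zero]
  have hi : IntegrableOn (fun φ => F' φ ^ 2) (Ioo 0 (2 * π)) :=
    (hF'c.pow 2).integrableOn_Icc.mono_set Ioo_subset_Icc_self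
  have e0 : F 0 = 0 := by simp [hF, min_eq_left (by linarith : (0 : ℝ) ≤ 2 * π), h0]
  have e1 : F (2 * π) = 0 := by simp [hF, min_eq_right (by linarith : (0 : ℝ) ≤ 2 * π), h0]
  have hw := Classify.wirtinger (by linarith : (0 : ℝ) < 2 * π) hFc.continuousOn e0 e1
    (fun φ _ _ => hFd φ) (hi.mono_set inter_subset_left)
  have hsub : ∫ φ in Ioo 0 (2 * π) ∩ {φ | F φ ≠ 0}, F' φ ^ 2 ≤
      ∫ φ in Ioo 0 (2 * π), F' φ ^ 2 :=
    setIntegral_mono_set hi (Eventually.of_forall fun φ => sq_nonneg _)
      (Eventually.of_forall inter_subset_left)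
  have sym : ∀ f g : ℝ → ℝ, Continuous f → (∀ φ, φ ≤ π → f φ = g φ) →
      (∀ φ, π ≤ φ → f φ = g (2 * π - φ)) →
      ∫ φ in Ioo 0 (2 * π), f φ = 2 * ∫ φ in (0 : ℝ)..π, g φ := by
    intro f g hf h1 h2
    rw [← integral_Ioc_eq_integral_Ioo, ← intervalIntegral.integral_of_le (by linarith),
      ← intervalIntegral.integral_add_adjacent_intervals (b := π)
        (hf.intervalIntegrable _ _) (hf.intervalIntegrable _ _),
      intervalIntegral.integral_congr (g := g) fun φ hφ =>
        h1 φ (by rw [uIcc_of_le hπ.le] at hφ; exact hφ.2),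
      intervalIntegral.integral_congr (a := π) (g := fun φ => g (2 * π - φ)) fun φ hφ =>
        h2 φ (by rw [uIcc_of_le (by linarith)] at hφ; exact hφ.1),
      intervalIntegral.integral_comp_sub_left, sub_self, show 2 * π - π = π by ring]
    ring
  have s1 := sym (fun φ => F φ ^ 2) (fun φ => Q φ ^ 2) (hFc.pow 2)
    (fun φ h => by simp only [hF, min_eq_left (by linarith : φ ≤ 2 * π - φ)])
    (fun φ h => by simp only [hF, min_eq_right (by linarith : 2 * π - φ ≤ φ)])
  have s2 := sym (fun φ => F' φ ^ 2) (fun φ => Q' φ ^ 2) (hF'c.pow 2)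
    (fun φ h => by simp only [hF', if_pos h])
    (fun φ h => by
      rcases eq_or_lt_of_le h with rfl | h'
      · simp only [hF', if_pos le_rfl]
        ring_nf
      · simp only [hF', if_neg (not_le.2 h'), neg_sq])
  rw [show ((2 * π - 0) / π) ^ 2 = 4 by field_simp; ring] at hw
  rw [s1] at hw
  linarith

end Vale.Agent.P128.Bonnet
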