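import Vale.Agent.P128.Bonnet.Competitor.Spoke

/-!
# Small arcs as competitor

The values of `u` on the circle are multiplied by a cutoff vanishing near the centres of the
arcs. A product of cutoffs `1 - k²` keeps the cost linear in the number of arcs, since the square
of its derivative is at most four times the sum of the squares of the `k'`.
-/

noncomputable section

namespace Vale.Agent.P128.Bonnet

open MeasureTheory Filter Metric Set Islands Connected
open scoped Topology ENNReal NNReal ContDiff Real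

namespace Delete

/-- The derivative of a product of cutoffs `1 - k²`. -/
lemma prod_bound {ι : Type*} (Z : Finset ι) (k : ι → ℝ → ℝ) (k' : ι → ℝ) (φ : ℝ)
    (hd : ∀ z ∈ Z, HasDerivAt (k z) (k' z) φ) (hk : ∀ z ∈ Z, |k z φ| ≤ 1) :
    ∏ z ∈ Z, (1 - k z φ ^ 2) ∈ Icc (0 : ℝ) 1 ∧
      ∃ D, HasDerivAt (fun s => ∏ z ∈ Z, (1 - k z s ^ 2)) D φ ∧
        D ^ 2 ≤ 4 * (1 - ∏ z ∈ Z, (1 - k z φ ^ 2)) * ∑ z ∈ Z, k' z ^ 2 := by
  classical
  induction Z using Finset.induction_on with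
  | empty => exact ⟨by simp, 0, by simpa using hasDerivAt_const φ (1 : ℝ), by simp⟩
  | @insert a Z ha ih =>
    obtain ⟨hc, D, hD, hDb⟩ := ih (fun z hz => hd z (Finset.mem_insert_of_mem hz))
      (fun z hz => hk z (Finset.mem_insert_of_mem hz))
    set c := ∏ z ∈ Z, (1 - k z φ ^ 2) with hcd
    set S := ∑ z ∈ Z, k' z ^ 2 with hS
    have hS0 : 0 ≤ S := Finset.sum_nonneg fun _ _ => sq_nonneg _
    set κ := k a φ
    set p := k' a
    have hκ : κ ^ 2 ≤ 1 := by
      have := hk a (Finset.mem_insert_self a Z)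
      rwa [sq_le_one_iff_abs_le_one]
    obtain ⟨hc0, hc1⟩ := hc
    rw [Finset.prod_insert ha, Finset.sum_insert ha]
    refine ⟨⟨mul_nonneg (by linarith) hc0, mul_le_one₀ (by linarith [sq_nonneg κ]) hc0 hc1⟩,
      -(2 * κ * p) * c + (1 - κ ^ 2) * D, ?_, ?_⟩
    · simp only [Finset.prod_insert ha]
      exact ((((hd a (Finset.mem_insert_self a Z)).pow 2).const_sub 1).mul hD).congr_deriv (by
        simp [κ, p, hcd])
    · set s := 1 - κ ^ 2 with hsd
      have hs0 : 0 ≤ s := by linarith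
      have cross : -4 * (κ * p * c) * (s * D) ≤
          4 * (κ * c) ^ 2 * S + 4 * s ^ 2 * (1 - c) * p ^ 2 := by
        refine (abs_le_of_sq_le_sq' ?_ ?_).2
        · have h1 : (-4 * (κ * p * c) * (s * D)) ^ 2 ≤
              16 * (κ * p * c) ^ 2 * s ^ 2 * (4 * (1 - c) * S) := by
            calc (-4 * (κ * p * c) * (s * D)) ^ 2 = 16 * (κ * p * c) ^ 2 * s ^ 2 * D ^ 2 := by ring
              _ ≤ _ := mul_le_mul_of_nonneg_left hDb (by positivity)
          nlinarith [sq_nonneg ((κ * c) ^ 2 * S - s ^ 2 * (1 - c) * p ^ 2)]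
        · have : 0 ≤ 1 - c := by linarith
          positivity
      have h2 : (κ * c) ^ 2 + s ^ 2 * (1 - c) ≤ 1 - s * c := by
        have : c ^ 2 ≤ 1 := pow_le_one₀ hc0 hc1
        have h3 : (κ * c) ^ 2 ≤ κ ^ 2 := by
          rw [mul_pow]; exact mul_le_of_le_one_right (sq_nonneg κ) this
        have h4 : s ^ 2 * (1 - c) ≤ s * (1 - c) :=
          mul_le_mul_of_nonneg_right (by nlinarith [sq_nonneg κ]) (by linarith)
        have h5 : s * (1 - c) = 1 - κ ^ 2 - s * c := by rw [hsd]; ring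
        linarith
      have h6 : s ^ 2 * D ^ 2 ≤ s ^ 2 * (4 * (1 - c) * S) :=
        mul_le_mul_of_nonneg_left hDb (sq_nonneg s)
      calc (-(2 * κ * p) * c + s * D) ^ 2
          = 4 * (κ * c) ^ 2 * p ^ 2 + -4 * (κ * p * c) * (s * D) + s ^ 2 * D ^ 2 := by ring
        _ ≤ 4 * ((κ * c) ^ 2 + s ^ 2 * (1 - c)) * (p ^ 2 + S) := by linarith
        _ ≤ 4 * (1 - s * c) * (p ^ 2 + S) := by gcongr

/-- Bound for the derivative of the smooth step, vanishing outside the unit interval. -/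
lemma exists_deriv_bound : ∃ C₀ : ℝ, (∀ t, |deriv Real.smoothTransition t| ≤ C₀) ∧
    ∀ t ≤ 0, deriv Real.smoothTransition t = 0 := by
  have h0 : ∀ t ≤ 0, deriv Real.smoothTransition t = 0 := fun t ht =>
    IsLocalMin.deriv_eq_zero (Eventually.of_forall fun s => by
      rw [Real.smoothTransition.zero_of_nonpos ht]; exact Real.smoothTransition.nonneg s)
  have h1 : ∀ t, 1 ≤ t → deriv Real.smoothTransition t = 0 := fun t ht =>
    IsLocalMax.deriv_eq_zero (Eventually.of_forall fun s => by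
      rw [Real.smoothTransition.one_of_one_le ht]; exact Real.smoothTransition.le_one s)
  obtain ⟨C₀, hC⟩ := (isCompact_Icc (a := (0 : ℝ)) (b := 1)).exists_bound_of_continuousOn
    ((Real.smoothTransition.contDiff (n := 1)).continuous_deriv le_rfl).continuousOn
  have hC0 : 0 ≤ C₀ := (norm_nonneg _).trans (hC 0 ⟨le_rfl, zero_le_one⟩)
  refine ⟨C₀, fun t => ?_, h0⟩
  rcases le_or_gt t 0 with h | h
  · rw [h0 t h, abs_zero]; exact hC0
  rcases le_or_gt 1 t with h' | h'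
  · rw [h1 t h', abs_zero]; exact hC0
  exact hC t ⟨h.le, h'.le⟩

/-- An angle with cosine close to one is close to a multiple of `2 π`. -/
lemma near_angle {δ : ℝ} (hδ : 0 ≤ δ) {ψ : ℝ} (h : 1 - Real.cos ψ ≤ 2 * δ ^ 2) :
    ∃ n : ℤ, |ψ - n • (2 * π)| ≤ π * δ := by
  refine ⟨toIocDiv Real.two_pi_pos (-π) ψ, ?_⟩
  set ψ' := ψ - toIocDiv Real.two_pi_pos (-π) ψ • (2 * π) with hψ'
  have hm : ψ' ∈ Ioc (-π) (-π + 2 * π) := sub_toIocDiv_zsmul_mem_Ioc Real.two_pi_pos (-π) ψ
  have habs : |ψ'| ≤ π := abs_le.2 ⟨hm.1.le, by linarith [hm.2]⟩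
  have hc : Real.cos ψ' = Real.cos ψ := Real.cos_periodic.sub_zsmul_eq _
  have h1 := Real.cos_le_one_sub_mul_cos_sq habs
  rw [hc] at h1
  have h2 : 2 / π ^ 2 * ψ' ^ 2 ≤ 2 * δ ^ 2 := by linarith
  rw [div_mul_eq_mul_div, div_le_iff₀ (by positivity)] at h2
  exact abs_le_of_sq_le_sq (by linarith [mul_pow π δ 2]) (by positivity)

/-- The cutoff round the centre of an arc: one for `1 - cos ≤ δ²`, zero for `1 - cos ≥ 2 δ²`. -/
def bump (δ ψ : ℝ) : ℝ := Real.smoothTransition (2 - (1 - Real.cos ψ) / δ ^ 2)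

/-- Its derivative. -/
def bump' (δ ψ : ℝ) : ℝ :=
  deriv Real.smoothTransition (2 - (1 - Real.cos ψ) / δ ^ 2) * -(Real.sin ψ / δ ^ 2)

variable {δ : ℝ}

lemma bump_mem (δ ψ : ℝ) : bump δ ψ ∈ Icc (0 : ℝ) 1 :=
  ⟨Real.smoothTransition.nonneg _, Real.smoothTransition.le_one _⟩

lemma abs_bump_le (δ ψ : ℝ) : |bump δ ψ| ≤ 1 :=
  abs_le.2 ⟨by linarith [(bump_mem δ ψ).1], (bump_mem δ ψ).2⟩

lemma bump_eq_one (hδ : 0 < δ) {ψ : ℝ} (h : 1 - Real.cos ψ ≤ δ ^ 2) : bump δ ψ = 1 := by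
  refine Real.smoothTransition.one_of_one_le ?_
  have : (1 - Real.cos ψ) / δ ^ 2 ≤ 1 := (div_le_one (by positivity)).2 h
  linarith

lemma bump_eq_zero (hδ : 0 < δ) {ψ : ℝ} (h : 2 * δ ^ 2 ≤ 1 - Real.cos ψ) : bump δ ψ = 0 := by
  refine Real.smoothTransition.zero_of_nonpos ?_
  have : 2 ≤ (1 - Real.cos ψ) / δ ^ 2 := (le_div_iff₀ (by positivity)).2 h
  linarith

lemma contDiff_bump (δ : ℝ) : ContDiff ℝ ∞ (bump δ) :=
  Real.smoothTransition.contDiff.comp
    (contDiff_const.sub ((contDiff_const.sub Real.contDiff_cos).div_const _))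

lemma hasDerivAt_bump (δ ψ : ℝ) : HasDerivAt (bump δ) (bump' δ ψ) ψ :=
  (((Real.smoothTransition.contDiff (n := 1)).differentiable one_ne_zero _).hasDerivAt.comp ψ
    ((((Real.hasDerivAt_cos ψ).const_sub 1).div_const (δ ^ 2)).const_sub 2)).congr_deriv (by
      simp [bump'])

lemma continuous_bump' (δ : ℝ) : Continuous (bump' δ) :=
  (((Real.smoothTransition.contDiff (n := 1)).continuous_deriv le_rfl).comp (by fun_prop)).mul
    (by fun_prop)

/-- One cutoff costs `1 / δ` on a period. -/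
lemma integral_bump'_le {C₀ : ℝ} (hC : ∀ t, |deriv Real.smoothTransition t| ≤ C₀)
    (h0 : ∀ t ≤ 0, deriv Real.smoothTransition t = 0) (hδ : 0 < δ) (hδ1 : δ ≤ 1) (a : ℝ) :
    ∫ φ in -π..π, bump' δ (a + φ) ^ 2 ≤ 8 * π * C₀ ^ 2 / δ := by
  have hπ := Real.pi_pos
  have hper : Function.Periodic (fun ψ => bump' δ ψ ^ 2) (2 * π) := fun ψ => by
    simp only [bump', Real.cos_periodic ψ, Real.sin_periodic ψ]
  rw [intervalIntegral.integral_comp_add_left (fun ψ => bump' δ ψ ^ 2) a,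
    show a + π = (a + -π) + 2 * π by ring, hper.intervalIntegral_add_eq (a + -π) (-π),
    show -π + 2 * π = π by ring]
  have hzero : ∀ ψ, 2 * δ ^ 2 ≤ 1 - Real.cos ψ → bump' δ ψ = 0 := fun ψ h => by
    have : 2 ≤ (1 - Real.cos ψ) / δ ^ 2 := (le_div_iff₀ (by positivity)).2 h
    rw [bump', h0 _ (by linarith), zero_mul]
  have hb : ∀ ψ, bump' δ ψ ^ 2 ≤ 4 * C₀ ^ 2 / δ ^ 2 := by
    intro ψ
    by_cases h : 2 * δ ^ 2 ≤ 1 - Real.cos ψ
    · rw [hzero ψ h]; simp only [ne_eq, OfNat.ofNat_ne_zero, not_false_eq_true, zero_pow]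
      positivity
    rw [not_le] at h
    have hs : Real.sin ψ ^ 2 ≤ 4 * δ ^ 2 := by
      nlinarith [Real.sin_sq_add_cos_sq ψ, Real.cos_le_one ψ, Real.neg_one_le_cos ψ]
    rw [bump', mul_pow, neg_sq, div_pow]
    calc deriv Real.smoothTransition _ ^ 2 * (Real.sin ψ ^ 2 / (δ ^ 2) ^ 2)
        ≤ C₀ ^ 2 * (4 * δ ^ 2 / (δ ^ 2) ^ 2) := by
          refine mul_le_mul ?_ (by gcongr) (by positivity) (sq_nonneg _)
          rw [← sq_abs]
          exact pow_le_pow_left₀ (abs_nonneg _) (hC _) 2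
      _ = _ := by field_simp
  have hout : ∀ ψ, |ψ| ≤ π → π * δ ≤ |ψ| → bump' δ ψ = 0 := fun ψ h1 h2 => by
    refine hzero ψ ?_
    have h3 := Real.cos_le_one_sub_mul_cos_sq h1
    have : 2 * δ ^ 2 ≤ 2 / π ^ 2 * ψ ^ 2 := by
      rw [div_mul_eq_mul_div, le_div_iff₀ (by positivity), ← sq_abs ψ]
      linarith [pow_le_pow_left₀ (by positivity) h2 2, mul_pow π δ 2]
    linarith
  have hpd : π * δ ≤ π := mul_le_of_le_one_right hπ.le hδ1
  have hpd0 : 0 ≤ π * δ := by positivity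
  have hi : ∀ s t, IntervalIntegrable (fun ψ => bump' δ ψ ^ 2) volume s t :=
    fun s t => ((continuous_bump' δ).pow 2).intervalIntegrable s t
  rw [← intervalIntegral.integral_add_adjacent_intervals (hi (-π) (-(π * δ))) (hi _ π),
    ← intervalIntegral.integral_add_adjacent_intervals (hi (-(π * δ)) (π * δ)) (hi _ π)]
  have e1 : ∫ ψ in -π..-(π * δ), bump' δ ψ ^ 2 = 0 := by
    rw [intervalIntegral.integral_congr (g := fun _ => (0 : ℝ)) fun ψ hψ => ?_]
    · simp
    rw [uIcc_of_le (by linarith)] at hψ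
    simp [hout ψ (abs_le.2 ⟨hψ.1, by linarith [hψ.2]⟩) ((le_neg.1 hψ.2).trans (neg_le_abs _))]
  have e2 : ∫ ψ in (π * δ)..π, bump' δ ψ ^ 2 = 0 := by
    rw [intervalIntegral.integral_congr (g := fun _ => (0 : ℝ)) fun ψ hψ => ?_]
    · simp
    rw [uIcc_of_le hpd] at hψ
    simp [hout ψ (abs_le.2 ⟨by linarith [hψ.1], hψ.2⟩) (hψ.1.trans (le_abs_self _))]
  rw [e1, e2, add_zero, zero_add]
  calc ∫ ψ in -(π * δ)..(π * δ), bump' δ ψ ^ 2
      ≤ ∫ _ψ in -(π * δ)..(π * δ), 4 * C₀ ^ 2 / δ ^ 2 :=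
        intervalIntegral.integral_mono_on (by linarith) (hi _ _) intervalIntegrable_const
          fun ψ _ => hb ψ
    _ = 8 * π * C₀ ^ 2 / δ := by
        rw [intervalIntegral.integral_const, smul_eq_mul]
        field_simp
        ring

/-- The radial profile: zero in a quarter of the disk. -/
lemma exists_profile {C₀ : ℝ} (hC : ∀ t, |deriv Real.smoothTransition t| ≤ C₀) {r : ℝ}
    (hr : 0 < r) :
    ∃ w : ℝ → ℝ, ContDiff ℝ ∞ w ∧ w r = 1 ∧ (∀ t ≤ r / 4, w t = 0) ∧
      (∫⁻ t in Ioo 0 r, ENNReal.ofReal (t * deriv w t ^ 2) ≤ ENNReal.ofReal (2 * C₀ ^ 2)) ∧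
      ∫⁻ t in Ioo 0 r, ENNReal.ofReal (w t ^ 2 / t) ≤ ENNReal.ofReal 4 := by
  have hw0 : ∀ t ≤ r / 4, Real.smoothTransition ((4 * t - r) / (3 * r)) = 0 := fun t ht =>
    Real.smoothTransition.zero_of_nonpos
      (div_nonpos_of_nonpos_of_nonneg (by linarith) (by positivity))
  refine ⟨fun t => Real.smoothTransition ((4 * t - r) / (3 * r)), ?_, ?_, hw0, ?_, ?_⟩
  · exact Real.smoothTransition.contDiff.comp
      (((contDiff_const.mul contDiff_id).sub contDiff_const).div_const _)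
  · exact Real.smoothTransition.one_of_one_le ((le_div_iff₀ (by positivity)).2 (by linarith))
  · refine (setLIntegral_mono' measurableSet_Ioo (g := fun _ => ENNReal.ofReal (2 * C₀ ^ 2 / r))
      fun t ht => ENNReal.ofReal_le_ofReal ?_).trans ?_
    · have hd : HasDerivAt (fun t => Real.smoothTransition ((4 * t - r) / (3 * r)))
          (deriv Real.smoothTransition ((4 * t - r) / (3 * r)) * (4 * 1 / (3 * r))) t :=
        ((Real.smoothTransition.contDiff (n := 1)).differentiable one_ne_zero _).hasDerivAt.comp t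
          ((((hasDerivAt_id t).const_mul 4).sub_const r).div_const (3 * r))
      rw [hd.deriv, mul_pow]
      have hsq : deriv Real.smoothTransition ((4 * t - r) / (3 * r)) ^ 2 ≤ C₀ ^ 2 := by
        rw [← sq_abs]; exact pow_le_pow_left₀ (abs_nonneg _) (hC _) 2
      calc t * (deriv Real.smoothTransition ((4 * t - r) / (3 * r)) ^ 2 * (4 * 1 / (3 * r)) ^ 2)
          ≤ r * (C₀ ^ 2 * (4 * 1 / (3 * r)) ^ 2) := by
            gcongr; exact ht.2.le
        _ = 16 / 9 * C₀ ^ 2 / r := by field_simp; ring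
        _ ≤ 2 * C₀ ^ 2 / r := by gcongr; norm_num
    · rw [setLIntegral_const, Real.volume_Ioo, sub_zero, ← ENNReal.ofReal_mul (by positivity),
        div_mul_cancel₀ _ hr.ne']
  · refine (setLIntegral_mono' measurableSet_Ioo (g := fun _ => ENNReal.ofReal (4 / r))
      fun t ht => ENNReal.ofReal_le_ofReal ?_).trans ?_
    · rcases le_or_gt t (r / 4) with h | h
      · simp only [hw0 t h]
        simp only [ne_eq, OfNat.ofNat_ne_zero, not_false_eq_true, zero_pow, zero_div]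
        positivity
      · refine (div_le_div_of_nonneg_right (pow_le_one₀ (Real.smoothTransition.nonneg _)
          (Real.smoothTransition.le_one _)) ht.1.le).trans ?_
        rw [div_le_div_iff₀ ht.1 hr]
        linarith
    · rw [setLIntegral_const, Real.volume_Ioo, sub_zero, ← ENNReal.ofReal_mul (by positivity),
        div_mul_cancel₀ _ hr.ne']

/-- The squared distance on a circle. -/
lemma normSq_circleMap_sub (x : ℂ) {r : ℝ} (hr : 0 ≤ r) (a b : ℝ) :
    ‖circleMap x r a - circleMap x r b‖ ^ 2 = 2 * r ^ 2 * (1 - Real.cos (a - b)) := by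
  rw [norm_circleMap_sub x hr, mul_pow, sq_abs]
  have h1 := Real.cos_two_mul ((a - b) / 2)
  rw [show 2 * ((a - b) / 2) = a - b by ring] at h1
  linear_combination (4 * r ^ 2) * Real.sin_sq_add_cos_sq ((a - b) / 2) + 2 * r ^ 2 * h1

end Delete

open Delete in
/-- Small arcs as competitor. -/
theorem deleteGoal : DeleteGoal := by
  obtain ⟨C₀, hC, hC0⟩ := exists_deriv_bound
  refine ⟨300 * π * (C₀ ^ 2 + 1), fun u K x h => ?_⟩
  filter_upwards [ae_intervalIntegrable_tang h x] with r hint hr δ J Z hδ hZne hZ _ hKZ hosc hone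
  obtain ⟨hδ0, hδ1⟩ := hδ
  have hπ := Real.pi_pos
  set θ : ℂ → ℝ := fun z => Complex.arg (z - x) with hθ
  have hzθ : ∀ z ∈ Z, circleMap x r (θ z) = z := fun z hz => by
    have h1 := Complex.norm_mul_exp_arg_mul_I (z - x)
    rw [← dist_eq_norm, mem_sphere.1 (hZ z hz)] at h1
    simp only [circleMap, hθ, h1, add_sub_cancel]
  obtain ⟨z₀, hz₀⟩ := hZne
  set θ₀ := θ z₀ + π with hθ₀
  set τ := Complex.exp (θ₀ * Complex.I) with hτd
  have hτ : ‖τ‖ = 1 := Complex.norm_exp_ofReal_mul_I θ₀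
  have hτ0 : τ ≠ 0 := Complex.exp_ne_zero _
  have hpol : ∀ t φ, pol x τ (t, φ) = circleMap x t (θ₀ + φ) := fun t φ => by
    simp [pol, circleMap, hτd, add_mul, Complex.exp_add]
    ring
  have hdist : ∀ φ, ∀ z ∈ Z, ‖circleMap x r (θ₀ + φ) - z‖ ^ 2 =
      2 * r ^ 2 * (1 - Real.cos (θ₀ + φ - θ z)) := fun φ z hz => by
    conv_lhs => rw [← hzθ z hz]
    exact normSq_circleMap_sub x hr.le _ _
  -- the part of the circle away from the centres
  set A : Set ℂ := sphere x r ∩ {y | ∀ z ∈ Z, 7 / 5 * (δ * r) ≤ ‖y - z‖} with hA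
  have hAc : IsCompact A := by
    refine (isCompact_sphere x r).inter_right ?_
    simp only [Set.ofPred_forall]
    exact isClosed_biInter fun z _ =>
      isClosed_le continuous_const (continuous_id.sub continuous_const).norm
  have hδr : 0 < δ * r := mul_pos hδ0 hr
  have hAK : Disjoint A K := disjoint_left.2 fun y hy hyK => by
    obtain ⟨z, hz, hyz⟩ := hKZ y ⟨hyK, hy.1⟩
    linarith [hy.2 z hz]
  have hAfar : ∀ y ∈ A, y ∈ sphere x r \ K ∧ ∀ z ∈ Z, δ * r ≤ ‖y - z‖ := fun y hy =>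
    ⟨⟨hy.1, disjoint_left.1 hAK hy⟩, fun z hz => by linarith [hy.2 z hz]⟩
  have hmemA : ∀ φ, (∀ z ∈ Z, 49 / 50 * δ ^ 2 ≤ 1 - Real.cos (θ₀ + φ - θ z)) →
      circleMap x r (θ₀ + φ) ∈ A := fun φ hφ =>
    ⟨circleMap_mem_sphere x hr.le _, fun z hz => by
      refine le_of_pow_le_pow_left₀ two_ne_zero (norm_nonneg _) ?_
      rw [hdist φ z hz]
      nlinarith [mul_le_mul_of_nonneg_left (hφ z hz) (sq_nonneg r)]⟩
  classical
  obtain ⟨m, hm⟩ : ∃ m : ℝ, ∀ y ∈ A, (u y - m) ^ 2 ≤ J ^ 2 := by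
    rcases A.eq_empty_or_nonempty with he | ⟨a, ha⟩
    · exact ⟨0, fun y hy => by simp [he] at hy⟩
    · refine ⟨u a, fun y hy => ?_⟩
      rw [← sq_abs (u y - u a)]
      exact pow_le_pow_left₀ (abs_nonneg _)
        (hosc y (hAfar y hy).1 a (hAfar a ha).1 (hAfar y hy).2 (hAfar a ha).2) 2
  obtain ⟨ε, hε, hεK⟩ : ∃ ε > 0, ∀ t ∈ Ioo (r - ε) (r + ε), ∀ φ,
      circleMap x r (θ₀ + φ) ∈ A → circleMap x t (θ₀ + φ) ∉ K := by
    obtain ⟨ε, hε, hd⟩ := hAK.exists_thickenings hAc h.isClosed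
    refine ⟨ε, hε, fun t ht φ hφ hK =>
      disjoint_left.1 hd ?_ (self_subset_thickening hε K hK)⟩
    refine mem_thickening_iff.2 ⟨_, hφ, ?_⟩
    rw [dist_eq_norm, show circleMap x t (θ₀ + φ) - circleMap x r (θ₀ + φ) =
      ((t - r : ℝ) : ℂ) * Complex.exp ((θ₀ + φ : ℝ) * Complex.I) by simp [circleMap]; ring,
      norm_mul, Complex.norm_exp_ofReal_mul_I, mul_one, Complex.norm_real, Real.norm_eq_abs,
      abs_lt]
    constructor <;> linarith [ht.1, ht.2]
  -- the boundary values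
  set k : ℂ → ℝ → ℝ := fun z φ => bump δ (θ₀ + φ - θ z) with hk
  set k' : ℂ → ℝ → ℝ := fun z φ => bump' δ (θ₀ + φ - θ z) with hk'
  set c : ℝ → ℝ := fun φ => ∏ z ∈ Z, (1 - k z φ ^ 2) with hc
  have hkd : ∀ z φ, HasDerivAt (k z) (k' z φ) φ := fun z φ =>
    ((hasDerivAt_bump δ _).comp φ (((hasDerivAt_id φ).const_add θ₀).sub_const (θ z))).congr_deriv
      (by simp [hk'])
  have hcP := fun φ => prod_bound Z k (fun z => k' z φ) φ (fun z _ => hkd z φ)
    fun z _ => abs_bump_le _ _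
  have hcs : ContDiff ℝ ∞ c := by
    refine contDiff_prod fun z _ => contDiff_const.sub (ContDiff.pow ?_ 2)
    exact (contDiff_bump δ).comp ((contDiff_const.add contDiff_id).sub contDiff_const)
  have hc0 : ∀ φ, ∀ z ∈ Z, 1 - Real.cos (θ₀ + φ - θ z) ≤ δ ^ 2 → c φ = 0 := fun φ z hz hφ =>
    Finset.prod_eq_zero hz (by simp [hk, bump_eq_one hδ0 hφ])
  have hc1 : ∀ φ, (∀ z ∈ Z, 2 * δ ^ 2 ≤ 1 - Real.cos (θ₀ + φ - θ z)) → c φ = 1 := fun φ hφ =>
    Finset.prod_eq_one fun z hz => by simp [hk, bump_eq_zero hδ0 (hφ z hz)]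
  set G : ℝ × ℝ → ℝ := fun s => c s.2 * (u (circleMap x s.1 (θ₀ + s.2)) - m) with hG
  have hKo : IsOpen Kᶜ := h.isClosed.isOpen_compl
  have hbad : ∀ φ, ¬ (∀ z ∈ Z, 49 / 50 * δ ^ 2 ≤ 1 - Real.cos (θ₀ + φ - θ z)) →
      ∀ᶠ ψ in 𝓝 φ, c ψ = 0 := by
    intro φ hφ
    simp only [not_forall, not_le] at hφ
    obtain ⟨z, hz, hlt⟩ := hφ
    have hcont : Continuous fun ψ => 1 - Real.cos (θ₀ + ψ - θ z) := by fun_prop
    filter_upwards [hcont.continuousAt.eventually (gt_mem_nhds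
      (show 1 - Real.cos (θ₀ + φ - θ z) < δ ^ 2 by
        linarith [pow_pos hδ0 2]))] with ψ hψ
    exact hc0 ψ z hz hψ.le
  set U : Set (ℝ × ℝ) := Ioo (r - ε) (r + ε) ×ˢ univ with hU
  have hUo : IsOpen U := isOpen_Ioo.prod isOpen_univ
  have hcm : ContDiff ℝ ∞ fun s : ℝ × ℝ => circleMap x s.1 (θ₀ + s.2) := by
    simp only [circleMap]
    exact contDiff_const.add ((Complex.ofRealCLM.contDiff.comp contDiff_fst).mul
      (((Complex.ofRealCLM.contDiff.comp (contDiff_const.add contDiff_snd)).mul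
        contDiff_const).cexp))
  have hGs : ContDiffOn ℝ ∞ G U := by
    intro p hp
    refine ContDiffAt.contDiffWithinAt ?_
    by_cases hφ : ∀ z ∈ Z, 49 / 50 * δ ^ 2 ≤ 1 - Real.cos (θ₀ + p.2 - θ z)
    · have hnK := hεK p.1 hp.1 p.2 (hmemA p.2 hφ)
      exact (hcs.comp contDiff_snd).contDiffAt.mul ((ContDiffAt.comp (g := u) p
        ((h.smooth _ hnK).contDiffAt (hKo.mem_nhds hnK)) hcm.contDiffAt).sub contDiffAt_const)
    · refine contDiffAt_const (c := (0 : ℝ)).congr_of_eventuallyEq ?_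
      filter_upwards [continuous_snd.continuousAt.eventually (hbad p.2 hφ)] with q hq
      simp [hG, hq]
  have hrU : ∀ φ : ℝ, ((r, φ) : ℝ × ℝ) ∈ U := fun φ => ⟨⟨by linarith, by linarith⟩, trivial⟩
  set g : ℝ → ℝ := fun φ => r * dot (grad u (circleMap x r (θ₀ + φ)))
    (Complex.I * dir x (circleMap x r (θ₀ + φ))) with hg
  have hGr : ∀ φ, G (r, φ) ^ 2 ≤ J ^ 2 ∧
      fderiv ℝ G (r, φ) (0, 1) ^ 2 ≤ 8 * J ^ 2 * (∑ z ∈ Z, k' z φ ^ 2) + 2 * g φ ^ 2 := by
    intro φ
    have hd := (((hGs _ (hrU φ)).contDiffAt (hUo.mem_nhds (hrU φ))).differentiableAt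
      (by simp)).hasFDerivAt.comp_hasDerivAt_of_eq φ
        ((hasDerivAt_const φ r).prodMk (hasDerivAt_id φ)) rfl
    have hS : 0 ≤ ∑ z ∈ Z, k' z φ ^ 2 := Finset.sum_nonneg fun _ _ => sq_nonneg _
    by_cases hφ : ∀ z ∈ Z, 49 / 50 * δ ^ 2 ≤ 1 - Real.cos (θ₀ + φ - θ z)
    · have hy := hmemA φ hφ
      obtain ⟨⟨hc0', hc1'⟩, D, hD, hDb⟩ := hcP φ
      have h1 := hd.unique (hD.mul
        (((hasDerivAt_circle h hr (disjoint_left.1 hAK hy)).comp_const_add θ₀ φ).sub_const m))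
      refine ⟨?_, ?_⟩
      · simp only [hG, mul_pow]
        calc c φ ^ 2 * (u (circleMap x r (θ₀ + φ)) - m) ^ 2 ≤ 1 * J ^ 2 :=
              mul_le_mul (pow_le_one₀ hc0' hc1') (hm _ hy) (sq_nonneg _) zero_le_one
          _ = J ^ 2 := one_mul _
      · rw [h1]
        have b1 : (D * (u (circleMap x r (θ₀ + φ)) - m)) ^ 2 ≤
            4 * (∑ z ∈ Z, k' z φ ^ 2) * J ^ 2 := by
          rw [mul_pow]
          refine mul_le_mul (hDb.trans ?_) (hm _ hy) (sq_nonneg _) (by positivity)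
          exact mul_le_mul_of_nonneg_right (by linarith) hS
        have b2 : (c φ * g φ) ^ 2 ≤ g φ ^ 2 := by
          rw [mul_pow]
          exact mul_le_of_le_one_left (sq_nonneg _) (pow_le_one₀ hc0' hc1')
        refine (add_sq_le (a := D * (u (circleMap x r (θ₀ + φ)) - m)) (b := c φ * g φ)).trans ?_
        linarith
    · have hz := hbad φ hφ
      have e : (fun ψ => G (r, ψ)) =ᶠ[𝓝 φ] fun _ => (0 : ℝ) :=
        hz.mono fun ψ hψ => by simp [hG, hψ]
      have h1 := hd.unique ((hasDerivAt_const φ (0 : ℝ)).congr_of_eventuallyEq e)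
      refine ⟨?_, ?_⟩
      · simp only [hG, hz.self_of_nhds, zero_mul, ne_eq, OfNat.ofNat_ne_zero, not_false_eq_true,
          zero_pow]
        positivity
      · rw [h1]
        simp only [ne_eq, OfNat.ofNat_ne_zero, not_false_eq_true, zero_pow]
        positivity
  -- the integrals on the circle
  have hline : Continuous fun φ : ℝ => ((r, φ) : ℝ × ℝ) := continuous_const.prodMk continuous_id
  have hi1 : IntervalIntegrable (fun φ => fderiv ℝ G (r, φ) (0, 1) ^ 2) volume (-π) π :=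
    ((((hGs.fderiv_of_isOpen hUo (m := ∞) le_rfl).clm_apply contDiffOn_const).continuousOn
      ).comp_continuous hline hrU |>.pow 2).intervalIntegrable _ _
  have hkc : ∀ z, Continuous fun φ => k' z φ ^ 2 := fun z =>
    ((continuous_bump' δ).comp (by fun_prop)).pow 2
  have hi2 : IntervalIntegrable (fun φ => g φ ^ 2) volume (-π) π := by
    have := ((hint hr (θ₀ - π) (θ₀ + π)).comp_add_left θ₀).const_mul (r ^ 2)
    simp only [sub_sub_cancel_left, add_sub_cancel_left] at this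
    simpa [hg, mul_pow] using this
  have hi3 : IntervalIntegrable (fun φ => 8 * J ^ 2 * ∑ z ∈ Z, k' z φ ^ 2) volume (-π) π :=
    ((continuous_finsetSum Z fun z _ => hkc z).intervalIntegrable _ _).const_mul _
  have hgI : ∫ φ in -π..π, g φ ^ 2 = r * tang u x r := by
    rw [tang_eq x r (θ₀ - π)]
    simp only [hg, mul_pow]
    rw [intervalIntegral.integral_const_mul,
      intervalIntegral.integral_comp_add_left (f := fun θ =>
        dot (grad u (circleMap x r θ)) (Complex.I * dir x (circleMap x r θ)) ^ 2) θ₀,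
      show θ₀ + -π = θ₀ - π by ring, show θ₀ - π + 2 * π = θ₀ + π by ring]
    ring
  have hS' : ∫ φ in -π..π, ∑ z ∈ Z, k' z φ ^ 2 ≤ Z.card * (8 * π * C₀ ^ 2 / δ) := by
    rw [intervalIntegral.integral_finsetSum fun z _ => (hkc z).intervalIntegrable _ _]
    refine (Finset.sum_le_card_nsmul _ _ _ fun z _ => ?_).trans (le_of_eq (nsmul_eq_mul _ _))
    have := integral_bump'_le hC hC0 hδ0 (by linarith) (θ₀ - θ z)
    simpa [hk', add_sub_right_comm] using this
  have hGφ : ∫ φ in -π..π, fderiv ℝ G (r, φ) (0, 1) ^ 2 ≤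
      8 * J ^ 2 * (Z.card * (8 * π * C₀ ^ 2 / δ)) + 2 * (r * tang u x r) := by
    refine (intervalIntegral.integral_mono_on (by linarith) hi1 (hi3.add (hi2.const_mul 2))
      fun φ _ => (hGr φ).2).trans ?_
    rw [intervalIntegral.integral_add hi3 (hi2.const_mul 2), intervalIntegral.integral_const_mul,
      intervalIntegral.integral_const_mul, hgI]
    gcongr
  have hGI : ∫ φ in -π..π, G (r, φ) ^ 2 ≤ 2 * π * J ^ 2 := by
    refine (intervalIntegral.integral_mono_on (by linarith)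
      (((hGs.continuousOn.comp_continuous hline hrU).pow 2).intervalIntegrable _ _)
      intervalIntegrable_const fun φ _ => (hGr φ).1).trans (le_of_eq ?_)
    rw [intervalIntegral.integral_const, smul_eq_mul]
    ring
  have ht0 : 0 ≤ r * tang u x r :=
    hgI ▸ intervalIntegral.integral_nonneg (by linarith) fun φ _ => sq_nonneg _
  -- the arcs
  set T : Set ℂ := ⋃ z ∈ Z, circleMap x r '' Icc (θ z - π * δ) (θ z + π * δ) with hT
  have hTc : IsClosed T := isClosed_biUnion_finset fun z _ =>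
    (isCompact_Icc.image (continuous_circleMap x r)).isClosed
  have hTb : T ⊆ closedBall x r := iUnion₂_subset fun z _ => by
    rintro _ ⟨φ, -, rfl⟩
    exact circleMap_mem_closedBall x hr.le φ
  have hTle : Measure.hausdorffMeasure 1 T ≤ ENNReal.ofReal (Z.card * (2 * π * δ * r)) := by
    refine (measure_biUnion_finset_le Z _).trans ((Finset.sum_le_card_nsmul _ _ _ fun z _ =>
      (length_arc_le x hr.le _ _).trans (le_of_eq (by ring_nf :
        ENNReal.ofReal (r * (θ z + π * δ - (θ z - π * δ))) =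
          ENNReal.ofReal (2 * π * δ * r)))).trans ?_)
    rw [nsmul_eq_mul, ENNReal.ofReal_mul (Nat.cast_nonneg _), ENNReal.ofReal_natCast]
  have hTfree : ∀ y ∈ sphere x r, y ∉ T → ∀ φ, y = circleMap x r (θ₀ + φ) → ∀ z ∈ Z,
      2 * δ ^ 2 < 1 - Real.cos (θ₀ + φ - θ z) := by
    intro y _ hyT φ hy z hz
    by_contra hn
    rw [not_lt] at hn
    obtain ⟨n, hn⟩ := near_angle hδ0.le hn
    refine hyT (mem_iUnion₂.2 ⟨z, hz, θ₀ + φ - n • (2 * π), ?_, ?_⟩)
    · have := abs_le.1 hn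
      constructor <;> linarith
    · rw [hy]
      exact (periodic_circleMap x r).sub_zsmul_eq n
  have hsph : ∀ y ∈ sphere x r, y = circleMap x r (θ₀ + Complex.arg ((y - x) / τ)) := fun y hy => by
    rw [← hpol, ← mem_sphere.1 hy, dist_eq_norm, pol_unpol hτ0 hτ]
  have hsub : sphere x r \ T ⊆ A := fun y hy => by
    rw [hsph y hy.1]
    exact hmemA _ fun z hz =>
      le_trans (by linarith [pow_pos hδ0 2]) (hTfree y hy.1 hy.2 _ (hsph y hy.1) z hz).le
  have hsep := keepsSeparation_disk h.isClosed hTc hAc hAK hsub fun a ha b hb =>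
    hone a (hAfar a ha).1 b (hAfar b hb).1
  -- the competitor
  obtain ⟨w, hw, hw1, hw0, hwA, hwB⟩ := exists_profile hC hr
  refine le_of_forall_pos_le_add fun η hη => ?_
  obtain ⟨Φ, hh, hh0, -, -, hΦs, hΦeq, hΦin, hΦfac, hΦen⟩ := exists_blend_factor hr hε m hGs
    hw.contDiffOn hw1 (by positivity : 0 ≤ 2 * C₀ ^ 2) (by norm_num : (0 : ℝ) ≤ 4) hwA hwB hη
  have hNC : (0 : ℝ) ≤ Z.card * (8 * π * C₀ ^ 2 / δ) := mul_nonneg (Nat.cast_nonneg _)
    (div_nonneg (mul_nonneg (mul_nonneg (by norm_num) hπ.le) (sq_nonneg C₀)) hδ0.le)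
  set E := 2 * C₀ ^ 2 * (2 * π * J ^ 2) +
    4 * (8 * J ^ 2 * (Z.card * (8 * π * C₀ ^ 2 / δ)) + 2 * (r * tang u x r)) + η with hE
  obtain ⟨hmem, hEn⟩ := energy_unpol (x := x) hτ (E := E) (by
      rw [hE]
      linarith [mul_nonneg (mul_nonneg (sq_nonneg C₀) hπ.le) (sq_nonneg J),
        mul_nonneg (sq_nonneg J) hNC]) hΦs
    (hΦen.trans (ENNReal.ofReal_le_ofReal (by rw [hE]; gcongr)))
  have hV : ContDiffOn ℝ ∞ (unpol x τ Φ) (ball x r \ T) := by
    intro y hy
    refine ContDiffAt.contDiffWithinAt ?_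
    have hyr : ‖y - x‖ < r := by rw [← dist_eq_norm]; exact mem_ball.1 hy.1
    by_cases hyx : y = x
    · refine contDiffAt_const (c := m).congr_of_eventuallyEq ?_
      filter_upwards [ball_mem_nhds y (show 0 < r / 4 by positivity)] with v hv
      rw [mem_ball, dist_eq_norm, hyx] at hv
      rw [unpol, hΦin _ (by linarith), hw0 _ hv.le, zero_mul, add_zero]
    have hy0 : 0 < ‖y - x‖ := norm_pos_iff.2 (sub_ne_zero.2 hyx)
    by_cases hslit : (y - x) / τ ∈ Complex.slitPlane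
    · have hs : ((‖y - x‖, Complex.arg ((y - x) / τ)) : ℝ × ℝ) ∈ Ioo 0 r ×ˢ (univ : Set ℝ) :=
        ⟨⟨hy0, hyr⟩, trivial⟩
      exact contDiffAt_unpol hslit ((hΦs _ hs).contDiffAt
        ((isOpen_Ioo.prod isOpen_univ).mem_nhds hs))
    · set q : ℂ → ℂ := fun v => (v - x) / τ with hq
      have hq0 : q y ≠ 0 := div_ne_zero (sub_ne_zero.2 hyx) hτ0
      have hqm : (q y).re / ‖q y‖ = -1 := by
        rw [Complex.mem_slitPlane_iff, not_or, not_lt, not_not] at hslit
        rw [← Complex.abs_re_eq_norm.2 hslit.2, abs_of_nonpos hslit.1, div_neg, div_self]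
        exact fun h0 => hq0 (Complex.ext h0 hslit.2)
      have hqc : ContinuousAt (fun v => (q v).re / ‖q v‖) y := by
        have hqc' : Continuous q := (continuous_id.sub continuous_const).div_const τ
        exact ((Complex.continuous_re.comp hqc').continuousAt).div hqc'.norm.continuousAt
          (norm_ne_zero_iff.2 hq0)
      have hΦp : ContDiffAt ℝ ∞ (fun v => Φ (‖v - x‖, π)) y := by
        have hs : ((‖y - x‖, π) : ℝ × ℝ) ∈ Ioo 0 r ×ˢ (univ : Set ℝ) := ⟨⟨hy0, hyr⟩, trivial⟩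
        exact ContDiffAt.comp (g := Φ) y
          ((hΦs _ hs).contDiffAt ((isOpen_Ioo.prod isOpen_univ).mem_nhds hs))
          (((contDiffAt_norm ℝ (sub_ne_zero.2 hyx)).comp y
            (contDiffAt_id.sub contDiffAt_const)).prodMk contDiffAt_const)
      refine hΦp.congr_of_eventuallyEq ?_
      filter_upwards [hqc.eventually (gt_mem_nhds (show (q y).re / ‖q y‖ < -1 + δ ^ 2 by
          rw [hqm]; linarith [pow_pos hδ0 2])),
        (continuous_id.sub continuous_const).continuousAt.eventually_ne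
          (sub_ne_zero.2 hyx)] with v hv hv0
      have hqv : q v ≠ 0 := div_ne_zero hv0 hτ0
      have key : ∀ φ, Real.cos φ < -1 + δ ^ 2 → c φ = 0 := fun φ hφ => hc0 φ z₀ hz₀ (by
        rw [show θ₀ + φ - θ z₀ = φ + π by rw [hθ₀]; ring, Real.cos_add_pi]
        linarith)
      have hv' := Complex.cos_arg hqv ▸ hv
      refine hΦfac _ _ (fun t => ?_) _
      simp only [hG, show c (Complex.arg ((v - x) / τ)) = 0 from key _ hv', key π (by rw [Real.cos_pi]; linarith [pow_pos hδ0 2]), zero_mul]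
  have hglue : ∀ y ∈ sphere x r, y ∉ T →
      y ∉ K ∧ ∀ᶠ v in 𝓝 y, v ∈ ball x r → unpol x τ Φ v = u v := by
    intro y hy hyT
    refine ⟨disjoint_left.1 hAK (hsub ⟨hy, hyT⟩), ?_⟩
    have hyx : y - x ≠ 0 := fun h0 => by
      rw [mem_sphere, dist_eq_norm, h0, norm_zero] at hy
      linarith
    have hfr := hTfree y hy hyT _ (hsph y hy)
    have hslit : (y - x) / τ ∈ Complex.slitPlane := by
      refine Complex.mem_slitPlane_iff_arg.2 ⟨fun hπ' => ?_, div_ne_zero hyx hτ0⟩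
      have := hfr z₀ hz₀
      rw [hπ', show θ₀ + π - θ z₀ = 2 * π by rw [hθ₀]; ring, Real.cos_two_pi] at this
      linarith [sq_nonneg δ]
    have hcn : Continuous fun v : ℂ => ‖v - x‖ := (continuous_id.sub continuous_const).norm
    have hcarg : ContinuousAt (fun v : ℂ => Complex.arg ((v - x) / τ)) y :=
      ContinuousAt.comp (g := Complex.arg) (f := fun v : ℂ => (v - x) / τ)
        (contDiffAt_arg hslit).continuousAt
        ((continuous_id.sub continuous_const).div_const τ).continuousAt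
    have hev : ∀ᶠ v in 𝓝 y, ∀ z ∈ Z,
        2 * δ ^ 2 < 1 - Real.cos (θ₀ + Complex.arg ((v - x) / τ) - θ z) := by
      rw [Filter.eventually_all_finset]
      intro z hz
      exact ((Real.continuous_cos.continuousAt.comp
        ((continuousAt_const.add hcarg).sub continuousAt_const)).const_sub 1).eventually
          (lt_mem_nhds (hfr z hz))
    filter_upwards [hev, hcn.continuousAt.eventually (lt_mem_nhds (show r - hh < ‖y - x‖ by
        rw [mem_sphere, dist_eq_norm] at hy; linarith))] with v hv1 hv2 hvb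
    rw [unpol, hΦeq _ ⟨hv2, by rw [← dist_eq_norm]; exact mem_ball.1 hvb⟩]
    simp only [hG, hc1 _ fun z hz => (hv1 z hz).le, ← hpol, pol_unpol hτ0 hτ]
    ring
  have hmain := vary_ball h hTc hTb (ne_top_of_le_ne_top ENNReal.ofReal_ne_top hTle) hV hglue hmem hsep
  have hTr := ENNReal.toReal_mono ENNReal.ofReal_ne_top hTle
  rw [ENNReal.toReal_ofReal (mul_nonneg (Nat.cast_nonneg _)
    (mul_nonneg (mul_nonneg (mul_nonneg zero_le_two hπ.le) hδ0.le) hr.le))] at hTr
  have hN : (1 : ℝ) ≤ Z.card := by exact_mod_cast Finset.card_pos.2 ⟨z₀, hz₀⟩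
  set C := 300 * π * (C₀ ^ 2 + 1) with hCd
  set N : ℝ := (Z.card : ℝ) with hNd
  have hC2 : 2 * π ≤ C := by nlinarith [mul_nonneg hπ.le (sq_nonneg C₀)]
  have b1 : N * (2 * π * δ * r) ≤ C * N * (δ * r) := by
    calc N * (2 * π * δ * r) = 2 * π * (N * (δ * r)) := by ring
      _ ≤ C * (N * (δ * r)) := mul_le_mul_of_nonneg_right hC2
          (mul_nonneg (Nat.cast_nonneg _) hδr.le)
      _ = _ := by ring
  have b2 : 2 * C₀ ^ 2 * (2 * π * J ^ 2) + 4 * (8 * J ^ 2 * (N * (8 * π * C₀ ^ 2 / δ))) ≤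
      C * N * (J ^ 2 / δ) := by
    have h1 : J ^ 2 ≤ N * (J ^ 2 / δ) := by
      have : J ^ 2 ≤ J ^ 2 / δ := (le_div_iff₀ hδ0).2 (mul_le_of_le_one_right (sq_nonneg J) (by linarith))
      exact this.trans (le_mul_of_one_le_left (by positivity) hN)
    calc 2 * C₀ ^ 2 * (2 * π * J ^ 2) + 4 * (8 * J ^ 2 * (N * (8 * π * C₀ ^ 2 / δ)))
        ≤ 4 * π * C₀ ^ 2 * (N * (J ^ 2 / δ)) + 256 * π * C₀ ^ 2 * (N * (J ^ 2 / δ)) := by
          refine add_le_add ?_ (le_of_eq (by field_simp; ring))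
          calc 2 * C₀ ^ 2 * (2 * π * J ^ 2) = 4 * π * C₀ ^ 2 * J ^ 2 := by ring
            _ ≤ _ := mul_le_mul_of_nonneg_left h1
              (mul_nonneg (mul_nonneg (by norm_num) hπ.le) (sq_nonneg C₀))
      _ ≤ C * (N * (J ^ 2 / δ)) := by
          rw [← add_mul]
          refine mul_le_mul_of_nonneg_right ?_
            (mul_nonneg (Nat.cast_nonneg _) (div_nonneg (sq_nonneg J) hδ0.le))
          linarith [mul_nonneg hπ.le (sq_nonneg C₀)]
      _ = _ := by ring
  have b3 : 4 * (2 * (r * tang u x r)) ≤ C * N * (r * tang u x r / δ) := by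
    have h1 : r * tang u x r ≤ N * (r * tang u x r / δ) := by
      have : r * tang u x r ≤ r * tang u x r / δ :=
        (le_div_iff₀ hδ0).2 (mul_le_of_le_one_right ht0 (by linarith))
      exact this.trans (le_mul_of_one_le_left (by positivity) hN)
    calc 4 * (2 * (r * tang u x r)) ≤ C * (r * tang u x r) := by
          rw [← mul_assoc]
          refine mul_le_mul_of_nonneg_right ?_ ht0
          nlinarith [Real.pi_gt_three, mul_nonneg hπ.le (sq_nonneg C₀)]
      _ ≤ C * (N * (r * tang u x r / δ)) :=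
          mul_le_mul_of_nonneg_left h1 (by positivity)
      _ = _ := by ring
  linarith

end Vale.Agent.P128.Bonnet
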