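import Vale.Agent.P128.Bonnet.Interface

/-!
# Separation for competitors which empty a disk

If the part `A` of the circle left open by `T` meets only one unbounded component of the
complement of `K`, then emptying the disk and adding `T` keeps the separation far away.
-/

namespace Vale.Agent.P128.Bonnet

open Filter Metric Set Islands
open scoped Topology

/-- Separation is kept when the disk is emptied and `T` is added. -/
theorem keepsSeparation_disk {K T A : Set ℂ} (hK : IsClosed K) (hT : IsClosed T) {x : ℂ} {r : ℝ}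
    (hA : IsCompact A) (hAK : Disjoint A K) (hsub : sphere x r \ T ⊆ A)
    (hone : ∀ a ∈ A, ∀ b ∈ A, ¬ Bornology.IsBounded (connectedComponentIn Kᶜ a) →
      ¬ Bornology.IsBounded (connectedComponentIn Kᶜ b) → b ∈ connectedComponentIn Kᶜ a) :
    ∃ R₀, ∀ R ≥ R₀, KeepsSeparation K ((K \ ball x r) ∪ T) (ball 0 R) := by
  have hKo : IsOpen Kᶜ := hK.isOpen_compl
  obtain ⟨F, hF⟩ := hA.elim_finite_subcover (fun a : A => connectedComponentIn Kᶜ (a : ℂ))
    (fun a => hKo.connectedComponentIn)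
    fun a ha => mem_iUnion.2 ⟨⟨a, ha⟩, mem_connectedComponentIn (disjoint_left.1 hAK ha)⟩
  classical
  set F' := F.filter fun a : A => Bornology.IsBounded (connectedComponentIn Kᶜ (a : ℂ)) with hF'
  obtain ⟨R₁, hR₁⟩ := ((Bornology.isBounded_biUnion_finset F').2 fun a ha =>
    (Finset.mem_filter.1 ha).2).subset_ball (0 : ℂ)
  refine ⟨max R₁ (‖x‖ + |r|), fun R hR a b ha hb hn hb' => ?_⟩
  set L := (K \ ball x r) ∪ T with hL
  have hbig : ∀ y, y ∉ ball (0 : ℂ) R → y ∉ ball x r := fun y hy h => hy (by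
    rw [mem_ball_zero_iff]
    rw [mem_ball, dist_eq_norm] at h
    have : ‖y‖ ≤ ‖x‖ + ‖y - x‖ := by simpa using norm_add_le x (y - x)
    linarith [le_abs_self r, le_max_right R₁ (‖x‖ + |r|)])
  have haK : a ∉ K := fun h => ha (Or.inr h)
  have hbK : b ∉ K := fun h => hb (Or.inr h)
  set J : ℂ → Prop := fun y => ∃ p ∈ A, p ∈ connectedComponentIn Kᶜ y with hJ
  have hJeq : ∀ y y', y' ∈ connectedComponentIn Kᶜ y → (J y' ↔ J y) := fun y y' h => by
    simp only [hJ, connectedComponentIn_eq h]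
  obtain ⟨good, gin, gout⟩ : ∃ good : ℂ → Prop, (∀ y ∈ ball x r, good y ↔ J a) ∧
      ∀ y ∉ ball x r, good y ↔ (y ∈ connectedComponentIn Kᶜ a ∨ (J a ∧ J y)) :=
    ⟨fun y => (y ∈ ball x r → J a) ∧ (y ∉ ball x r →
        (y ∈ connectedComponentIn Kᶜ a ∨ (J a ∧ J y))),
      fun y hy => ⟨fun h => h.1 hy, fun h => ⟨fun _ => h, fun h' => absurd hy h'⟩⟩,
      fun y hy => ⟨fun h => h.2 hy, fun h => ⟨fun h' => absurd h' hy, fun _ => h⟩⟩⟩
  have hkey : ∀ y ∈ Lᶜ, ∀ᶠ z in 𝓝 y, (good z ↔ good y) := by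
    intro y hy
    by_cases hyb : y ∈ ball x r
    · filter_upwards [isOpen_ball.mem_nhds hyb] with z hz
      rw [gin z hz, gin y hyb]
    have hyK : y ∉ K := fun h => hy (Or.inl ⟨h, hyb⟩)
    filter_upwards [hKo.connectedComponentIn.mem_nhds (mem_connectedComponentIn (F := Kᶜ) hyK),
      (show ∀ᶠ z in 𝓝 y, z ∈ ball x r → y ∈ sphere x r from by
        by_cases h : y ∈ sphere x r
        · exact Eventually.of_forall fun z _ => h
        · filter_upwards [isClosed_closedBall.isOpen_compl.mem_nhds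
            (show y ∈ (closedBall x r)ᶜ from fun h' => h (mem_sphere.2 (le_antisymm
              (mem_closedBall.1 h') (by rwa [mem_ball, not_lt] at hyb))))] with z hz hz'
          exact absurd (ball_subset_closedBall hz') hz)] with z hz hz'
    have hzy : z ∈ connectedComponentIn Kᶜ a ↔ y ∈ connectedComponentIn Kᶜ a := by
      constructor <;> intro h
      · rw [connectedComponentIn_eq h, ← connectedComponentIn_eq hz]
        exact mem_connectedComponentIn hyK
      · rw [connectedComponentIn_eq h]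
        exact hz
    by_cases hzb : z ∈ ball x r
    · have hyA : y ∈ A := hsub ⟨hz' hzb, fun h => hy (Or.inr h)⟩
      have hJy : J y := ⟨y, hyA, mem_connectedComponentIn hyK⟩
      have : y ∈ connectedComponentIn Kᶜ a → J a := fun h => (hJeq a y h).1 hJy
      rw [gin z hzb, gout y hyb]
      exact ⟨fun h => Or.inr ⟨h, hJy⟩, fun h => h.elim this And.left⟩
    · rw [gout z hzb, gout y hyb, hzy, hJeq y z hz]
  set U₁ := {y | y ∈ Lᶜ ∧ good y}
  set U₂ := {y | y ∈ Lᶜ ∧ ¬ good y}
  have hLo : IsOpen Lᶜ := ((hK.sdiff isOpen_ball).union hT).isOpen_compl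
  have h1 : IsOpen U₁ := isOpen_iff_mem_nhds.2 fun y hy => by
    filter_upwards [hkey y hy.1, hLo.mem_nhds hy.1] with z hz hzL using ⟨hzL, hz.2 hy.2⟩
  have h2 : IsOpen U₂ := isOpen_iff_mem_nhds.2 fun y hy => by
    filter_upwards [hkey y hy.1, hLo.mem_nhds hy.1] with z hz hzL using ⟨hzL, fun h => hy.2 (hz.1 h)⟩
  have ha0 : a ∉ ball (0 : ℂ) R := fun h => ha (Or.inl h)
  have hb0 : b ∉ ball (0 : ℂ) R := fun h => hb (Or.inl h)
  have haL : a ∈ Lᶜ := by
    by_contra h
    simp [connectedComponentIn_eq_empty h] at hb'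
  have hga : good a := (gout a (hbig a ha0)).2 (Or.inl (mem_connectedComponentIn haK))
  have hgb := ((isPreconnected_connectedComponentIn (F := Lᶜ) (x := a)).subset_left_of_subset_union
    h1 h2 (disjoint_left.2 fun y hy hy' => hy'.2 hy.2)
    (fun y hy => by
      have hyL := connectedComponentIn_subset _ _ hy
      by_cases h : good y
      · exact Or.inl ⟨hyL, h⟩
      · exact Or.inr ⟨hyL, h⟩)
    ⟨a, mem_connectedComponentIn haL, haL, hga⟩ hb').2
  rcases (gout b (hbig b hb0)).1 hgb with h | ⟨hJa, hJb⟩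
  · exact hn h
  · have far : ∀ y, y ∉ K → y ∉ ball (0 : ℂ) R → J y →
        ∃ p ∈ A, p ∈ connectedComponentIn Kᶜ y ∧
          ¬ Bornology.IsBounded (connectedComponentIn Kᶜ p) := by
      rintro y hyK hy0 ⟨p, hpA, hp⟩
      refine ⟨p, hpA, hp, fun hbd => hy0 ?_⟩
      obtain ⟨q, hq, hpq⟩ := mem_iUnion₂.1 (hF hpA)
      refine ball_subset_ball ((le_max_left _ _).trans hR)
        (hR₁ (mem_iUnion₂.2 ⟨q, Finset.mem_filter.2 ⟨hq, ?_⟩, ?_⟩))
      · rwa [connectedComponentIn_eq hpq]
      · rw [connectedComponentIn_eq hpq, ← connectedComponentIn_eq hp]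
        exact mem_connectedComponentIn hyK
    obtain ⟨p, hpA, hp, hpu⟩ := far a haK ha0 hJa
    obtain ⟨p', hpA', hp', hpu'⟩ := far b hbK hb0 hJb
    have h := hone p hpA p' hpA' hpu hpu'
    refine hn ?_
    rw [connectedComponentIn_eq hp, connectedComponentIn_eq h, ← connectedComponentIn_eq hp']
    exact mem_connectedComponentIn hbK

end Vale.Agent.P128.Bonnet
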