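import Vale.Agent.P128.Bonnet.Competitor.Clamp
import Vale.Agent.P128.Bonnet.Competitor.Separation

/-!
# One radius as competitor
-/

namespace Vale.Agent.P128.Bonnet

open MeasureTheory Filter Metric Set Islands Connected
open scoped Topology ENNReal NNReal ContDiff Real

/-- The profile `√(t / r)`. -/
lemma sqrt_profile {r : ℝ} (hr : 0 < r) :
    ContDiffOn ℝ ∞ (fun t => Real.sqrt (t / r)) (Ioi 0) ∧
      (∫⁻ t in Ioo 0 r, ENNReal.ofReal (t * deriv (fun t => Real.sqrt (t / r)) t ^ 2) ≤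
        ENNReal.ofReal (1 / 4)) ∧
      ∫⁻ t in Ioo 0 r, ENNReal.ofReal (Real.sqrt (t / r) ^ 2 / t) ≤ ENNReal.ofReal 1 := by
  refine ⟨fun t ht => ((Real.contDiffAt_sqrt (div_ne_zero (ne_of_gt ht) hr.ne')).comp t
    (contDiffAt_id.div_const r)).contDiffWithinAt, ?_, ?_⟩
  · refine (setLIntegral_mono' measurableSet_Ioo (g := fun _ => ENNReal.ofReal (1 / (4 * r)))
      fun t ht => ?_).trans ?_
    · refine ENNReal.ofReal_le_ofReal (le_of_eq ?_)
      have ht0 : 0 < t / r := div_pos ht.1 hr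
      have hd : HasDerivAt (fun t => Real.sqrt (t / r)) (1 / r / (2 * Real.sqrt (t / r))) t :=
        ((hasDerivAt_id t).div_const r).sqrt ht0.ne'
      rw [hd.deriv, div_pow, mul_pow, Real.sq_sqrt ht0.le]
      field_simp [ht.1.ne']
      ring
    · rw [setLIntegral_const, Real.volume_Ioo, sub_zero, ← ENNReal.ofReal_mul (by positivity)]
      refine ENNReal.ofReal_le_ofReal (le_of_eq ?_)
      field_simp
  · refine (setLIntegral_mono' measurableSet_Ioo (g := fun _ => ENNReal.ofReal (1 / r))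
      fun t ht => ?_).trans ?_
    · refine ENNReal.ofReal_le_ofReal (le_of_eq ?_)
      rw [Real.sq_sqrt (div_nonneg ht.1.le hr.le)]
      field_simp [ht.1.ne']
    · rw [setLIntegral_const, Real.volume_Ioo, sub_zero, ← ENNReal.ofReal_mul (by positivity)]
      refine ENNReal.ofReal_le_ofReal (le_of_eq ?_)
      field_simp

/-- Length of an arc. -/
lemma length_arc_le (x : ℂ) {r : ℝ} (hr : 0 ≤ r) (a b : ℝ) :
    Measure.hausdorffMeasure 1 (circleMap x r '' Icc a b) ≤ ENNReal.ofReal (r * (b - a)) := by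
  refine ((lipschitzWith_circleMap x r).hausdorffMeasure_image_le zero_le_one (Icc a b)).trans ?_
  rw [hausdorffMeasure_real, Real.volume_Icc, ENNReal.rpow_one, ENNReal.ofReal_mul hr,
    show (Real.nnabs r : ℝ≥0∞) = ENNReal.ofReal r by
      rw [← ENNReal.ofReal_coe_nnreal, Real.coe_nnabs, abs_of_nonneg hr]]

/-- Distance between two points of a circle. -/
lemma norm_circleMap_sub (x : ℂ) {r : ℝ} (hr : 0 ≤ r) (a b : ℝ) :
    ‖circleMap x r a - circleMap x r b‖ = 2 * r * |Real.sin ((a - b) / 2)| := by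
  have e : circleMap x r a - circleMap x r b = (r : ℂ) * Complex.exp (b * Complex.I) *
      (Complex.exp (Complex.I * ((a - b : ℝ) : ℂ)) - 1) := by
    simp only [circleMap, add_sub_add_left_eq_sub, mul_sub, mul_one, mul_assoc, ← Complex.exp_add]
    congr 3
    push_cast
    ring
  rw [e, norm_mul, norm_mul, Complex.norm_exp_ofReal_mul_I, mul_one, Complex.norm_real,
    Real.norm_eq_abs, abs_of_nonneg hr, Complex.norm_exp_I_mul_ofReal_sub_one, Real.norm_eq_abs,
    abs_mul, abs_two]
  ring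

/-- One radius as competitor. -/
theorem spokeGoal : SpokeGoal := by
  intro u K x h
  filter_upwards [ae_intervalIntegrable_tang h x] with r hint hr z hz δ hδ _ hKz
  have hπ := Real.pi_gt_three
  have hπ' := Real.pi_lt_d2
  obtain ⟨θz, rfl⟩ : z ∈ range (circleMap x r) := by rwa [range_circleMap, abs_of_pos hr]
  obtain ⟨hδ0, hδ1⟩ := hδ
  set q := π - (17 / 10) * δ with hq
  set p := π - 2 * δ with hp
  obtain ⟨c, hcs, hcd, hcid, hcb, hcq, hcq'⟩ :=
    exists_clamp (p := p) (q := q) (by linarith) (by linarith)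
  set θ₀ := θz + π with hθ₀
  set τ := Complex.exp (θ₀ * Complex.I) with hτd
  have hτ : ‖τ‖ = 1 := Complex.norm_exp_ofReal_mul_I θ₀
  have hτ0 : τ ≠ 0 := Complex.exp_ne_zero _
  have hpol : ∀ t φ, pol x τ (t, φ) = circleMap x t (θ₀ + φ) := fun t φ => by
    simp [pol, circleMap, hτd, add_mul, Complex.exp_add]
    ring
  -- the free arc
  have hfree : ∀ ψ, |ψ| ≤ q → circleMap x r (θ₀ + ψ) ∉ K := by
    intro ψ hψ hK
    have := hKz _ ⟨hK, circleMap_mem_sphere x hr.le _⟩
    rw [norm_circleMap_sub x hr.le, show (θ₀ + ψ - θz) / 2 = ψ / 2 + π / 2 by rw [hθ₀]; ring,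
      Real.sin_add_pi_div_two] at this
    have hcos : 2 / π * (17 / 10 * δ / 2) ≤ |Real.cos (ψ / 2)| := by
      have h1 : Real.cos (q / 2) ≤ Real.cos (ψ / 2) := by
        rw [← Real.cos_abs (ψ / 2)]
        exact Real.cos_le_cos_of_nonneg_of_le_pi (abs_nonneg _) (by linarith)
          (by rw [abs_div, abs_two]; linarith)
      rw [show q / 2 = π / 2 - 17 / 10 * δ / 2 by rw [hq]; ring, Real.cos_pi_div_two_sub] at h1
      exact (Real.mul_le_sin (by positivity) (by linarith)).trans (h1.trans (le_abs_self _))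
    have h2 : δ < 2 * (2 / π * (17 / 10 * δ / 2)) := by
      rw [show 2 * (2 / π * (17 / 10 * δ / 2)) = 34 / 10 * δ / π by ring, lt_div_iff₀ Real.pi_pos]
      nlinarith
    nlinarith
  set A := circleMap x r '' Icc (θ₀ - q) (θ₀ + q) with hA
  have hAK : Disjoint A K := disjoint_left.2 fun y hy hyK => by
    obtain ⟨θ, hθ, rfl⟩ := hy
    refine hfree (θ - θ₀) (abs_le.2 ⟨by linarith [hθ.1], by linarith [hθ.2]⟩) ?_
    rwa [add_sub_cancel]
  -- boundary values
  set m := u (circleMap x r θ₀) with hm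
  set G : ℝ × ℝ → ℝ := fun s => u (circleMap x s.1 (θ₀ + c s.2)) - m with hG
  obtain ⟨ε, hε, hεK⟩ : ∃ ε > 0, ∀ t ∈ Ioo (r - ε) (r + ε), ∀ ψ, |ψ| ≤ q →
      circleMap x t (θ₀ + ψ) ∉ K := by
    obtain ⟨ε, hε, hd⟩ := hAK.exists_thickenings (isCompact_Icc.image (continuous_circleMap x r))
      h.isClosed
    refine ⟨ε, hε, fun t ht ψ hψ hK => disjoint_left.1 hd ?_ (self_subset_thickening hε K hK)⟩
    refine mem_thickening_iff.2 ⟨circleMap x r (θ₀ + ψ), mem_image_of_mem _
      ⟨by linarith [(abs_le.1 hψ).1], by linarith [(abs_le.1 hψ).2]⟩, ?_⟩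
    rw [dist_eq_norm, show circleMap x t (θ₀ + ψ) - circleMap x r (θ₀ + ψ) =
      ((t - r : ℝ) : ℂ) * Complex.exp ((θ₀ + ψ : ℝ) * Complex.I) by simp [circleMap]; ring,
      norm_mul, Complex.norm_exp_ofReal_mul_I, mul_one, Complex.norm_real, Real.norm_eq_abs,
      abs_lt]
    constructor <;> linarith [ht.1, ht.2]
  have hKo : IsOpen Kᶜ := h.isClosed.isOpen_compl
  have hcm : ContDiff ℝ ∞ fun s : ℝ × ℝ => circleMap x s.1 (θ₀ + c s.2) := by
    simp only [circleMap]
    exact contDiff_const.add ((Complex.ofRealCLM.contDiff.comp contDiff_fst).mul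
      (((Complex.ofRealCLM.contDiff.comp (contDiff_const.add (hcs.comp contDiff_snd))).mul
        contDiff_const).cexp))
  have hGs : ContDiffOn ℝ ∞ G (Ioo (r - ε) (r + ε) ×ˢ univ) :=
    (h.smooth.comp hcm.contDiffOn fun s hs => hεK s.1 hs.1 _ (hcb _)).sub contDiffOn_const
  set g' : ℝ → ℝ := fun ψ => r * dot (grad u (circleMap x r (θ₀ + ψ)))
    (Complex.I * dir x (circleMap x r (θ₀ + ψ))) with hg'
  have hg'd : ∀ ψ, |ψ| ≤ q → HasDerivAt (fun ψ => u (circleMap x r (θ₀ + ψ))) (g' ψ) ψ :=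
    fun ψ hψ => (hasDerivAt_circle h hr (hfree ψ hψ)).comp_const_add θ₀ ψ
  have hg'c : ContinuousOn g' (Icc (-q) q) := by
    have hmap : MapsTo (fun ψ : ℝ => circleMap x r (θ₀ + ψ)) (Icc (-q) q) Kᶜ := fun ψ hψ =>
      hfree ψ (abs_le.2 hψ)
    have hgu : ContinuousOn (fun ψ => grad u (circleMap x r (θ₀ + ψ))) (Icc (-q) q) :=
      (contDiffOn_grad hKo h.smooth).continuousOn.comp
        ((continuous_circleMap x r).comp (continuous_const_add θ₀)).continuousOn hmap
    have hdr : Continuous fun ψ => Complex.I * dir x (circleMap x r (θ₀ + ψ)) := by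
      have e : ∀ ψ, dir x (circleMap x r (θ₀ + ψ)) = r⁻¹ • circleMap 0 r (θ₀ + ψ) := fun ψ => by
        rw [dir, circleMap_sub_center, norm_circleMap_zero, abs_of_pos hr]
      simp only [e]
      fun_prop
    simp only [hg', dot]
    exact continuousOn_const.mul (((Complex.continuous_re.comp_continuousOn hgu).mul
      (Complex.continuous_re.comp hdr).continuousOn).add ((Complex.continuous_im.comp_continuousOn hgu).mul
      (Complex.continuous_im.comp hdr).continuousOn))
  have hi : IntervalIntegrable (fun ψ => g' ψ ^ 2) volume (-π) π := by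
    have := ((hint hr (θ₀ - π) (θ₀ + π)).comp_add_left θ₀).const_mul (r ^ 2)
    simp only [sub_sub_cancel_left, add_sub_cancel_left] at this
    simpa [hg', mul_pow] using this
  set Q : ℝ → ℝ := fun φ => G (r, φ) with hQ
  set Q' : ℝ → ℝ := fun φ => g' (c φ) * deriv c φ with hQ'
  have hQd : ∀ φ, HasDerivAt Q (Q' φ) φ := fun φ =>
    ((hg'd _ (hcb φ)).comp φ (hcs.differentiable (by simp) φ).hasDerivAt).sub_const m
  have hQ'c : Continuous Q' :=
    (hg'c.comp_continuous hcs.continuous fun φ => abs_le.1 (hcb φ)).mul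
      (hcs.continuous_deriv (by simp))
  have hQ0 : Q 0 = 0 := by
    simp only [hQ, hG, hcid 0 (by rw [abs_zero]; linarith), add_zero, hm, sub_self]
  have hQc : Continuous Q := continuous_iff_continuousAt.2 fun φ => (hQd φ).continuousAt
  have hQc2 : Continuous fun φ => Q φ ^ 2 := hQc.pow 2
  have hQ'c2 : Continuous fun φ => Q' φ ^ 2 := hQ'c.pow 2
  have hwirt : ∫ φ in -π..π, Q φ ^ 2 ≤ 4 * ∫ φ in -π..π, Q' φ ^ 2 := by
    have hqπ : q < π := by linarith
    have w1 := wirtinger_half hqπ hQd hQ'c hQ0 fun φ hφ => by simp only [hQ, hG, hcq φ hφ]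
    have w2 := wirtinger_half (Q := fun φ => Q (-φ)) (Q' := fun φ => -Q' (-φ)) hqπ
      (fun φ => ((hQd (-φ)).comp φ (hasDerivAt_neg φ)).congr_deriv (by ring))
      (hQ'c.comp continuous_neg).neg (by simpa using hQ0) fun φ hφ => by
        simp only [hQ, hG, hcq' (-φ) (by linarith)]
    simp only [neg_sq] at w2
    rw [intervalIntegral.integral_comp_neg (fun φ => Q φ ^ 2), neg_zero,
      intervalIntegral.integral_comp_neg (fun φ => Q' φ ^ 2), neg_zero] at w2
    rw [← intervalIntegral.integral_add_adjacent_intervals (a := -π) (b := 0) (c := π)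
        (hQc2.intervalIntegrable _ _) (hQc2.intervalIntegrable _ _),
      ← intervalIntegral.integral_add_adjacent_intervals (a := -π) (b := 0) (c := π)
        (hQ'c2.intervalIntegrable _ _) (hQ'c2.intervalIntegrable _ _)]
    linarith
  have hQ'le : ∫ φ in -π..π, Q' φ ^ 2 ≤ r * tang u x r := by
    refine (integral_sq_clamp_le (by linarith) hcs hcd hcb hg'c hi).trans (le_of_eq ?_)
    rw [tang_eq x r (θ₀ - π)]
    simp only [hg', mul_pow]
    rw [intervalIntegral.integral_const_mul,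
      intervalIntegral.integral_comp_add_left (f := fun θ =>
        dot (grad u (circleMap x r θ)) (Complex.I * dir x (circleMap x r θ)) ^ 2) θ₀,
      show θ₀ + -π = θ₀ - π by ring, show θ₀ - π + 2 * π = θ₀ + π by ring]
    ring
  -- the new singular set
  set z := circleMap x r θz with hzd
  set T := circleMap x r '' Icc (θz - 2 * δ) (θz + 2 * δ) ∪ segment ℝ x z with hT
  have hzs : z ∈ closedBall x r := circleMap_mem_closedBall x hr.le θz
  have hTc : IsClosed T := ((isCompact_Icc.image (continuous_circleMap x r)).isClosed).union (by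
    rw [← convexHull_pair]; exact (toFinite _).isClosed_convexHull ℝ)
  have hTb : T ⊆ closedBall x r := union_subset
    (by rintro _ ⟨θ, -, rfl⟩; exact circleMap_mem_closedBall x hr.le θ)
    ((convex_closedBall x r).segment_subset (mem_closedBall_self hr.le) hzs)
  have hTle : Measure.hausdorffMeasure 1 T ≤ ENNReal.ofReal ((1 + 4 * δ) * r) := by
    refine (measure_union_le _ _).trans
      ((add_le_add (length_arc_le x hr.le _ _) (le_of_eq (b := ENNReal.ofReal r) ?_)).trans ?_)
    · rw [hausdorffMeasure_segment, edist_dist, dist_comm, hzd,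
        mem_sphere.1 (circleMap_mem_sphere x hr.le θz)]
    · rw [← ENNReal.ofReal_add (mul_nonneg hr.le (by linarith)) hr.le]
      exact ENNReal.ofReal_le_ofReal (by linarith)
  have hsph : ∀ y ∈ sphere x r, y ∉ T →
      |Complex.arg ((y - x) / τ)| < p ∧ y = circleMap x r (θ₀ + Complex.arg ((y - x) / τ)) := by
    intro y hy hyT
    set φ := Complex.arg ((y - x) / τ) with hφ
    have e : y = circleMap x r (θ₀ + φ) := by
      rw [← hpol, ← mem_sphere.1 hy, dist_eq_norm, pol_unpol hτ0 hτ]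
    refine ⟨?_, e⟩
    by_contra hn
    rw [not_lt] at hn
    have hr' := Complex.arg_mem_Ioc ((y - x) / τ)
    rw [← hφ] at hr'
    refine hyT (Or.inl ?_)
    rw [e]
    rcases le_or_gt 0 φ with h0 | h0
    · rw [abs_of_nonneg h0] at hn
      refine ⟨θ₀ + φ - 2 * π, ⟨by linarith, by linarith [hr'.2]⟩, ?_⟩
      exact (periodic_circleMap x r).sub_eq _
    · rw [abs_of_neg h0] at hn
      exact ⟨θ₀ + φ, ⟨by linarith [hr'.1], by linarith⟩, rfl⟩
  have hsub : sphere x r \ T ⊆ A := fun y hy => by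
    obtain ⟨h1, h2⟩ := hsph y hy.1 hy.2
    rw [h2]
    exact mem_image_of_mem _ ⟨by linarith [(abs_lt.1 h1).1], by linarith [(abs_lt.1 h1).2]⟩
  have hsep := keepsSeparation_disk h.isClosed hTc (isCompact_Icc.image (continuous_circleMap x r))
    hAK hsub fun a ha b hb _ _ =>
      (isPreconnected_Icc.image _ (continuous_circleMap x r).continuousOn
        ).subset_connectedComponentIn ha (fun y hy => disjoint_left.1 hAK hy) hb
  -- the competitor
  obtain ⟨hw, hwA, hwB⟩ := sqrt_profile hr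
  refine le_of_forall_pos_le_add fun η hη => ?_
  obtain ⟨Φ, hh, hh0, hhε, hhr, hΦs, hΦeq, hΦen⟩ := exists_blend hr hε m hGs hw
    (by rw [div_self hr.ne', Real.sqrt_one]) (by norm_num : (0 : ℝ) ≤ 1 / 4) zero_le_one hwA hwB hη
  have hder : ∀ φ, fderiv ℝ G (r, φ) (0, 1) = Q' φ := fun φ => by
    have hm' : ((r, φ) : ℝ × ℝ) ∈ Ioo (r - ε) (r + ε) ×ˢ (univ : Set ℝ) :=
      ⟨⟨by linarith, by linarith⟩, trivial⟩
    exact ((((hGs _ hm').contDiffAt ((isOpen_Ioo.prod isOpen_univ).mem_nhds hm')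
      ).differentiableAt (by simp)).hasFDerivAt.comp_hasDerivAt_of_eq φ
      ((hasDerivAt_const φ r).prodMk (hasDerivAt_id φ)) rfl).unique (hQd φ)
  simp only [hder] at hΦen
  have hI : 0 ≤ ∫ φ in -π..π, Q' φ ^ 2 :=
    intervalIntegral.integral_nonneg (by linarith) fun φ _ => sq_nonneg _
  obtain ⟨hmem, hEn⟩ := energy_unpol (x := x) hτ (E := 2 * (r * tang u x r) + η) (by linarith) hΦs
    (hΦen.trans (ENNReal.ofReal_le_ofReal (by linarith)))
  have hV : ContDiffOn ℝ ∞ (unpol x τ Φ) (ball x r \ T) := by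
    intro y hy
    have hslit : (y - x) / τ ∈ Complex.slitPlane := by
      refine Complex.mem_slitPlane_iff_arg.2 ⟨fun hπ => hy.2 (Or.inr ?_), fun h0 => hy.2 (Or.inr ?_)⟩
      · have e := pol_unpol (x := x) hτ0 hτ y
        rw [hπ, hpol, show θ₀ + π = θz + 2 * π by rw [hθ₀]; ring,
          periodic_circleMap x _ θz] at e
        rw [← e, segment_eq_image']
        refine ⟨‖y - x‖ / r, ⟨by positivity, (div_le_one hr).2 ?_⟩, ?_⟩
        · rw [← dist_eq_norm]; exact (mem_ball.1 hy.1).le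
        · simp only [hzd, circleMap, add_sub_cancel_left, Complex.real_smul]
          push_cast
          rw [← mul_assoc, div_mul_cancel₀ _ (Complex.ofReal_ne_zero.2 hr.ne')]
      · rw [div_eq_zero_iff, sub_eq_zero] at h0
        rw [h0.resolve_right hτ0]
        exact left_mem_segment ℝ x z
    have hs : ((‖y - x‖, Complex.arg ((y - x) / τ)) : ℝ × ℝ) ∈ Ioo 0 r ×ˢ (univ : Set ℝ) :=
      ⟨⟨norm_pos_iff.2 fun h0 => Complex.slitPlane_ne_zero hslit (by simp [h0]),
        by rw [← dist_eq_norm]; exact mem_ball.1 hy.1⟩, trivial⟩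
    exact (contDiffAt_unpol hslit ((hΦs _ hs).contDiffAt
      ((isOpen_Ioo.prod isOpen_univ).mem_nhds hs))).contDiffWithinAt
  have hglue : ∀ y ∈ sphere x r, y ∉ T →
      y ∉ K ∧ ∀ᶠ w in 𝓝 y, w ∈ ball x r → unpol x τ Φ w = u w := by
    intro y hy hyT
    obtain ⟨hφ, -⟩ := hsph y hy hyT
    refine ⟨disjoint_left.1 hAK (hsub ⟨hy, hyT⟩), ?_⟩
    have hyx : y - x ≠ 0 := fun h0 => by
      rw [mem_sphere, dist_eq_norm, h0, norm_zero] at hy
      linarith
    have hslit : (y - x) / τ ∈ Complex.slitPlane :=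
      Complex.mem_slitPlane_iff_arg.2
        ⟨fun hπ => by rw [hπ, abs_of_pos Real.pi_pos] at hφ; linarith, div_ne_zero hyx hτ0⟩
    have hcn : Continuous fun w : ℂ => ‖w - x‖ := (continuous_id.sub continuous_const).norm
    have hcarg : ContinuousAt (fun w : ℂ => Complex.arg ((w - x) / τ)) y :=
      ContinuousAt.comp (g := Complex.arg) (f := fun w : ℂ => (w - x) / τ)
        (contDiffAt_arg hslit).continuousAt
        ((continuous_id.sub continuous_const).div_const τ).continuousAt
    filter_upwards [hcarg.abs.eventually (gt_mem_nhds hφ),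
      hcn.continuousAt.eventually (lt_mem_nhds (show r - hh < ‖y - x‖ by
        rw [mem_sphere, dist_eq_norm] at hy; linarith))] with w hw1 hw2 hwb
    rw [unpol, hΦeq _ ⟨hw2, by rw [← dist_eq_norm]; exact mem_ball.1 hwb⟩]
    simp only [hG, hcid _ hw1.le, ← hpol, pol_unpol hτ0 hτ]
    ring
  have hTtop := ne_top_of_le_ne_top ENNReal.ofReal_ne_top hTle
  have := vary_ball h hTc hTb hTtop hV hglue hmem hsep
  have hTr := ENNReal.toReal_mono ENNReal.ofReal_ne_top hTle
  rw [ENNReal.toReal_ofReal (by positivity)] at hTr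
  nlinarith

end Vale.Agent.P128.Bonnet
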