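import Mathlib

/-!
# Trees joining finitely many points of the unit circle, with the arcs their regions reach

In the unit disk: the star of radii, and the star in which the two radii to a closest pair are
merged near the centre.  A locally constant label assigns to each point off the tree one of the
arcs, the radial one outside the disk of radius one half.
-/

namespace Vale.Agent.P128.Bonnet.Tree

open MeasureTheory Filter Metric Set
open scoped Topology

/-- The arc through `u` of the unit circle with the points of `Z` removed. -/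
def arc (Z : Finset ℂ) (u : ℂ) : Set ℂ := connectedComponentIn (sphere 0 1 \ ↑Z) u

/-- A tree with locally constant arc labels and length at most `Λ`. -/
structure Plan (Z : Finset ℂ) (T : Set ℂ) (ℓ : ℂ → Set ℂ) (Λ : ℝ) : Prop where
  isCompact : IsCompact T
  subset : T ⊆ closedBall 0 1
  radii : ∀ z ∈ Z, ∀ t ∈ Icc (1 / 2 : ℝ) 1, t • z ∈ T
  isArc : ∀ y ∈ ball (0 : ℂ) 1 \ T, ∃ q ∈ sphere (0 : ℂ) 1 \ ↑Z, ℓ y = arc Z q
  locallyConst : ∀ y ∈ ball (0 : ℂ) 1 \ T, ∀ᶠ y' in 𝓝 y, ℓ y' = ℓ y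
  outer : ∀ y ∈ ball (0 : ℂ) 1 \ T, 1 / 2 < ‖y‖ → ℓ y = arc Z (‖y‖⁻¹ • y)
  len_le : Measure.hausdorffMeasure 1 T ≤ ENNReal.ofReal Λ

/-- The radial projection. -/
noncomputable def proj (y : ℂ) : ℂ := ‖y‖⁻¹ • y

lemma proj_mem_sphere {y : ℂ} (hy : y ≠ 0) : proj y ∈ sphere (0 : ℂ) 1 := by
  simp [proj, hy]

lemma continuousAt_proj {y : ℂ} (hy : y ≠ 0) : ContinuousAt proj y :=
  ((continuous_norm.continuousAt).inv₀ (norm_ne_zero_iff.2 hy)).smul continuousAt_id

lemma norm_smul_proj (y : ℂ) : ‖y‖ • proj y = y := by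
  rcases eq_or_ne y 0 with rfl | hy
  · simp
  · rw [proj, smul_smul, mul_inv_cancel₀ (norm_ne_zero_iff.2 hy), one_smul]

lemma arc_eq_of_interval {Z : Finset ℂ} (ω : ℂ) (hω : ‖ω‖ = 1) {I : Set ℝ} (hI : IsPreconnected I)
    (hfree : ∀ θ ∈ I, ω * Complex.exp (θ * Complex.I) ∉ Z) {θ₁ θ₂ : ℝ} (h₁ : θ₁ ∈ I)
    (h₂ : θ₂ ∈ I) :
    arc Z (ω * Complex.exp (θ₁ * Complex.I)) = arc Z (ω * Complex.exp (θ₂ * Complex.I)) := by
  refine connectedComponentIn_eq ?_
  refine (hI.image (fun θ : ℝ => ω * Complex.exp (θ * Complex.I))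
    (by fun_prop)).subset_connectedComponentIn (mem_image_of_mem _ h₁) ?_ (mem_image_of_mem _ h₂)
  rintro _ ⟨θ, hθ, rfl⟩
  exact ⟨by simp [hω], hfree θ hθ⟩

/-- Nearby directions lie in the same arc. -/
lemma arc_proj_eventually {Z : Finset ℂ} {y : ℂ} (hy : y ≠ 0) (hZ : proj y ∉ Z) :
    ∀ᶠ y' in 𝓝 y, arc Z (proj y') = arc Z (proj y) := by
  set q := proj y
  have hq : ‖q‖ = 1 := mem_sphere_zero_iff_norm.1 (proj_mem_sphere hy)
  set e : ℝ → ℂ := fun θ => q * Complex.exp (θ * Complex.I) with he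
  have hec : Continuous e := by fun_prop
  have he0 : e 0 = q := by simp [he]
  obtain ⟨η, hη, hball⟩ := Metric.isOpen_iff.1 (Z.finite_toSet.isClosed.isOpen_compl.preimage hec)
    0 (by simpa [he0] using hZ)
  have hq0 : q ≠ 0 := fun h => by simp [h] at hq
  set φ : ℂ → ℝ := fun y' => Complex.arg (proj y' / q)
  have hc : ContinuousAt φ y :=
    ContinuousAt.comp (g := Complex.arg) (f := fun y' => proj y' / q)
      (Complex.continuousAt_arg (by simp [q, div_self hq0]))
      ((continuousAt_proj hy).div_const q)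
  have hφy : φ y = 0 := by simp [φ, q, div_self hq0]
  filter_upwards [hc (ball_mem_nhds (φ y) hη), eventually_ne_nhds hy] with y' h h0
  rw [mem_preimage, hφy] at h
  have hrec : proj y' = e (φ y') := by
    have h1 : ‖proj y' / q‖ = 1 := by
      rw [norm_div, hq, div_one, mem_sphere_zero_iff_norm.1 (proj_mem_sphere h0)]
    have h2 := Complex.norm_mul_exp_arg_mul_I (proj y' / q)
    rw [h1, Complex.ofReal_one, one_mul] at h2
    simp only [he, φ, h2]
    field_simp
  rw [hrec, show arc Z q = arc Z (e 0) by rw [he0]]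
  exact arc_eq_of_interval q hq (convex_ball (0 : ℝ) η).isPreconnected
    (fun θ hθ => hball hθ) h (mem_ball_self hη)

lemma smul_mem_segment_zero {z : ℂ} {t : ℝ} (h0 : 0 ≤ t) (h1 : t ≤ 1) :
    t • z ∈ segment ℝ 0 z :=
  ⟨1 - t, t, by linarith, h0, by ring, by simp⟩

lemma mem_segment_zero_of_proj {z y : ℂ} (hy : ‖y‖ ≤ 1) (h : proj y = z) : y ∈ segment ℝ 0 z := by
  rw [← norm_smul_proj y, h]
  exact smul_mem_segment_zero (norm_nonneg y) hy

lemma hausdorff_segment_le (a b : ℂ) :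
    Measure.hausdorffMeasure 1 (segment ℝ a b) ≤ ENNReal.ofReal ‖b - a‖ := by
  rw [hausdorffMeasure_segment, edist_dist, dist_eq_norm, norm_sub_rev]

lemma segment_subset_ball {a b : ℂ} (ha : ‖a‖ ≤ 1) (hb : ‖b‖ ≤ 1) :
    segment ℝ a b ⊆ closedBall (0 : ℂ) 1 :=
  (convex_closedBall 0 1).segment_subset (by simpa using ha) (by simpa using hb)

lemma isCompact_segment' (a b : ℂ) : IsCompact (segment ℝ a b) := by
  rw [segment_eq_image']
  exact isCompact_Icc.image (by fun_prop)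

/-- The radii to `Z`. -/
def spokes (Z : Finset ℂ) : Set ℂ := ⋃ z ∈ Z, segment ℝ 0 z

lemma spokes_len (Z : Finset ℂ) (hZ : ∀ z ∈ Z, ‖z‖ = 1) :
    Measure.hausdorffMeasure 1 (spokes Z) ≤ ENNReal.ofReal (Z.card : ℝ) := by
  refine (measure_biUnion_finset_le _ _).trans ((Finset.sum_le_sum fun z hz =>
    (hausdorff_segment_le 0 z).trans (le_of_eq (by rw [sub_zero, hZ z hz]))).trans ?_)
  simp

/-- The star of all radii. -/
theorem plan_star (Z : Finset ℂ) (hZ : ∀ z ∈ Z, ‖z‖ = 1) (hne : Z.Nonempty) :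
    Plan Z (spokes Z) (fun y => arc Z (proj y)) Z.card := by
  have key : ∀ y ∈ ball (0 : ℂ) 1 \ spokes Z, y ≠ 0 ∧ proj y ∉ Z := fun y hy => by
    refine ⟨fun h => hy.2 ?_, fun h => hy.2 ?_⟩
    · obtain ⟨z, hz⟩ := hne
      exact mem_iUnion₂.2 ⟨z, hz, h ▸ left_mem_segment ℝ 0 z⟩
    · exact mem_iUnion₂.2 ⟨_, h, mem_segment_zero_of_proj (mem_ball_zero_iff.1 hy.1).le rfl⟩
  refine ⟨Z.isCompact_biUnion fun z _ => isCompact_segment' 0 z, ?_,
    fun z hz t ht => mem_iUnion₂.2 ⟨z, hz, smul_mem_segment_zero (by linarith [ht.1]) ht.2⟩,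
    fun y hy => ⟨proj y, ⟨proj_mem_sphere (key y hy).1, (key y hy).2⟩, rfl⟩,
    fun y hy => arc_proj_eventually (key y hy).1 (key y hy).2, fun y _ _ => rfl, spokes_len Z hZ⟩
  exact iUnion₂_subset fun z hz => segment_subset_ball (by simp) (hZ z hz).le

section Merge

/-- The coordinate along `ω`. -/
noncomputable def rp (ω y : ℂ) : ℝ := (y / ω).re

/-- The coordinate across `ω`. -/
noncomputable def ip (ω y : ℂ) : ℝ := (y / ω).im

/-- The point of the circle at angle `θ` from `ω`. -/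
noncomputable def pt (ω : ℂ) (θ : ℝ) : ℂ := ω * Complex.exp (θ * Complex.I)

lemma continuous_rp (ω : ℂ) : Continuous (rp ω) :=
  Complex.continuous_re.comp (continuous_id.div_const ω)

lemma continuous_ip (ω : ℂ) : Continuous (ip ω) :=
  Complex.continuous_im.comp (continuous_id.div_const ω)

variable {ω : ℂ} (hω : ‖ω‖ = 1)
include hω

lemma eq_coord (y : ℂ) : y = ω * (rp ω y + ip ω y * Complex.I) := by
  have h0 : ω ≠ 0 := fun h => by simp [h] at hω
  rw [rp, ip, Complex.re_add_im, mul_div_cancel₀ _ h0]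

lemma norm_sq_coord (y : ℂ) : ‖y‖ ^ 2 = rp ω y ^ 2 + ip ω y ^ 2 := by
  have : ‖y / ω‖ = ‖y‖ := by rw [norm_div, hω, div_one]
  rw [← this, Complex.sq_norm, Complex.normSq_apply, rp, ip]
  ring

omit hω in
lemma coord_smul (t : ℝ) (v : ℂ) : rp ω (t • v) = t * rp ω v ∧ ip ω (t • v) = t * ip ω v := by
  constructor <;> simp [rp, ip, Complex.real_smul, mul_div_assoc]

omit hω in
lemma coord_proj (y : ℂ) : rp ω (proj y) = ‖y‖⁻¹ * rp ω y ∧ ip ω (proj y) = ‖y‖⁻¹ * ip ω y :=
  coord_smul _ y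

lemma coord_pt (θ : ℝ) : rp ω (pt ω θ) = Real.cos θ ∧ ip ω (pt ω θ) = Real.sin θ := by
  have h0 : ω ≠ 0 := fun h => by simp [h] at hω
  simp [rp, ip, pt, mul_div_cancel_left₀ _ h0, Complex.exp_ofReal_mul_I_re,
    Complex.exp_ofReal_mul_I_im]

lemma norm_pt (θ : ℝ) : ‖pt ω θ‖ = 1 := by simp [pt, hω]

lemma eq_pt {u : ℂ} (hu : ‖u‖ = 1) :
    u = pt ω (if 0 ≤ ip ω u then Real.arccos (rp ω u) else -Real.arccos (rp ω u)) := by
  have h2 := norm_sq_coord hω u
  rw [hu] at h2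
  have hR1 : -1 ≤ rp ω u ∧ rp ω u ≤ 1 := ⟨by nlinarith, by nlinarith⟩
  have hsq : Real.sqrt (1 - rp ω u ^ 2) = |ip ω u| := by
    rw [show 1 - rp ω u ^ 2 = ip ω u ^ 2 by linarith, Real.sqrt_sq_eq_abs]
  conv_lhs => rw [eq_coord hω u]
  simp only [pt]
  congr 1
  rw [Complex.exp_mul_I]
  split_ifs with h
  · rw [← Complex.ofReal_cos, ← Complex.ofReal_sin, Real.cos_arccos hR1.1 hR1.2,
      Real.sin_arccos, hsq, abs_of_nonneg h]
  · rw [← Complex.ofReal_cos, ← Complex.ofReal_sin, Real.cos_neg, Real.sin_neg,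
      Real.cos_arccos hR1.1 hR1.2, Real.sin_arccos, hsq, abs_of_neg (not_le.1 h), neg_neg]

/-- The arc in the gap of the pair. -/
lemma arc_mid {Z : Finset ℂ} {c : ℝ} (hc : 0 < c) (hgap : ∀ z ∈ Z, rp ω z ≤ c) {u : ℂ}
    (hu : ‖u‖ = 1) (hcu : c < rp ω u) : arc Z u = arc Z (pt ω 0) := by
  have hu2 := norm_sq_coord hω u
  rw [hu] at hu2
  have hu1 : rp ω u ≤ 1 := by nlinarith
  have hcg : Real.cos (Real.arccos c) = c := Real.cos_arccos (by linarith) (by linarith)
  have hlt : Real.arccos (rp ω u) < Real.arccos c :=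
    Real.arccos_lt_arccos (by linarith) hcu hu1
  have hg : 0 < Real.arccos c := Real.arccos_pos.2 (by linarith)
  conv_lhs => rw [eq_pt hω hu]
  refine arc_eq_of_interval ω hω
    (isPreconnected_Ioo (a := -Real.arccos c) (b := Real.arccos c)) (fun θ hθ h => ?_) ?_
    ⟨by linarith, hg⟩
  · have h1 := hgap _ h
    rw [show rp ω (ω * Complex.exp (θ * Complex.I)) = Real.cos θ from (coord_pt hω θ).1] at h1
    have : c < Real.cos θ := by
      rw [← hcg, ← Real.cos_abs θ]
      exact Real.cos_lt_cos_of_nonneg_of_le_pi (abs_nonneg θ) (Real.arccos_le_pi c) (abs_lt.2 hθ)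
    linarith
  · have := Real.arccos_nonneg (rp ω u)
    split_ifs
    · exact ⟨by linarith, hlt⟩
    · exact ⟨by linarith, by linarith⟩

/-- The arcs just outside the pair. -/
lemma exists_sides (Z : Finset ℂ) {c : ℝ} (hc : 0 < c) (hc1 : c < 1) :
    ∃ ε > 0, ∃ qu ∈ sphere (0 : ℂ) 1 \ ↑Z, ∃ qd ∈ sphere (0 : ℂ) 1 \ ↑Z,
      rp ω qd < c ∧ rp ω qu < c ∧
      ∀ u, ‖u‖ = 1 → c - ε < rp ω u → rp ω u < c →
        arc Z u = if 0 ≤ ip ω u then arc Z qu else arc Z qd := by
  classical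
  obtain ⟨ε, hε, hεc, hεZ⟩ : ∃ ε > 0, ε ≤ c ∧ ∀ z ∈ Z, rp ω z ≤ c - ε ∨ c ≤ rp ω z := by
    rcases ((Z.image (rp ω)).filter fun t => t < c).eq_empty_or_nonempty with h | h
    · refine ⟨c, hc, le_rfl, fun z hz => Or.inr (not_lt.1 fun hlt => ?_)⟩
      exact Finset.eq_empty_iff_forall_notMem.1 h (rp ω z)
        (Finset.mem_filter.2 ⟨Finset.mem_image_of_mem _ hz, hlt⟩)
    · have hM := (Finset.mem_filter.1 (Finset.max'_mem _ h)).2
      refine ⟨min c (c - Finset.max' _ h), lt_min hc (by linarith), min_le_left _ _,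
        fun z hz => ?_⟩
      rcases lt_or_ge (rp ω z) c with hlt | hge
      · have hmem : rp ω z ∈ (Z.image (rp ω)).filter fun t => t < c :=
          Finset.mem_filter.2 ⟨Finset.mem_image_of_mem _ hz, hlt⟩
        have := Finset.le_max' _ (rp ω z) hmem
        exact Or.inl (by linarith [min_le_right c (c - Finset.max' _ h)])
      · exact Or.inr hge
  set g := Real.arccos c with hg
  set h₁ := Real.arccos (c - ε)
  have hcg : Real.cos g = c := Real.cos_arccos (by linarith) hc1.le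
  have hch : Real.cos h₁ = c - ε := Real.cos_arccos (by linarith) (by linarith)
  have hg0 : 0 < g := Real.arccos_pos.2 hc1
  have hgh : g < h₁ := Real.arccos_lt_arccos (by linarith) (by linarith) hc1.le
  have hh₁ : h₁ ≤ Real.pi := Real.arccos_le_pi _
  have hcos : ∀ θ : ℝ, g < |θ| → |θ| < h₁ → Real.cos θ < c ∧ c - ε < Real.cos θ :=
    fun θ h1 h2 => by
      constructor
      · rw [← hcg, ← Real.cos_abs θ]
        exact Real.cos_lt_cos_of_nonneg_of_le_pi hg0.le (h2.le.trans hh₁) h1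
      · rw [← hch, ← Real.cos_abs θ]
        exact Real.cos_lt_cos_of_nonneg_of_le_pi (abs_nonneg θ) hh₁ h2
  have hband : ∀ θ : ℝ, g < |θ| → |θ| < h₁ → pt ω θ ∉ Z := fun θ h1 h2 h => by
    obtain ⟨e1, e2⟩ := hcos θ h1 h2
    rcases hεZ _ h with h' | h' <;> rw [(coord_pt hω θ).1] at h' <;> linarith
  set θp := (g + h₁) / 2
  have hθpm : |θp| = θp := abs_of_pos (by simp only [θp]; linarith)
  have hθn : |(-θp)| = θp := by rw [abs_neg, hθpm]
  have hm : g < θp ∧ θp < h₁ := ⟨by simp only [θp]; linarith, by simp only [θp]; linarith⟩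
  refine ⟨ε, hε, pt ω θp, ⟨by simp [norm_pt hω], hband _ (hθpm.symm ▸ hm.1) (hθpm.symm ▸ hm.2)⟩,
    pt ω (-θp), ⟨by simp [norm_pt hω], hband _ (hθn.symm ▸ hm.1) (hθn.symm ▸ hm.2)⟩,
    by rw [(coord_pt hω _).1]; exact (hcos _ (hθn.symm ▸ hm.1) (hθn.symm ▸ hm.2)).1,
    by rw [(coord_pt hω _).1]; exact (hcos _ (hθpm.symm ▸ hm.1) (hθpm.symm ▸ hm.2)).1,
    fun u hu h1 h2 => ?_⟩
  have e1 : g < Real.arccos (rp ω u) := Real.arccos_lt_arccos (by linarith) h2 hc1.le
  have e2 : Real.arccos (rp ω u) < h₁ := Real.arccos_lt_arccos (by linarith) h1 (by linarith)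
  conv_lhs => rw [eq_pt hω hu]
  split_ifs
  · exact arc_eq_of_interval ω hω (isPreconnected_Ioo (a := g) (b := h₁))
      (fun θ hθ => hband θ (by rw [abs_of_pos (hg0.trans hθ.1)]; exact hθ.1)
        (by rw [abs_of_pos (hg0.trans hθ.1)]; exact hθ.2))
      ⟨e1, e2⟩ hm
  · exact arc_eq_of_interval ω hω (isPreconnected_Ioo (a := -h₁) (b := -g))
      (fun θ hθ => hband θ (by rw [abs_of_neg (by linarith [hθ.2])]; linarith [hθ.2])
        (by rw [abs_of_neg (by linarith [hθ.2])]; linarith [hθ.1]))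
      ⟨by linarith, by linarith⟩ ⟨by linarith [hm.2], by linarith [hm.1]⟩

/-- When there are only the two, everything outside their gap is one arc. -/
lemma arc_outside {Z : Finset ℂ} {c : ℝ} (hc : 0 < c) (hc1 : c < 1)
    (hall : ∀ z ∈ Z, rp ω z = c) {u v : ℂ} (hu : ‖u‖ = 1) (hv : ‖v‖ = 1) (hu' : rp ω u < c)
    (hv' : rp ω v < c) : arc Z u = arc Z v := by
  suffices h : ∀ u, ‖u‖ = 1 → rp ω u < c → arc Z u = arc Z (pt ω Real.pi) by
    rw [h u hu hu', h v hv hv']
  intro u hu hlt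
  set g := Real.arccos c
  have hcg : Real.cos g = c := Real.cos_arccos (by linarith) hc1.le
  have hg0 : 0 < g := Real.arccos_pos.2 hc1
  have hgπ : g < Real.pi / 2 := Real.arccos_lt_pi_div_two.2 hc
  have hfree : ∀ θ ∈ Ioo g (2 * Real.pi - g), ω * Complex.exp (θ * Complex.I) ∉ Z :=
    fun θ hθ h => by
      have h1 := hall _ h
      rw [show rp ω (ω * Complex.exp (θ * Complex.I)) = Real.cos θ from (coord_pt hω θ).1] at h1
      rcases le_or_gt θ Real.pi with hle | hgt
      · have := Real.cos_lt_cos_of_nonneg_of_le_pi hg0.le hle hθ.1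
        linarith
      · have := Real.cos_lt_cos_of_nonneg_of_le_pi hg0.le (y := 2 * Real.pi - θ) (by linarith)
          (by linarith [hθ.2])
        rw [Real.cos_two_pi_sub] at this
        linarith
  have h2 := norm_sq_coord hω u
  rw [hu] at h2
  have e1 : g < Real.arccos (rp ω u) := Real.arccos_lt_arccos (by nlinarith) hlt hc1.le
  have e2 := Real.arccos_le_pi (rp ω u)
  have hm : Real.pi ∈ Ioo g (2 * Real.pi - g) := ⟨by linarith, by linarith⟩
  conv_lhs => rw [eq_pt hω hu]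
  split_ifs
  · exact arc_eq_of_interval ω hω isPreconnected_Ioo hfree ⟨e1, by linarith⟩ hm
  · have e3 : pt ω (-Real.arccos (rp ω u)) = pt ω (2 * Real.pi - Real.arccos (rp ω u)) := by
      simp only [pt]
      congr 1
      push_cast
      rw [sub_mul, Complex.exp_sub, Complex.exp_two_pi_mul_I, neg_mul, Complex.exp_neg, one_div]
    rw [e3]
    exact arc_eq_of_interval ω hω isPreconnected_Ioo hfree ⟨by linarith, by linarith⟩ hm

omit hω

/-- The tree with the pair `a, b` merged at `m`. -/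
def mergeTree (Z : Finset ℂ) (m a b : ℂ) : Set ℂ :=
  (if Z.card = 2 then ∅ else segment ℝ 0 m) ∪ segment ℝ m ((1 / 2 : ℝ) • a) ∪
    segment ℝ m ((1 / 2 : ℝ) • b) ∪ segment ℝ ((1 / 2 : ℝ) • a) a ∪
    segment ℝ ((1 / 2 : ℝ) • b) b ∪ spokes ((Z.erase a).erase b)

lemma mem_outer_segment {v y : ℂ} (h1 : 1 / 2 ≤ ‖y‖) (h2 : ‖y‖ ≤ 1) (hv : y = ‖y‖ • v) :
    y ∈ segment ℝ ((1 / 2 : ℝ) • v) v :=
  ⟨2 - 2 * ‖y‖, 2 * ‖y‖ - 1, by linarith, by linarith, by ring, by
    conv_rhs => rw [hv]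
    rw [smul_smul, ← add_smul]; congr 1; ring⟩

/-- The data of a merged pair. -/
structure Pair (Z : Finset ℂ) (ω : ℂ) (c s p : ℝ) : Prop where
  norm_one : ∀ z ∈ Z, ‖z‖ = 1
  dir : ‖ω‖ = 1
  cpos : 0 < c
  spos : 0 < s
  unit : c ^ 2 + s ^ 2 = 1
  ppos : 0 < p
  plt : 2 * p < c
  memA : ω * (c - s * Complex.I) ∈ Z
  memB : ω * (c + s * Complex.I) ∈ Z
  gap : ∀ z ∈ Z, rp ω z ≤ c

namespace Pair

variable {Z : Finset ℂ} {c s p : ℝ}

/-- The tree of a pair. -/
noncomputable def tree (Z : Finset ℂ) (ω : ℂ) (c s p : ℝ) : Set ℂ :=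
  mergeTree Z (ω * (p : ℂ)) (ω * (c - s * Complex.I)) (ω * (c + s * Complex.I))

lemma c_lt (P : Pair Z ω c s p) : c < 1 := by nlinarith [P.unit, P.spos, P.cpos]

lemma omega_ne (P : Pair Z ω c s p) : ω ≠ 0 := fun h => by simpa [h] using P.dir

lemma ends (P : Pair Z ω c s p) :
    rp ω (ω * (c - s * Complex.I)) = c ∧ ip ω (ω * (c - s * Complex.I)) = -s ∧
    rp ω (ω * (c + s * Complex.I)) = c ∧ ip ω (ω * (c + s * Complex.I)) = s := by
  simp [rp, ip, mul_div_cancel_left₀ _ P.omega_ne]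

lemma ne (P : Pair Z ω c s p) : ω * (c - s * Complex.I) ≠ ω * (c + s * Complex.I) := fun h => by
  obtain ⟨-, h1, -, h2⟩ := P.ends
  rw [h] at h1
  linarith [P.spos]

lemma card_rest (P : Pair Z ω c s p) :
    ((Z.erase (ω * (c - s * Complex.I))).erase (ω * (c + s * Complex.I))).card + 2 = Z.card := by
  rw [Finset.card_erase_of_mem (Finset.mem_erase.2 ⟨P.ne.symm, P.memB⟩),
    Finset.card_erase_of_mem P.memA]
  have : 1 < Z.card := Finset.one_lt_card.2 ⟨_, P.memA, _, P.memB, P.ne⟩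
  omega

lemma eq_of_wedge_line (P : Pair Z ω c s p) {y : ℂ} (h : c * |ip ω y| = s * rp ω y) :
    rp ω y = c * ‖y‖ ∧ |ip ω y| = s * ‖y‖ := by
  have hR0 : 0 ≤ rp ω y := by nlinarith [abs_nonneg (ip ω y), P.cpos, P.spos]
  have h1 : rp ω y ^ 2 = (c * ‖y‖) ^ 2 := by
    rw [mul_pow, norm_sq_coord P.dir y, ← sq_abs (ip ω y)]
    linear_combination (-(c * |ip ω y|) - s * rp ω y) * h - rp ω y ^ 2 * P.unit
  have h2 := (pow_left_inj₀ hR0 (mul_nonneg P.cpos.le (norm_nonneg y)) two_ne_zero).1 h1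
  exact ⟨h2, mul_left_cancel₀ P.cpos.ne' (by rw [h, h2]; ring)⟩

lemma line_mem (P : Pair Z ω c s p) {y : ℂ} (h1 : c * |ip ω y| = s * rp ω y) (h2 : 1 / 2 ≤ ‖y‖)
    (h3 : ‖y‖ ≤ 1) : y ∈ tree Z ω c s p := by
  obtain ⟨hR, hJ⟩ := P.eq_of_wedge_line h1
  rcases le_total 0 (ip ω y) with h0 | h0
  · rw [abs_of_nonneg h0] at hJ
    refine Or.inl (Or.inr (mem_outer_segment h2 h3 ?_))
    conv_lhs => rw [eq_coord P.dir y, hR, hJ]
    simp only [Complex.real_smul, Complex.ofReal_mul]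
    ring
  · rw [abs_of_nonpos h0] at hJ
    refine Or.inl (Or.inl (Or.inr (mem_outer_segment h2 h3 ?_)))
    conv_lhs => rw [eq_coord P.dir y, hR, show ip ω y = -(s * ‖y‖) by linarith]
    simp only [Complex.real_smul, Complex.ofReal_mul, Complex.ofReal_neg]
    ring

lemma seg_mem (P : Pair Z ω c s p) {y : ℂ} (h1 : (c - 2 * p) * |ip ω y| = s * (rp ω y - p))
    (h2 : c * |ip ω y| < s * rp ω y) : y ∈ tree Z ω c s p := by
  have hd : 0 < c - 2 * p := by linarith [P.plt]
  have hRp : p ≤ rp ω y := by nlinarith [abs_nonneg (ip ω y), P.spos]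
  have hRlt : rp ω y < c / 2 := by
    have h3 := mul_lt_mul_of_pos_left h2 hd
    have h4 : c * ((c - 2 * p) * |ip ω y|) = c * (s * (rp ω y - p)) := by rw [h1]
    nlinarith [mul_pos P.ppos P.spos]
  set t := (rp ω y - p) / (c / 2 - p) with ht
  have hd2 : 0 < c / 2 - p := by linarith
  have ht0 : 0 ≤ t := div_nonneg (by linarith) hd2.le
  have ht1 : t ≤ 1 := (div_le_one hd2).2 (by linarith)
  have hte : t * (c / 2 - p) = rp ω y - p := div_mul_cancel₀ _ hd2.ne'
  have hR : rp ω y = (1 - t) * p + t * (c / 2) := by linear_combination -hte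
  have hJ : |ip ω y| = t * (s / 2) :=
    mul_left_cancel₀ hd.ne' (by rw [h1]; linear_combination -s * hte)
  rcases le_total 0 (ip ω y) with h0 | h0
  · rw [abs_of_nonneg h0] at hJ
    refine Or.inl (Or.inl (Or.inl (Or.inr ⟨1 - t, t, by linarith, ht0, by ring, ?_⟩)))
    conv_rhs => rw [eq_coord P.dir y, hR, hJ]
    simp only [Complex.real_smul]
    push_cast
    ring
  · rw [abs_of_nonpos h0] at hJ
    refine Or.inl (Or.inl (Or.inl (Or.inl (Or.inr ⟨1 - t, t, by linarith, ht0, by ring, ?_⟩))))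
    conv_rhs => rw [eq_coord P.dir y, hR, show ip ω y = -(t * (s / 2)) by linarith]
    simp only [Complex.real_smul]
    push_cast
    ring

lemma stem_mem (P : Pair Z ω c s p) (h : Z.card ≠ 2) {y : ℂ} (hJ : ip ω y = 0)
    (h0 : 0 ≤ rp ω y) (h1 : rp ω y ≤ p) : y ∈ tree Z ω c s p := by
  refine Or.inl (Or.inl (Or.inl (Or.inl (Or.inl ?_))))
  rw [if_neg h]
  have hp := P.ppos
  refine ⟨1 - rp ω y / p, rp ω y / p, sub_nonneg.2 ((div_le_one hp).2 h1), by positivity, by ring,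
    ?_⟩
  conv_rhs => rw [eq_coord P.dir y, hJ]
  rw [smul_zero, zero_add, Complex.real_smul, Complex.ofReal_zero, zero_mul, add_zero,
    Complex.ofReal_div]
  field_simp [Complex.ofReal_ne_zero.2 hp.ne']

lemma radii (P : Pair Z ω c s p) {z : ℂ} (hz : z ∈ Z) {t : ℝ} (ht : t ∈ Icc (1 / 2 : ℝ) 1) :
    t • z ∈ tree Z ω c s p := by
  have hn : ‖t • z‖ = t := by
    rw [norm_smul, P.norm_one z hz, mul_one, Real.norm_of_nonneg (by linarith [ht.1])]
  have hmem : t • z ∈ segment ℝ ((1 / 2 : ℝ) • z) z :=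
    mem_outer_segment (by rw [hn]; exact ht.1) (by rw [hn]; exact ht.2) (by rw [hn])
  by_cases h1 : z = ω * (c - s * Complex.I)
  · exact Or.inl (Or.inl (Or.inr (h1 ▸ hmem)))
  by_cases h2 : z = ω * (c + s * Complex.I)
  · exact Or.inl (Or.inr (h2 ▸ hmem))
  exact Or.inr (mem_iUnion₂.2 ⟨z, by simp [h1, h2, hz],
    smul_mem_segment_zero (by linarith [ht.1]) ht.2⟩)

lemma proj_mem (P : Pair Z ω c s p) {y : ℂ} (hy : y ∈ ball (0 : ℂ) 1 \ tree Z ω c s p)
    (hz : proj y ∈ Z) : ‖y‖ < 1 / 2 ∧ c * |ip ω y| = s * rp ω y := by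
  have hn : ‖y‖ < 1 / 2 := by
    by_contra hge
    refine hy.2 ?_
    rw [← norm_smul_proj y]
    exact P.radii hz ⟨not_lt.1 hge, (mem_ball_zero_iff.1 hy.1).le⟩
  refine ⟨hn, ?_⟩
  obtain ⟨a1, a2, b1, b2⟩ := P.ends
  have hy' : y = ‖y‖ • proj y := (norm_smul_proj y).symm
  have hsm := fun v : ℂ => coord_smul (ω := ω) ‖y‖ v
  by_cases h1 : proj y = ω * (c - s * Complex.I)
  · rw [h1] at hy'
    rw [hy', (hsm _).1, (hsm _).2, a1, a2, abs_mul, abs_norm, abs_neg, abs_of_pos P.spos]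
    ring
  by_cases h2 : proj y = ω * (c + s * Complex.I)
  · rw [h2] at hy'
    rw [hy', (hsm _).1, (hsm _).2, b1, b2, abs_mul, abs_norm, abs_of_pos P.spos]
    ring
  exact absurd (Or.inr (mem_iUnion₂.2 ⟨proj y, by simp [h1, h2, hz],
    mem_segment_zero_of_proj (mem_ball_zero_iff.1 hy.1).le rfl⟩)) hy.2

lemma in_cone (P : Pair Z ω c s p) {y : ℂ} (hn : 1 / 2 < ‖y‖)
    (h : c * |ip ω y| < s * rp ω y) : (c - 2 * p) * |ip ω y| < s * (rp ω y - p) := by
  rcases le_or_gt (s / 2) |ip ω y| with h' | h'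
  · nlinarith [P.ppos]
  · have hR0 : 0 < rp ω y := by nlinarith [abs_nonneg (ip ω y), P.cpos, P.spos]
    have hR2 : c / 2 < rp ω y := by
      nlinarith [norm_sq_coord P.dir y, sq_abs (ip ω y), abs_nonneg (ip ω y), P.unit, P.cpos]
    have h3 : c - 2 * p ≥ 0 := by linarith [P.plt]
    nlinarith [mul_le_mul_of_nonneg_left h'.le h3, mul_pos P.spos (show 0 < rp ω y - c / 2 by linarith)]

lemma proj_lt (P : Pair Z ω c s p) {y : ℂ} (hy : y ≠ 0)
    (h : s * rp ω y < c * |ip ω y|) : rp ω (proj y) < c := by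
  rw [(coord_proj y).1, inv_mul_eq_div, div_lt_iff₀ (norm_pos_iff.2 hy)]
  by_contra hge
  push Not at hge
  have hR' : 0 ≤ rp ω y := le_trans (mul_nonneg P.cpos.le (norm_nonneg y)) hge
  have h1 := mul_self_lt_mul_self (mul_nonneg P.spos.le hR') h
  have h2 := mul_self_le_mul_self (mul_nonneg P.cpos.le (norm_nonneg y)) hge
  have h3 : (c * ‖y‖) * (c * ‖y‖) = c ^ 2 * (rp ω y ^ 2 + |ip ω y| ^ 2) := by
    rw [sq_abs, ← norm_sq_coord P.dir y]; ring
  have h4 : s ^ 2 * rp ω y ^ 2 = rp ω y ^ 2 - c ^ 2 * rp ω y ^ 2 := by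
    linear_combination rp ω y ^ 2 * P.unit
  nlinarith

lemma proj_gt (P : Pair Z ω c s p) {y : ℂ} (hy : y ≠ 0)
    (h : c * |ip ω y| < s * rp ω y) : c < rp ω (proj y) := by
  rw [(coord_proj y).1, inv_mul_eq_div, lt_div_iff₀ (norm_pos_iff.2 hy)]
  have hR : 0 < rp ω y := by nlinarith [abs_nonneg (ip ω y), P.cpos, P.spos]
  nlinarith [norm_sq_coord P.dir y, sq_abs (ip ω y), abs_nonneg (ip ω y), norm_nonneg y, P.unit,
    mul_nonneg P.cpos.le (abs_nonneg (ip ω y))]

lemma isCompact_tree : IsCompact (tree Z ω c s p) := by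
  have hst : IsCompact (if Z.card = 2 then ∅ else segment ℝ 0 (ω * (p : ℂ))) := by
    split_ifs
    · exact isCompact_empty
    · exact isCompact_segment' _ _
  exact (((((hst.union (isCompact_segment' _ _)).union (isCompact_segment' _ _)).union
    (isCompact_segment' _ _)).union (isCompact_segment' _ _))).union
    (Finset.isCompact_biUnion _ fun z _ => isCompact_segment' 0 z)

lemma tree_subset (P : Pair Z ω c s p) : tree Z ω c s p ⊆ closedBall 0 1 := by
  have hm1 : ‖ω * (p : ℂ)‖ ≤ 1 := by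
    simp [P.dir, abs_of_pos P.ppos]; linarith [P.plt, P.c_lt, P.ppos]
  have hhalf : ∀ z ∈ Z, ‖(1 / 2 : ℝ) • z‖ ≤ 1 := fun z hz => by
    rw [norm_smul, P.norm_one z hz]; norm_num
  refine union_subset (union_subset (union_subset (union_subset (union_subset ?_
    (segment_subset_ball hm1 (hhalf _ P.memA))) (segment_subset_ball hm1 (hhalf _ P.memB)))
    (segment_subset_ball (hhalf _ P.memA) (P.norm_one _ P.memA).le))
    (segment_subset_ball (hhalf _ P.memB) (P.norm_one _ P.memB).le)) ?_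
  · split_ifs
    · exact empty_subset _
    · exact segment_subset_ball (by simp) hm1
  · exact iUnion₂_subset fun z hz => segment_subset_ball (by simp)
      (P.norm_one z (Finset.mem_of_mem_erase (Finset.mem_of_mem_erase hz))).le

lemma tree_len (P : Pair Z ω c s p) :
    Measure.hausdorffMeasure 1 (tree Z ω c s p) ≤ ENNReal.ofReal ((Z.card : ℝ) -
      (if Z.card = 2 then 2 * p * c - 2 * p ^ 2 else 2 * p * c - 2 * p ^ 2 - p)) := by
  obtain ⟨a1, a2, b1, b2⟩ := P.ends
  have hp := P.ppos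
  have h0 : 0 ≤ 1 / 2 - p * c + p ^ 2 := by nlinarith [P.c_lt, P.plt]
  have hseg : ∀ z : ℂ, rp ω z = c → |ip ω z| = s →
      Measure.hausdorffMeasure 1 (segment ℝ (ω * (p : ℂ)) ((1 / 2 : ℝ) • z)) ≤
        ENNReal.ofReal (1 / 2 - p * c + p ^ 2) := by
    intro z h1 h2
    refine (hausdorff_segment_le _ _).trans (ENNReal.ofReal_le_ofReal ?_)
    refine (pow_le_pow_iff_left₀ (norm_nonneg _) h0 two_ne_zero).1 ?_
    have e1 : rp ω ((1 / 2 : ℝ) • z - ω * (p : ℂ)) = c / 2 - p := by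
      rw [← h1]
      have := (coord_smul (ω := ω) (1 / 2 : ℝ) z).1
      simp only [rp] at this ⊢
      rw [sub_div, Complex.sub_re, this, mul_div_cancel_left₀ _ P.omega_ne, Complex.ofReal_re]
      ring
    have e2 : |ip ω ((1 / 2 : ℝ) • z - ω * (p : ℂ))| = s / 2 := by
      rw [← h2]
      have := (coord_smul (ω := ω) (1 / 2 : ℝ) z).2
      simp only [ip] at this ⊢
      rw [sub_div, Complex.sub_im, this, mul_div_cancel_left₀ _ P.omega_ne, Complex.ofReal_im,
        sub_zero, abs_mul]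
      norm_num
      ring
    rw [norm_sq_coord P.dir, e1, ← sq_abs (ip ω _), e2]
    nlinarith [sq_nonneg (p * c - p ^ 2), P.unit]
  have hhalf : ∀ z ∈ Z, Measure.hausdorffMeasure 1 (segment ℝ ((1 / 2 : ℝ) • z) z) ≤
      ENNReal.ofReal (1 / 2) := fun z hz => by
    refine (hausdorff_segment_le _ _).trans (ENNReal.ofReal_le_ofReal (le_of_eq ?_))
    rw [show z - (1 / 2 : ℝ) • z = (1 / 2 : ℝ) • z by module, norm_smul, P.norm_one z hz]
    norm_num
  have hst : Measure.hausdorffMeasure 1 (if Z.card = 2 then ∅ else segment ℝ 0 (ω * (p : ℂ))) ≤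
      ENNReal.ofReal (if Z.card = 2 then 0 else p) := by
    split_ifs
    · simp
    · refine (hausdorff_segment_le _ _).trans (le_of_eq ?_)
      simp [P.dir, abs_of_pos hp]
  refine (measure_union_le _ _).trans ((add_le_add ((measure_union_le _ _).trans
    (add_le_add ((measure_union_le _ _).trans (add_le_add ((measure_union_le _ _).trans
      (add_le_add ((measure_union_le _ _).trans (add_le_add hst
        (hseg _ a1 (by rw [a2, abs_neg, abs_of_pos P.spos]))))
        (hseg _ b1 (by rw [b2, abs_of_pos P.spos])))) (hhalf _ P.memA))) (hhalf _ P.memB)))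
    (spokes_len _ fun z hz =>
      P.norm_one z (Finset.mem_of_mem_erase (Finset.mem_of_mem_erase hz)))).trans ?_)
  have hst0 : (0 : ℝ) ≤ if Z.card = 2 then 0 else p := by split_ifs <;> linarith
  rw [← ENNReal.ofReal_add hst0 h0, ← ENNReal.ofReal_add (by linarith) h0,
    ← ENNReal.ofReal_add (by linarith) (by norm_num),
    ← ENNReal.ofReal_add (by linarith) (by norm_num),
    ← ENNReal.ofReal_add (by linarith) (by positivity)]
  refine ENNReal.ofReal_le_ofReal ?_
  have hcR : ((((Z.erase (ω * (c - s * Complex.I))).erase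
      (ω * (c + s * Complex.I))).card : ℕ) : ℝ) + 2 = Z.card := by exact_mod_cast P.card_rest
  split_ifs <;> linarith

/-- The label of a merged pair. -/
noncomputable def label (Z : Finset ℂ) (ω : ℂ) (c s p : ℝ) (qu qd : ℂ) (y : ℂ) : Set ℂ :=
  if c * |ip ω y| < s * rp ω y ∧ (c - 2 * p) * |ip ω y| < s * (rp ω y - p) then arc Z (pt ω 0)
  else if c * |ip ω y| ≤ s * rp ω y then (if 0 ≤ ip ω y then arc Z qu else arc Z qd)
  else arc Z (proj y)

lemma label_outer (P : Pair Z ω c s p) {qu qd y : ℂ} (hy : y ∈ ball (0 : ℂ) 1 \ tree Z ω c s p)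
    (hn : 1 / 2 < ‖y‖) : label Z ω c s p qu qd y = arc Z (proj y) := by
  have hy0 : y ≠ 0 := fun h => by norm_num [h] at hn
  rcases lt_trichotomy (c * |ip ω y|) (s * rp ω y) with h | h | h
  · rw [label, if_pos ⟨h, P.in_cone hn h⟩]
    exact (arc_mid P.dir P.cpos P.gap (mem_sphere_zero_iff_norm.1 (proj_mem_sphere hy0))
      (P.proj_gt hy0 h)).symm
  · exact absurd (P.line_mem h hn.le (mem_ball_zero_iff.1 hy.1).le) hy.2
  · rw [label, if_neg fun hS => lt_asymm h hS.1, if_neg (not_le.2 h)]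

/-- Off the small sector but in the closed wedge the segments are strictly below. -/
lemma strict (P : Pair Z ω c s p) {y : ℂ} (hy : y ∈ ball (0 : ℂ) 1 \ tree Z ω c s p)
    (hn : ‖y‖ ≤ 1 / 2) (hW : c * |ip ω y| ≤ s * rp ω y)
    (hS : ¬ (c * |ip ω y| < s * rp ω y ∧ (c - 2 * p) * |ip ω y| < s * (rp ω y - p))) :
    s * (rp ω y - p) < (c - 2 * p) * |ip ω y| := by
  rcases hW.lt_or_eq with h' | h'
  · exact lt_of_le_of_ne (not_lt.1 fun h => hS ⟨h', h⟩) fun h => hy.2 (P.seg_mem h.symm h')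
  · obtain ⟨e1, e2⟩ := P.eq_of_wedge_line h'
    have hn' : ‖y‖ < 1 / 2 := lt_of_le_of_ne hn fun h => hy.2
      (P.line_mem h' h.ge (mem_ball_zero_iff.1 hy.1).le)
    rw [e1, e2]
    nlinarith [mul_pos P.ppos P.spos, mul_lt_mul_of_pos_left hn' (mul_pos P.ppos P.spos)]

lemma label_locallyConst (P : Pair Z ω c s p) {ε : ℝ} (hε : 0 < ε) {qu qd : ℂ}
    (hqd : ‖qd‖ = 1 ∧ rp ω qd < c) (hqu : ‖qu‖ = 1 ∧ rp ω qu < c)
    (hside : ∀ u, ‖u‖ = 1 → c - ε < rp ω u → rp ω u < c →
      arc Z u = if 0 ≤ ip ω u then arc Z qu else arc Z qd)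
    {y : ℂ} (hy : y ∈ ball (0 : ℂ) 1 \ tree Z ω c s p) :
    ∀ᶠ y' in 𝓝 y, label Z ω c s p qu qd y' = label Z ω c s p qu qd y := by
  have hcJ : Continuous fun z => |ip ω z| := (continuous_ip ω).abs
  have hR := continuous_rp ω
  by_cases hS : c * |ip ω y| < s * rp ω y ∧ (c - 2 * p) * |ip ω y| < s * (rp ω y - p)
  · filter_upwards [((isOpen_lt (continuous_const.mul hcJ) (continuous_const.mul hR)).inter
      (isOpen_lt (continuous_const.mul hcJ)
        (continuous_const.mul (hR.sub continuous_const)))).mem_nhds hS] with y' hy'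
    have h' : c * |ip ω y'| < s * rp ω y' ∧ (c - 2 * p) * |ip ω y'| < s * (rp ω y' - p) := hy'
    rw [label, label, if_pos hS, if_pos h']
  by_cases hn : 1 / 2 < ‖y‖
  · have hy0 : y ≠ 0 := fun h => by norm_num [h] at hn
    have hpz : proj y ∉ Z := fun h => by linarith [(P.proj_mem hy h).1]
    filter_upwards [arc_proj_eventually hy0 hpz,
      (isOpen_lt continuous_const continuous_norm).mem_nhds hn,
      (isOpen_ball.sdiff isCompact_tree.isClosed).mem_nhds hy] with y' h1 h2 h3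
    rw [P.label_outer h3 h2, h1, P.label_outer hy hn]
  push Not at hn
  rcases lt_or_ge (s * rp ω y) (c * |ip ω y|) with hW | hW
  · have hy0 : y ≠ 0 := fun h => by simp [h, rp, ip] at hW
    have hpz : proj y ∉ Z := fun h => by linarith [(P.proj_mem hy h).2]
    filter_upwards [arc_proj_eventually hy0 hpz,
      (isOpen_lt (continuous_const.mul hR) (continuous_const.mul hcJ)).mem_nhds hW]
      with y' h1 h2
    have h2' : s * rp ω y' < c * |ip ω y'| := h2
    rw [label, label, if_neg hS, if_neg fun h => lt_asymm h2' h.1, if_neg (not_le.2 hW),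
      if_neg (not_le.2 h2'), h1]
  have hstrict := P.strict hy hn hW hS
  have hnb : ∀ᶠ y' in 𝓝 y,
      ¬ (c * |ip ω y'| < s * rp ω y' ∧ (c - 2 * p) * |ip ω y'| < s * (rp ω y' - p)) := by
    filter_upwards [(isOpen_lt (continuous_const.mul (hR.sub continuous_const))
      (continuous_const.mul hcJ)).mem_nhds hstrict] with y' h h'
    exact lt_asymm (show s * (rp ω y' - p) < (c - 2 * p) * |ip ω y'| from h) h'.2
  have hval : label Z ω c s p qu qd y = if 0 ≤ ip ω y then arc Z qu else arc Z qd := by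
    rw [label, if_neg hS, if_pos hW]
  have hRy : 0 ≤ rp ω y := by nlinarith [abs_nonneg (ip ω y), P.cpos, P.spos]
  by_cases hJ0 : ip ω y = 0
  · by_cases h2 : Z.card = 2
    · obtain ⟨a1, -, b1, -⟩ := P.ends
      have hall : ∀ z ∈ Z, rp ω z = c := fun z hz => by
        have h0 := P.card_rest
        rw [h2] at h0
        by_contra hne
        have hz' : z ∈ (Z.erase (ω * (c - s * Complex.I))).erase (ω * (c + s * Complex.I)) := by
          simp only [Finset.mem_erase]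
          exact ⟨fun e => hne (e ▸ b1), fun e => hne (e ▸ a1), hz⟩
        have := Finset.card_pos.2 ⟨z, hz'⟩
        omega
      filter_upwards [hnb] with y' hy'
      rw [hval, if_pos (le_of_eq hJ0.symm), label, if_neg hy']
      split_ifs with h1 h3
      · rfl
      · exact arc_outside P.dir P.cpos P.c_lt hall hqd.1 hqu.1 hqd.2 hqu.2
      · have hy'0 : y' ≠ 0 := fun h => h1 (by simp [h, rp, ip])
        exact arc_outside P.dir P.cpos P.c_lt hall
          (mem_sphere_zero_iff_norm.1 (proj_mem_sphere hy'0)) hqu.1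
          (P.proj_lt hy'0 (not_le.1 h1)) hqu.2
    · refine absurd (P.stem_mem h2 hJ0 hRy ?_) hy.2
      rw [hJ0, abs_zero, mul_zero] at hstrict
      nlinarith [P.spos]
  have hy0 : y ≠ 0 := fun h => hJ0 (by simp [h, ip])
  have hband : ∀ᶠ y' in 𝓝 y, ¬ c * |ip ω y'| ≤ s * rp ω y' →
      c - ε < rp ω (proj y') ∧ rp ω (proj y') < c ∧ y' ≠ 0 := by
    rcases hW.lt_or_eq with h' | h'
    · filter_upwards [(isOpen_lt (continuous_const.mul hcJ)
        (continuous_const.mul hR)).mem_nhds h'] with y' h1 h2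
      exact absurd (le_of_lt h1) h2
    · have hRp : rp ω (proj y) = c := by
        rw [(coord_proj y).1, (P.eq_of_wedge_line h').1, mul_left_comm,
          inv_mul_cancel₀ (norm_ne_zero_iff.2 hy0), mul_one]
      have hc2 := (hR.continuousAt.comp (continuousAt_proj hy0))
        ((isOpen_Ioi (a := c - ε)).mem_nhds
          (show c - ε < rp ω (proj y) by linarith))
      filter_upwards [hc2, eventually_ne_nhds hy0] with y' h1 h0 h2
      exact ⟨h1, P.proj_lt h0 (not_le.1 h2), h0⟩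
  have hsgn : ∀ᶠ y' in 𝓝 y, (0 ≤ ip ω y' ↔ 0 ≤ ip ω y) := by
    rcases lt_or_gt_of_ne hJ0 with h | h
    · filter_upwards [(isOpen_lt (continuous_ip ω) continuous_const).mem_nhds h] with y' h'
      exact ⟨fun a => absurd a (not_le.2 h'), fun a => absurd a (not_le.2 h)⟩
    · filter_upwards [(isOpen_lt continuous_const (continuous_ip ω)).mem_nhds h] with y' h'
      exact ⟨fun _ => h.le, fun _ => le_of_lt h'⟩
  filter_upwards [hnb, hband, hsgn] with y' hy' hb' hs'
  rw [hval, label, if_neg hy']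
  by_cases h1 : c * |ip ω y'| ≤ s * rp ω y'
  · rw [if_pos h1]; simp only [hs']
  obtain ⟨d1, d2, d3⟩ := hb' h1
  rw [if_neg h1, hside _ (mem_sphere_zero_iff_norm.1 (proj_mem_sphere d3)) d1 d2]
  have : 0 ≤ ip ω (proj y') ↔ 0 ≤ ip ω y := by
    rw [← hs', (coord_proj y').2]
    exact mul_nonneg_iff_of_pos_left (inv_pos.2 (norm_pos_iff.2 d3))
  simp only [this]

/-- The plan of a merged pair. -/
theorem plan (P : Pair Z ω c s p) :
    ∃ T ℓ, Plan Z T ℓ ((Z.card : ℝ) -
      (if Z.card = 2 then 2 * p * c - 2 * p ^ 2 else 2 * p * c - 2 * p ^ 2 - p)) := by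
  obtain ⟨ε, hε, qu, hqu, qd, hqd, hd', hu', hside⟩ := exists_sides P.dir Z P.cpos P.c_lt
  refine ⟨tree Z ω c s p, label Z ω c s p qu qd, isCompact_tree, P.tree_subset,
    fun z hz t ht => P.radii hz ht, fun y hy => ?_, fun y hy => P.label_locallyConst hε
      ⟨mem_sphere_zero_iff_norm.1 hqd.1, hd'⟩ ⟨mem_sphere_zero_iff_norm.1 hqu.1, hu'⟩ hside hy,
    fun y hy hn => P.label_outer hy hn, P.tree_len⟩
  unfold label
  split_ifs with h1 h2 h3
  · refine ⟨pt ω 0, ⟨by simp [norm_pt P.dir], fun h => ?_⟩, rfl⟩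
    have := P.gap _ h
    rw [(coord_pt P.dir 0).1, Real.cos_zero] at this
    linarith [P.c_lt]
  · exact ⟨_, hqu, rfl⟩
  · exact ⟨_, hqd, rfl⟩
  · have hy0 : y ≠ 0 := fun h => h2 (by simp [h, rp, ip])
    exact ⟨proj y, ⟨proj_mem_sphere hy0, fun h => h2 (le_of_eq (P.proj_mem hy h).2)⟩, rfl⟩

end Pair

end Merge

/-- The largest inner product of two of the points is bounded below. -/
lemma dot_lower (Z : Finset ℂ) (hZ : ∀ z ∈ Z, ‖z‖ = 1) {δ : ℝ} (hδ : 0 < δ) (hδ1 : δ ≤ 1)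
    (hoff : Z.card ≤ 3 → δ ≤ ‖∑ z ∈ Z, z‖) (d : ℝ)
    (hle : ∀ x ∈ Z, ∀ y ∈ Z, x ≠ y → x.re * y.re + x.im * y.im ≤ d) :
    (Z.card = 2 → δ ^ 2 ≤ 2 + 2 * d) ∧ (3 ≤ Z.card → -1 / 2 + δ ^ 2 / 6 ≤ d) := by
  classical
  have hsq : ∀ z ∈ Z, z.re * z.re + z.im * z.im = 1 := fun z hz => by
    rw [← Complex.normSq_apply, ← Complex.sq_norm, hZ z hz, one_pow]
  constructor
  · intro h
    obtain ⟨x, y, hxy, rfl⟩ := Finset.card_eq_two.1 h
    have h1 := pow_le_pow_left₀ hδ.le (hoff (by omega)) 2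
    rw [Finset.sum_pair hxy, Complex.sq_norm, Complex.normSq_apply, Complex.add_re,
      Complex.add_im] at h1
    have := hle x (by simp) y (by simp) hxy
    nlinarith [hsq x (by simp), hsq y (by simp)]
  · intro h3
    rcases h3.eq_or_lt with h | h4
    · obtain ⟨x, y, z, hxy, hxz, hyz, rfl⟩ := Finset.card_eq_three.1 h.symm
      have h1 := pow_le_pow_left₀ hδ.le (hoff (by omega)) 2
      rw [Finset.sum_insert (by simp [hxy, hxz]), Finset.sum_pair hyz, Complex.sq_norm,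
        Complex.normSq_apply, Complex.add_re, Complex.add_im, Complex.add_re,
        Complex.add_im] at h1
      nlinarith [hle x (by simp) y (by simp) hxy, hle x (by simp) z (by simp) hxz,
        hle y (by simp) z (by simp) hyz, hsq x (by simp), hsq y (by simp), hsq z (by simp)]
    · suffices h : 0 ≤ d by nlinarith
      by_contra hneg
      push Not at hneg
      obtain ⟨U, hUZ, hU⟩ := Finset.exists_subset_card_eq (show 4 ≤ Z.card from h4)
      have hdot : ∀ x ∈ U, ∀ y ∈ U, x ≠ y → x.re * y.re + x.im * y.im < 0 :=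
        fun x hx y hy hxy => (hle x (hUZ hx) y (hUZ hy) hxy).trans_lt hneg
      obtain ⟨x, hx⟩ := Finset.card_pos.1 (show 0 < U.card by omega)
      -- turn `x` to `1`: the others have negative real part, and two of them lie on one side
      set f : ℂ → ℝ := fun y => x.re * y.im - x.im * y.re with hf
      have h3 : 2 < (U.erase x).card := by rw [Finset.card_erase_of_mem hx]; omega
      obtain ⟨u, hu, v, hv, huv, hs⟩ :
          ∃ u ∈ U.erase x, ∃ v ∈ U.erase x, u ≠ v ∧ 0 ≤ f u * f v := by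
        obtain ⟨p, q, w, hp, hq, hw, hpq, hpw, hqw⟩ := Finset.two_lt_card_iff.1 h3
        by_contra hcon
        push Not at hcon
        have a1 := hcon p hp q hq hpq
        have a2 := hcon p hp w hw hpw
        have a3 := hcon q hq w hw hqw
        nlinarith [mul_pos_of_neg_of_neg a1 a2, mul_nonneg (mul_self_nonneg (f p))
          (mul_self_nonneg (f q)), sq_nonneg (f p)]
      rw [Finset.mem_erase] at hu hv
      have e1 := hdot x hx u hu.2 hu.1.symm
      have e2 := hdot x hx v hv.2 hv.1.symm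
      have e3 := hdot u hu.2 v hv.2 huv
      have hx1 := hsq x (hUZ hx)
      have key : u.re * v.re + u.im * v.im =
          (x.re * u.re + x.im * u.im) * (x.re * v.re + x.im * v.im) + f u * f v := by
        simp only [hf]
        linear_combination -(u.re * v.re + u.im * v.im) * hx1
      nlinarith [mul_pos_of_neg_of_neg e1 e2]

/-- Some two of `Z` are at most as far as in the balanced case, and give a shorter tree. -/
theorem exists_short (Z : Finset ℂ) (hZ : ∀ z ∈ Z, ‖z‖ = 1) (h2 : 2 ≤ Z.card) {δ : ℝ}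
    (hδ : 0 < δ) (hδ1 : δ ≤ 1)
    (hoff : Z.card ≤ 3 → δ ≤ ‖∑ z ∈ Z, z‖) :
    ∃ T ℓ, Plan Z T ℓ ((Z.card : ℝ) - δ ^ 4 / 4000) := by
  classical
  obtain ⟨⟨a, b⟩, hab, hmax⟩ := Z.offDiag.exists_max_image
    (fun q => q.1.re * q.2.re + q.1.im * q.2.im)
    (by obtain ⟨x, hx, y, hy, hxy⟩ := Finset.one_lt_card.1 h2
        exact ⟨(x, y), Finset.mem_offDiag.2 ⟨hx, hy, hxy⟩⟩)
  rw [Finset.mem_offDiag] at hab
  obtain ⟨ha, hb, hne⟩ := hab
  set d := a.re * b.re + a.im * b.im with hd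
  have hle : ∀ x ∈ Z, ∀ y ∈ Z, x ≠ y → x.re * y.re + x.im * y.im ≤ d := fun x hx y hy hxy =>
    hmax (x, y) (Finset.mem_offDiag.2 ⟨hx, hy, hxy⟩)
  have hsq : ∀ z ∈ Z, z.re * z.re + z.im * z.im = 1 := fun z hz => by
    rw [← Complex.normSq_apply, ← Complex.sq_norm, hZ z hz, one_pow]
  have hd1 : d < 1 := by
    by_contra h
    push Not at h
    have e1 : a.re = b.re := by nlinarith [hsq a ha, hsq b hb, sq_nonneg (a.im - b.im)]
    have e2 : a.im = b.im := by nlinarith [hsq a ha, hsq b hb, sq_nonneg (a.re - b.re)]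
    exact hne (Complex.ext e1 e2)
  have hlow := dot_lower Z hZ hδ hδ1 hoff d hle
  -- the bisector
  have hcard3 : Z.card = 2 ∨ 3 ≤ Z.card := by omega
  have hd0 : -1 < d := by
    rcases hcard3 with h | h
    · nlinarith [hlow.1 h]
    · nlinarith [hlow.2 h]
  set c := Real.sqrt ((1 + d) / 2) with hcdef
  set s := Real.sqrt ((1 - d) / 2) with hsdef
  have hc : 0 < c := Real.sqrt_pos.2 (by linarith)
  have hs : 0 < s := Real.sqrt_pos.2 (by linarith)
  have hc2 : c ^ 2 = (1 + d) / 2 := Real.sq_sqrt (by linarith)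
  have hs2 : s ^ 2 = (1 - d) / 2 := Real.sq_sqrt (by linarith)
  obtain ⟨a', b', ha', hb', hor, hd'⟩ : ∃ a' b', a' ∈ Z ∧ b' ∈ Z ∧
      0 ≤ a'.re * b'.im - a'.im * b'.re ∧ a'.re * b'.re + a'.im * b'.im = d := by
    rcases le_total 0 (a.re * b.im - a.im * b.re) with h | h
    · exact ⟨a, b, ha, hb, h, rfl⟩
    · exact ⟨b, a, hb, ha, by linarith, by rw [hd]; ring⟩
  have hcross : a'.re * b'.im - a'.im * b'.re = 2 * c * s := by
    refine (pow_left_inj₀ hor (by positivity) two_ne_zero).1 ?_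
    rw [mul_pow, mul_pow, hc2, hs2]
    nlinarith [hsq a' ha', hsq b' hb', hd']
  set ω : ℂ := (1 / (2 * c)) • (a' + b') with hωdef
  have hωsq : Complex.normSq ω = 1 := by
    simp only [hωdef, Complex.normSq_apply, Complex.smul_re, Complex.smul_im, Complex.add_re,
      Complex.add_im, smul_eq_mul]
    field_simp
    nlinarith [hsq a' ha', hsq b' hb', hd', hc2]
  have hω : ‖ω‖ = 1 := by rw [Complex.norm_def, hωsq, Real.sqrt_one]
  have hA : ω * (c - s * Complex.I) = a' ∧ ω * (c + s * Complex.I) = b' := by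
    have a1 := hsq a' ha'
    have a2 := hsq b' hb'
    have E1 : (b'.re - a'.re) * c + (a'.im + b'.im) * s = 0 := by
      refine mul_left_cancel₀ hc.ne' ?_
      rw [mul_zero]
      linear_combination (b'.re - a'.re) * hc2 - (a'.im + b'.im) / 2 * hcross +
        a'.re / 2 * a2 - b'.re / 2 * a1 - (b'.re - a'.re) / 2 * hd'
    have E2 : (b'.im - a'.im) * c - (a'.re + b'.re) * s = 0 := by
      refine mul_left_cancel₀ hc.ne' ?_
      rw [mul_zero]
      linear_combination (b'.im - a'.im) * hc2 + (a'.re + b'.re) / 2 * hcross +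
        a'.im / 2 * a2 - b'.im / 2 * a1 - (b'.im - a'.im) / 2 * hd'
    constructor <;> apply Complex.ext <;>
      simp [hωdef] <;> field_simp
    all_goals
      first
        | linear_combination E1
        | linear_combination -E1
        | linear_combination E2
        | linear_combination -E2
  have hgap : ∀ z ∈ Z, (z / ω).re ≤ c := by
    intro z hz
    by_contra hgt
    push Not at hgt
    have hωne : ω ≠ 0 := fun h => by simp [h] at hωsq
    set w := z / ω with hw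
    have hzw : z = ω * w := by rw [hw, mul_div_cancel₀ _ hωne]
    have hw1 : w.re * w.re + w.im * w.im = 1 := by
      have := hsq z hz
      rw [← Complex.normSq_apply, hzw, Complex.normSq_mul, hωsq, one_mul] at this
      rwa [Complex.normSq_apply] at this
    have hwa : ∀ t : ℝ, z.re * (ω * (c + t * Complex.I)).re +
        z.im * (ω * (c + t * Complex.I)).im = c * w.re + t * w.im := fun t => by
      have e : ω.re * ω.re + ω.im * ω.im = 1 := by rwa [Complex.normSq_apply] at hωsq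
      rw [hzw]
      simp
      linear_combination (c * w.re + t * w.im) * e
    have hza : z ≠ a' := fun h => by
      have : w = (c - s * Complex.I) := by rw [hw, h, ← hA.1, mul_div_cancel_left₀ _ hωne]
      rw [this] at hgt; simp at hgt
    have hzb : z ≠ b' := fun h => by
      have : w = (c + s * Complex.I) := by rw [hw, h, ← hA.2, mul_div_cancel_left₀ _ hωne]
      rw [this] at hgt; simp at hgt
    have e1 := hle z hz a' ha' hza
    have e2 := hle z hz b' hb' hzb
    rw [← hA.2, hwa s] at e2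
    have e3 := hwa (-s)
    rw [Complex.ofReal_neg, neg_mul, ← sub_eq_add_neg, hA.1] at e3
    rw [e3] at e1
    nlinarith [mul_pos hs hs]
  have hkey := fun p (h1 : 0 < p) (h2 : 2 * p < c) =>
    Pair.plan (Z := Z) ⟨hZ, hω, hc, hs, by linarith [hc2, hs2], h1, h2, hA.1 ▸ ha', hA.2 ▸ hb',
      hgap⟩
  rcases hcard3 with h | h
  · obtain ⟨T, ℓ, hP⟩ := hkey (c / 4) (by linarith) (by linarith)
    refine ⟨T, ℓ, hP.isCompact, hP.subset, hP.radii, hP.isArc, hP.locallyConst, hP.outer,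
      hP.len_le.trans (ENNReal.ofReal_le_ofReal ?_)⟩
    rw [if_pos h]
    have h4 : δ ^ 2 / 4 ≤ c ^ 2 := by nlinarith [hlow.1 h]
    nlinarith [pow_le_pow_of_le_one hδ.le hδ1 (show 2 ≤ 4 by norm_num)]
  · have h4 : 1 / 4 + δ ^ 2 / 12 ≤ c ^ 2 := by nlinarith [hlow.2 h]
    have hδ2 : δ ^ 2 ≤ 1 := pow_le_one₀ hδ.le hδ1
    have hδ4 : δ ^ 2 * δ ^ 2 ≤ δ ^ 2 := mul_le_of_le_one_left (sq_nonneg δ) hδ2
    have hhalf : 1 / 2 + δ ^ 2 / 24 ≤ c := by
      refine (pow_le_pow_iff_left₀ (by positivity) hc.le two_ne_zero).1 ?_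
      have : (1 / 2 + δ ^ 2 / 24) ^ 2 = 1 / 4 + δ ^ 2 / 24 + δ ^ 2 * δ ^ 2 / 576 := by ring
      linarith [sq_nonneg δ]
    have hδ0 : 0 < δ ^ 2 := pow_pos hδ 2
    obtain ⟨T, ℓ, hP⟩ := hkey ((2 * c - 1) / 8) (by linarith) (by linarith)
    refine ⟨T, ℓ, hP.isCompact, hP.subset, hP.radii, hP.isArc, hP.locallyConst, hP.outer,
      hP.len_le.trans (ENNReal.ofReal_le_ofReal ?_)⟩
    rw [if_neg (by omega)]
    have e : δ ^ 2 / 12 ≤ 2 * c - 1 := by linarith
    have e2 := mul_le_mul e e (by positivity) (by linarith)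
    have e3 : 2 * ((2 * c - 1) / 8) * c - 2 * ((2 * c - 1) / 8) ^ 2 - (2 * c - 1) / 8 =
        3 / 32 * ((2 * c - 1) * (2 * c - 1)) := by ring
    have e4 : δ ^ 2 / 12 * (δ ^ 2 / 12) = δ ^ 4 / 144 := by ring
    have : (0 : ℝ) ≤ δ ^ 4 := by positivity
    linarith

end Vale.Agent.P128.Bonnet.Tree
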