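import Vale.Agent.P128.Bonnet.Competitor.Blend
import Vale.Agent.P128.Bonnet.Competitor.TreeGeom
import Vale.Agent.P128.Connected.Cover

/-!
# Trees as competitors

The singular set in a disk is replaced by a tree with small caps on the circle.  Off the tree a
locally constant label says which arc a point belongs to; the function interpolates radially
between the boundary values on that arc and one of them.
-/

namespace Vale.Agent.P128.Bonnet.Tree

open MeasureTheory Filter Metric Set Islands Connected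
open scoped Topology ENNReal NNReal ContDiff Real

/-! ### A smooth clamp -/

/-- A smooth nondecreasing clamp. -/
lemma exists_clamp {lo hi e : ℝ} (hlh : lo ≤ hi) (he : 0 < e) :
    ∃ Θ : ℝ → ℝ, ContDiff ℝ ∞ Θ ∧ (∀ φ, 0 ≤ deriv Θ φ ∧ deriv Θ φ ≤ 1) ∧
      (∀ φ, Θ φ ∈ Icc (lo - e) (hi + e)) ∧ ∀ φ ∈ Icc lo hi, Θ φ = φ := by
  set σ : ℝ → ℝ := fun v => Real.smoothTransition (v / e) with hσ
  have hσs : ContDiff ℝ ∞ σ := Real.smoothTransition.contDiff.comp (contDiff_id.div_const e)
  have hσc := hσs.continuous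
  set P : ℝ → ℝ := fun s => ∫ v in (0 : ℝ)..s, σ v with hP
  have hPd : ∀ s, HasDerivAt P (σ s) s := fun s => hσc.integral_hasStrictDerivAt 0 s |>.hasDerivAt
  have hPs : ContDiff ℝ ∞ P := by
    rw [contDiff_infty_iff_deriv, show deriv P = σ from funext fun s => (hPd s).deriv]
    exact ⟨fun s => (hPd s).differentiableAt, hσs⟩
  have hσ0 : ∀ v ≤ 0, σ v = 0 := fun v hv =>
    Real.smoothTransition.zero_of_nonpos (div_nonpos_of_nonpos_of_nonneg hv he.le)
  have hP0 : ∀ s ≤ 0, P s = 0 := fun s hs => by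
    simp only [hP]
    rw [intervalIntegral.integral_congr (g := fun _ => (0 : ℝ)) fun v hv => hσ0 v ?_]
    · simp
    · rw [uIcc_of_ge hs] at hv; exact hv.2
  have hle : ∀ s, 0 ≤ s → P s ≤ s ∧ s - e ≤ P s := by
    intro s hs
    constructor
    · refine (intervalIntegral.integral_mono_on hs (hσc.intervalIntegrable 0 s)
        (continuous_const.intervalIntegrable 0 s) fun v _ =>
          Real.smoothTransition.le_one _).trans ?_
      simp
    · rcases le_or_gt s e with h | h
      · exact le_trans (by linarith)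
          (intervalIntegral.integral_nonneg hs fun v _ => Real.smoothTransition.nonneg _)
      · have hsplit := intervalIntegral.integral_add_adjacent_intervals
          (hσc.intervalIntegrable 0 e) (hσc.intervalIntegrable (μ := volume) e s)
        have h1 : 0 ≤ ∫ v in (0 : ℝ)..e, σ v :=
          intervalIntegral.integral_nonneg he.le fun v _ => Real.smoothTransition.nonneg _
        have h2 : ∫ v in e..s, σ v = s - e := by
          rw [intervalIntegral.integral_congr (g := fun _ => (1 : ℝ)) fun v hv => ?_]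
          · simp
          · rw [uIcc_of_le h.le] at hv
            exact Real.smoothTransition.one_of_one_le ((one_le_div₀ he).2 hv.1)
        simp only [hP]
        linarith
  set Θ : ℝ → ℝ := fun φ => φ - P (φ - hi) + P (lo - φ) with hΘ
  have hd : ∀ φ, HasDerivAt Θ (1 - σ (φ - hi) - σ (lo - φ)) φ := fun φ =>
    (((hasDerivAt_id φ).sub ((hPd (φ - hi)).comp φ ((hasDerivAt_id φ).sub_const hi))).add
      ((hPd (lo - φ)).comp φ ((hasDerivAt_id φ).const_sub lo))).congr_deriv (by simp; ring)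
  refine ⟨Θ, (contDiff_id.sub (hPs.comp (contDiff_id.sub contDiff_const))).add
    (hPs.comp (contDiff_const.sub contDiff_id)), fun φ => ?_, fun φ => ?_, fun φ hφ => ?_⟩
  · rw [(hd φ).deriv]
    have a1 := Real.smoothTransition.nonneg ((φ - hi) / e)
    have a2 := Real.smoothTransition.nonneg ((lo - φ) / e)
    have a3 := Real.smoothTransition.le_one ((φ - hi) / e)
    have a4 := Real.smoothTransition.le_one ((lo - φ) / e)
    rcases le_or_gt φ hi with h | h
    · have := hσ0 (φ - hi) (by linarith)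
      simp only [hσ] at this ⊢
      constructor <;> linarith
    · have := hσ0 (lo - φ) (by linarith)
      simp only [hσ] at this ⊢
      constructor <;> linarith
  · simp only [hΘ]
    rcases lt_or_ge φ lo with h | h
    · have := hle (lo - φ) (by linarith)
      rw [hP0 (φ - hi) (by linarith)]
      constructor <;> linarith
    rcases le_or_gt φ hi with h' | h'
    · rw [hP0 (φ - hi) (by linarith), hP0 (lo - φ) (by linarith)]
      constructor <;> linarith
    · have := hle (φ - hi) (by linarith)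
      rw [hP0 (lo - φ) (by linarith)]
      constructor <;> linarith
  · simp [hΘ, hP0 (φ - hi) (by linarith [hφ.2]), hP0 (lo - φ) (by linarith [hφ.1])]

/-! ### Separation from labels -/

/-- A locally constant choice of components inside keeps separation outside. -/
lemma keepsSeparation_label {K : Set ℂ} (hK : IsClosed K) {x : ℂ} {r R : ℝ} {T : Set ℂ}
    (hR : closedBall x r ⊆ ball 0 R) {F : ℂ → Set ℂ}
    (hloc : ∀ y ∈ ball x r \ T, ∀ᶠ w in 𝓝 y, F w = F y)
    (hbd : ∀ y ∈ sphere x r, y ∉ T → y ∉ K ∧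
      ∀ᶠ w in 𝓝 y, w ∈ ball x r → F w = connectedComponentIn Kᶜ y) :
    KeepsSeparation K ((K \ ball x r) ∪ T) (ball 0 R) := by
  classical
  intro a b ha hb hne hmem
  set L := (K \ ball x r) ∪ T with hL
  have hout : ∀ {p : ℂ}, p ∉ ball (0 : ℂ) R ∪ K → p ∉ closedBall x r := fun hp h => hp (Or.inl (hR h))
  by_cases haL : a ∈ Lᶜ
  swap
  · simp only [connectedComponentIn_eq_empty haL, mem_empty_iff_false] at hmem
  set H : ℂ → Set ℂ := fun y => if y ∈ ball x r then F y else connectedComponentIn Kᶜ y with hH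
  have hcomp : ∀ y, y ∉ K → ∀ᶠ w in 𝓝 y, connectedComponentIn Kᶜ w = connectedComponentIn Kᶜ y :=
    fun y hy => by
      filter_upwards [(hK.isOpen_compl.connectedComponentIn).mem_nhds
        (mem_connectedComponentIn (show y ∈ Kᶜ from hy))] with w hw
      exact (connectedComponentIn_eq hw).symm
  have hH' : ∀ y ∈ Lᶜ, ∀ᶠ w in 𝓝 y, H w = H y := by
    intro y hy
    have hyT : y ∉ T := fun h => hy (Or.inr h)
    by_cases hyb : y ∈ ball x r
    · filter_upwards [hloc y ⟨hyb, hyT⟩, isOpen_ball.mem_nhds hyb] with w h1 h2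
      simp only [hH, if_pos hyb, if_pos h2, h1]
    have hyK : y ∉ K := fun h => hy (Or.inl ⟨h, hyb⟩)
    by_cases hys : y ∈ sphere x r
    · filter_upwards [(hbd y hys hyT).2, hcomp y hyK] with w h1 h2
      by_cases hw : w ∈ ball x r
      · simp only [hH, if_pos hw, if_neg hyb, h1 hw]
      · simp only [hH, if_neg hw, if_neg hyb, h2]
    · have hyc : y ∉ closedBall x r := fun h => by
        rw [mem_ball, not_lt] at hyb
        exact hys (mem_sphere.2 (le_antisymm (mem_closedBall.1 h) hyb))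
      filter_upwards [hcomp y hyK, isClosed_closedBall.isOpen_compl.mem_nhds hyc] with w h1 h2
      have hw : w ∉ ball x r := fun h => h2 (ball_subset_closedBall h)
      simp only [hH, if_neg hw, if_neg hyb, h1]
  set C := connectedComponentIn Lᶜ a
  have hconst : H b = H a := by
    have hC : IsPreconnected C := isPreconnected_connectedComponentIn
    by_contra hne'
    set A := {y | ∀ᶠ w in 𝓝 y, H w = H a} with hA
    set B := {y | ∀ᶠ w in 𝓝 y, H w ≠ H a} with hB
    have hAo : IsOpen A := isOpen_setOfPred_eventually_nhds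
    have hBo : IsOpen B := isOpen_setOfPred_eventually_nhds
    obtain ⟨z, -, hzA, hzB⟩ := hC A B hAo hBo (fun y hy => by
        by_cases h : H y = H a
        · exact Or.inl ((hH' y (connectedComponentIn_subset _ _ hy)).mono fun w hw => hw.trans h)
        · exact Or.inr ((hH' y (connectedComponentIn_subset _ _ hy)).mono fun w hw => hw ▸ h))
      ⟨a, mem_connectedComponentIn haL, hH' a haL⟩
      ⟨b, hmem, (hH' b (connectedComponentIn_subset _ _ hmem)).mono fun w hw => hw ▸ hne'⟩
    exact hzB.self_of_nhds hzA.self_of_nhds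
  have ha' : a ∉ ball x r := fun h => hout ha (ball_subset_closedBall h)
  have hb' : b ∉ ball x r := fun h => hout hb (ball_subset_closedBall h)
  simp only [hH, if_neg ha', if_neg hb'] at hconst
  exact hne (hconst ▸ mem_connectedComponentIn (show b ∈ Kᶜ from fun h => hb (Or.inr h)))

/-! ### The intervals between finitely many angles -/

section Angles

variable (Ag : Finset ℝ)

/-- The first of the angles after `θ`. -/
noncomputable def next (θ : ℝ) : ℝ :=
  if h : (Ag.filter fun a => θ < a).Nonempty then (Ag.filter fun a => θ < a).min' h else π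

/-- The last of the angles before `a`, or `-π`. -/
noncomputable def prev (a : ℝ) : ℝ :=
  (insert (-π) (Ag.filter fun b => b < a)).max' (Finset.insert_nonempty _ _)

/-- The middle of the interval ending at `a`. -/
noncomputable def mid (a : ℝ) : ℝ := (prev Ag a + a) / 2

variable {Ag : Finset ℝ} (hA : ∀ a ∈ Ag, -π < a)
include hA

lemma prev_lt {a : ℝ} (ha : a ∈ Ag) : prev Ag a < a := by
  rw [prev, Finset.max'_lt_iff]
  intro b hb
  rcases Finset.mem_insert.1 hb with rfl | hb
  · exact hA a ha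
  · exact (Finset.mem_filter.1 hb).2

omit hA in
lemma le_prev {a b : ℝ} (hb : b ∈ Ag) (hba : b < a) : b ≤ prev Ag a :=
  Finset.le_max' _ _ (Finset.mem_insert_of_mem (Finset.mem_filter.2 ⟨hb, hba⟩))

omit hA in
lemma neg_pi_le_prev (a : ℝ) : -π ≤ prev Ag a := Finset.le_max' _ _ (Finset.mem_insert_self _ _)

omit hA in
lemma free_of_mem {a θ : ℝ} (hθ : θ ∈ Ioo (prev Ag a) a) : θ ∉ Ag := fun h => by
  linarith [le_prev h hθ.2, hθ.1]

omit hA in
lemma next_eq {a θ : ℝ} (ha : a ∈ Ag) (hθ : θ ∈ Ioo (prev Ag a) a) : next Ag θ = a := by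
  have h : (Ag.filter fun b => θ < b).Nonempty := ⟨a, Finset.mem_filter.2 ⟨ha, hθ.2⟩⟩
  rw [next, dif_pos h]
  refine le_antisymm (Finset.min'_le _ _ (Finset.mem_filter.2 ⟨ha, hθ.2⟩))
    (Finset.le_min' _ _ _ fun b hb => ?_)
  rw [Finset.mem_filter] at hb
  by_contra hlt
  linarith [le_prev hb.1 (not_le.1 hlt), hθ.1, hb.2]

omit hA in
lemma next_mem (hπ : π ∈ Ag) {θ : ℝ} (h1 : -π < θ) (h2 : θ < π) (hθ : θ ∉ Ag) :
    next Ag θ ∈ Ag ∧ θ ∈ Ioo (prev Ag (next Ag θ)) (next Ag θ) := by
  have h : (Ag.filter fun b => θ < b).Nonempty := ⟨π, Finset.mem_filter.2 ⟨hπ, h2⟩⟩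
  have hm := Finset.min'_mem _ h
  rw [Finset.mem_filter] at hm
  rw [next, dif_pos h]
  refine ⟨hm.1, ?_, hm.2⟩
  rw [prev, Finset.max'_lt_iff]
  intro b hb
  rcases Finset.mem_insert.1 hb with rfl | hb
  · exact h1
  rw [Finset.mem_filter] at hb
  rcases lt_trichotomy b θ with h' | rfl | h'
  · exact h'
  · exact absurd hb.1 hθ
  · linarith [Finset.min'_le _ b (Finset.mem_filter.2 ⟨hb.1, h'⟩), hb.2]

end Angles

/-! ### One circle -/

/-- The data on a circle. -/
structure Circ (u : ℂ → ℝ) (K : Set ℂ) (x : ℂ) (r : ℝ) (τ : ℂ) (Ag : Finset ℝ) : Prop where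
  reg : Reg u K
  rpos : 0 < r
  unit : ‖τ‖ = 1
  lower : ∀ a ∈ Ag, -π < a
  upper : ∀ a ∈ Ag, a ≤ π
  piMem : π ∈ Ag
  free : ∀ θ ∈ Ioo (-π) π, θ ∉ Ag → pol x τ (r, θ) ∉ K
  integ : ∀ a b, IntervalIntegrable
    (fun θ => dot (grad u (circleMap x r θ)) (Complex.I * dir x (circleMap x r θ)) ^ 2) volume a b

/-- The derivative along the circle. -/
noncomputable def slope (u : ℂ → ℝ) (x : ℂ) (r : ℝ) (τ : ℂ) (θ : ℝ) : ℝ :=
  r * dot (grad u (circleMap x r (θ + Complex.arg τ)))
    (Complex.I * dir x (circleMap x r (θ + Complex.arg τ)))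

lemma pol_eq_circleMap {x τ : ℂ} (hτ : ‖τ‖ = 1) (r θ : ℝ) :
    pol x τ (r, θ) = circleMap x r (θ + Complex.arg τ) := by
  have h := Complex.norm_mul_exp_arg_mul_I τ
  rw [hτ, Complex.ofReal_one, one_mul] at h
  simp only [pol, circleMap, zero_add]
  rw [show ((θ + Complex.arg τ : ℝ) : ℂ) * Complex.I =
    Complex.arg τ * Complex.I + θ * Complex.I by push_cast; ring, Complex.exp_add, h]
  ring

namespace Circ

variable {u : ℂ → ℝ} {K : Set ℂ} {x : ℂ} {r : ℝ} {τ : ℂ} {Ag : Finset ℝ}

lemma free_interval (c : Circ u K x r τ Ag) {a θ : ℝ} (ha : a ∈ Ag)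
    (hθ : θ ∈ Ioo (prev Ag a) a) : pol x τ (r, θ) ∉ K :=
  c.free θ ⟨by linarith [neg_pi_le_prev (Ag := Ag) a, hθ.1], by linarith [c.upper a ha, hθ.2]⟩
    (free_of_mem hθ)

lemma slope_sq (c : Circ u K x r τ Ag) :
    IntervalIntegrable (fun θ => slope u x r τ θ ^ 2) volume (-π) π ∧
      ∫ θ in -π..π, slope u x r τ θ ^ 2 = r * tang u x r := by
  set D := fun θ => dot (grad u (circleMap x r θ)) (Complex.I * dir x (circleMap x r θ)) ^ 2 with hD
  have e : (fun θ => slope u x r τ θ ^ 2) = fun θ => r ^ 2 * D (θ + Complex.arg τ) := by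
    funext θ; simp [slope, hD, mul_pow]
  refine ⟨?_, ?_⟩
  · rw [e]
    have h := (c.integ (-π + Complex.arg τ) (π + Complex.arg τ)).comp_add_right (Complex.arg τ)
    simp only [add_sub_cancel_right] at h
    exact h.const_mul _
  · rw [e, intervalIntegral.integral_const_mul, intervalIntegral.integral_comp_add_right,
      tang_eq x r (-π + Complex.arg τ),
      show -π + Complex.arg τ + 2 * π = π + Complex.arg τ by ring]
    ring

/-- The competitor's profile on one arc. -/
theorem sector (c : Circ u K x r τ Ag) {A B : ℝ} {w : ℝ → ℝ} (hA : 0 ≤ A) (hB : 0 ≤ B)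
    (hw : ContDiffOn ℝ ∞ w (Ioi 0)) (hw1 : w r = 1) (hw0 : ∀ t ≤ r / 2, w t = 0)
    (hwA : ∫⁻ t in Ioo 0 r, ENNReal.ofReal (t * deriv w t ^ 2) ≤ ENNReal.ofReal A)
    (hwB : ∫⁻ t in Ioo 0 r, ENNReal.ofReal (w t ^ 2 / t) ≤ ENNReal.ofReal B)
    {a e η : ℝ} (ha : a ∈ Ag) (he : 0 < e) (he' : 4 * e < a - prev Ag a) (hη : 0 < η) :
    ∃ (Φ : ℝ × ℝ → ℝ) (h : ℝ), 0 < h ∧ ContDiffOn ℝ ∞ Φ (Ioo 0 r ×ˢ univ) ∧
      (∀ t ≤ r / 2, ∀ φ, Φ (t, φ) = u (pol x τ (r, mid Ag a))) ∧
      (∀ t ∈ Ioo (r - h) r, ∀ φ ∈ Icc (prev Ag a + 2 * e) (a - 2 * e),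
        Φ (t, φ) = u (pol x τ (t, φ))) ∧
      ∫⁻ p in Ioo 0 r ×ˢ Ioo (-π) π, ENNReal.ofReal (pen Φ p) ≤ ENNReal.ofReal
        ((4 * π ^ 2 * A + B) * (∫ θ in (prev Ag a + e)..(a - e), slope u x r τ θ ^ 2) + η) := by
  set lo := prev Ag a + e with hlo
  set hi := a - e with hhi
  have hlh : lo ≤ hi := by rw [hlo, hhi]; linarith
  obtain ⟨Θ, hΘs, hΘd, hΘr, hΘid⟩ :=
    exists_clamp (lo := prev Ag a + 2 * e) (hi := a - 2 * e) (by linarith) he
  have hr' : ∀ φ, Θ φ ∈ Icc lo hi := fun φ => ⟨by linarith [(hΘr φ).1], by linarith [(hΘr φ).2]⟩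
  have hsub : Icc lo hi ⊆ Ioo (prev Ag a) a := fun θ hθ =>
    ⟨by linarith [hθ.1], by linarith [hθ.2]⟩
  have hpc : Continuous fun p : ℝ × ℝ => pol x τ p := by unfold pol circleMap; fun_prop
  have hKo := c.reg.isClosed.isOpen_compl
  obtain ⟨U, V, hU, -, hrU, hIV, hUV⟩ := generalized_tube_lemma (isCompact_singleton (x := r))
    (isCompact_Icc (a := lo) (b := hi)) (hKo.preimage hpc) (by
      rintro ⟨t, θ⟩ ⟨ht, hθ⟩
      rw [mem_singleton_iff] at ht
      subst ht
      exact c.free_interval ha (hsub hθ))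
  obtain ⟨ε, hε, hεU⟩ := Metric.isOpen_iff.1 hU r (hrU rfl)
  set m := u (pol x τ (r, mid Ag a))
  set G : ℝ × ℝ → ℝ := fun p => u (pol x τ (p.1, Θ p.2)) - m with hG
  have hGs : ContDiffOn ℝ ∞ G (Ioo (r - ε) (r + ε) ×ˢ univ) := by
    refine ContDiffOn.sub ?_ contDiffOn_const
    have hps : ContDiff ℝ ∞ fun p : ℝ × ℝ => pol x τ (p.1, Θ p.2) := by
      unfold pol circleMap
      exact contDiff_const.add (contDiff_const.mul (contDiff_const.add
        ((Complex.ofRealCLM.contDiff.comp contDiff_fst).mul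
          (((Complex.ofRealCLM.contDiff.comp (hΘs.comp contDiff_snd)).mul contDiff_const).cexp))))
    refine c.reg.smooth.comp hps.contDiffOn fun p hp => hUV (Set.mk_mem_prod (hεU ?_) (hIV (hr' _)))
    rw [mem_ball, Real.dist_eq, abs_lt]
    constructor <;> linarith [hp.1.1, hp.1.2]
  obtain ⟨Φ, h, hh, -, -, hΦs, hΦb, hΦi, hΦe⟩ :=
    exists_blend_inner c.rpos hε m hGs hw hw1 hA hB hwA hwB hη
  refine ⟨Φ, h, hh, hΦs, fun t ht φ => ?_, fun t ht φ hφ => ?_, hΦe.trans ?_⟩
  · rw [hΦi t ht, hw0 t ht, zero_mul, add_zero]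
  · rw [hΦb t ht]
    simp only [hG, hΘid φ hφ]
    ring
  -- the two boundary integrals
  set g : ℝ → ℝ := fun θ => u (pol x τ (r, θ)) with hg
  set s := slope u x r τ with hs
  have hgd : ∀ θ ∈ Ioo (prev Ag a) a, HasDerivAt g (s θ) θ := by
    intro θ hθ
    have hK' : circleMap x r (θ + Complex.arg τ) ∉ K := by
      rw [← pol_eq_circleMap c.unit]; exact c.free_interval ha hθ
    have := (hasDerivAt_circle c.reg c.rpos hK').comp θ ((hasDerivAt_id θ).add_const (Complex.arg τ))
    simp only [mul_one] at this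
    refine this.congr_of_eventuallyEq (Eventually.of_forall fun y => ?_)
    simp [hg, pol_eq_circleMap c.unit]
  have hsc : ContinuousOn s (Icc lo hi) := by
    intro θ hθ
    have hK' : circleMap x r (θ + Complex.arg τ) ∉ K := by
      rw [← pol_eq_circleMap c.unit]; exact c.free_interval ha (hsub hθ)
    refine ContinuousAt.continuousWithinAt ?_
    have hgc : ContinuousAt (fun θ => grad u (circleMap x r (θ + Complex.arg τ))) θ :=
      ContinuousAt.comp (g := grad u)
        (((contDiffOn_grad hKo c.reg.smooth).continuousOn).continuousAt (hKo.mem_nhds hK'))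
        (by fun_prop)
    have hdc : ContinuousAt
        (fun θ => Complex.I * dir x (circleMap x r (θ + Complex.arg τ))) θ := by
      unfold dir
      have hne : ‖circleMap x r (θ + Complex.arg τ) - x‖ ≠ 0 := by
        simp [circleMap, c.rpos.ne']
      exact continuousAt_const.mul (((by fun_prop : ContinuousAt
        (fun θ => ‖circleMap x r (θ + Complex.arg τ) - x‖) θ).inv₀ hne).smul (by fun_prop))
    simp only [hs]
    exact continuousAt_const.mul (((Complex.continuous_re.continuousAt.comp hgc).mul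
      (Complex.continuous_re.continuousAt.comp hdc)).add
      ((Complex.continuous_im.continuousAt.comp hgc).mul
        (Complex.continuous_im.continuousAt.comp hdc)))
  set E := ∫ θ in lo..hi, s θ ^ 2 with hE
  have hE0 : 0 ≤ E := intervalIntegral.integral_nonneg hlh fun θ _ => sq_nonneg _
  have hmid : mid Ag a ∈ Icc lo hi := ⟨by rw [mid, hlo]; linarith, by rw [mid, hhi]; linarith⟩
  have hosc : ∀ θ ∈ Icc lo hi, (g θ - g (mid Ag a)) ^ 2 ≤ 2 * π * E := by
    intro θ hθ
    set S := ∫ θ in lo..hi, |s θ| with hS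
    have hsub' : uIcc (mid Ag a) θ ⊆ Icc lo hi := uIcc_subset_Icc hmid hθ
    have h1 : g θ - g (mid Ag a) = ∫ t in (mid Ag a)..θ, s t :=
      (intervalIntegral.integral_eq_sub_of_hasDerivAt
        (fun t ht => hgd t (hsub (hsub' ht))) ((hsc.mono hsub').intervalIntegrable)).symm
    have habs : ContinuousOn (fun t => |s t|) (Icc lo hi) := hsc.abs
    have h2 : |g θ - g (mid Ag a)| ≤ S := by
      rw [h1, ← Real.norm_eq_abs]
      refine intervalIntegral.norm_integral_le_abs_integral_norm.trans ?_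
      simp only [Real.norm_eq_abs]
      rw [hS, ← abs_of_nonneg (intervalIntegral.integral_nonneg hlh fun t _ => abs_nonneg (s t))]
      refine intervalIntegral.abs_integral_mono_interval ?_
        (Eventually.of_forall fun t => abs_nonneg (s t))
        (habs.intervalIntegrable_of_Icc hlh)
      exact uIoc_subset_uIoc_of_uIcc_subset_uIcc (hsub'.trans Icc_subset_uIcc)
    have h3 : S ^ 2 ≤ (hi - lo) * E := by
      have hpos : 0 ≤ hi - lo := by linarith
      rcases hpos.eq_or_lt with h0 | h0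
      · have : lo = hi := by linarith
        simp [hS, hE, this]
      set q := S / (hi - lo) with hq
      have i1 : IntervalIntegrable (fun t => s t ^ 2) volume lo hi :=
        (hsc.pow 2).intervalIntegrable_of_Icc hlh
      have i2 : IntervalIntegrable (fun t => 2 * q * |s t|) volume lo hi :=
        (habs.intervalIntegrable_of_Icc hlh).const_mul _
      have hp := intervalIntegral.integral_nonneg (μ := volume) hlh
        (f := fun t => s t ^ 2 - 2 * q * |s t| + q ^ 2) fun t _ => by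
          nlinarith [sq_nonneg (|s t| - q), sq_abs (s t)]
      rw [intervalIntegral.integral_add (i1.sub i2) intervalIntegrable_const,
        intervalIntegral.integral_sub i1 i2, intervalIntegral.integral_const_mul,
        intervalIntegral.integral_const, smul_eq_mul] at hp
      have hqm : q * (hi - lo) = S := div_mul_cancel₀ _ h0.ne'
      nlinarith [mul_nonneg hpos hp, congrArg (fun z => z * q) hqm]
    have h4 : hi - lo ≤ 2 * π := by
      rw [hlo, hhi]; linarith [neg_pi_le_prev (Ag := Ag) a, c.upper a ha]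
    calc (g θ - g (mid Ag a)) ^ 2 = |g θ - g (mid Ag a)| ^ 2 := (sq_abs _).symm
      _ ≤ S ^ 2 := pow_le_pow_left₀ (abs_nonneg _) h2 2
      _ ≤ _ := h3.trans (mul_le_mul_of_nonneg_right h4 hE0)
  have hline : Continuous fun φ : ℝ => ((r, φ) : ℝ × ℝ) := continuous_const.prodMk continuous_id
  have hrU' : ∀ φ : ℝ, ((r, φ) : ℝ × ℝ) ∈ Ioo (r - ε) (r + ε) ×ˢ (univ : Set ℝ) := fun φ =>
    ⟨⟨by linarith, by linarith⟩, trivial⟩
  have hI1 : ∫ φ in -π..π, G (r, φ) ^ 2 ≤ 4 * π ^ 2 * E := by
    refine (intervalIntegral.integral_mono_on (by linarith [Real.pi_pos])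
      (((hGs.continuousOn.comp_continuous hline hrU').pow 2).intervalIntegrable _ _)
      intervalIntegrable_const (g := fun _ => 2 * π * E) fun φ _ => ?_).trans ?_
    · exact hosc _ (hr' φ)
    · rw [intervalIntegral.integral_const, smul_eq_mul]
      exact le_of_eq (by ring)
  have hdG : ∀ φ, fderiv ℝ G (r, φ) (0, 1) = s (Θ φ) * deriv Θ φ := by
    intro φ
    have a1 := ((hGs _ (hrU' φ)).contDiffAt ((isOpen_Ioo.prod isOpen_univ).mem_nhds (hrU' φ))
      ).differentiableAt (by simp) |>.hasFDerivAt.comp_hasDerivAt_of_eq φ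
        ((hasDerivAt_const φ r).prodMk (hasDerivAt_id φ)) rfl
    have a2 := ((hgd (Θ φ) (hsub (hr' φ))).comp φ
      ((hΘs.differentiable (by simp) φ).hasDerivAt)).sub_const m
    exact a1.unique a2
  have hI2 : ∫ φ in -π..π, fderiv ℝ G (r, φ) (0, 1) ^ 2 ≤ E := by
    have hΘc : Continuous (deriv Θ) := hΘs.continuous_deriv (by simp)
    have hsΘ : Continuous fun φ => s (Θ φ) := hsc.comp_continuous hΘs.continuous hr'
    simp only [hdG]
    refine (intervalIntegral.integral_mono_on (by linarith [Real.pi_pos])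
      (((hsΘ.mul hΘc).pow 2).intervalIntegrable _ _)
      (((hsΘ.pow 2).mul hΘc).intervalIntegrable _ _)
      (g := fun φ => s (Θ φ) ^ 2 * deriv Θ φ) fun φ _ => ?_).trans ?_
    · simp only [Pi.mul_apply, Pi.pow_apply, mul_pow]
      rw [sq (deriv Θ φ), ← mul_assoc]
      exact mul_le_of_le_one_right (mul_nonneg (sq_nonneg _) (hΘd φ).1) (hΘd φ).2
    have hcv := intervalIntegral.integral_comp_mul_deriv' (a := -π) (b := π) (f := Θ)
      (f' := deriv Θ) (g := fun θ => s θ ^ 2)
      (fun φ _ => (hΘs.differentiable (by simp) φ).hasDerivAt) hΘc.continuousOn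
      ((hsc.pow 2).mono (image_subset_iff.2 fun φ _ => hr' φ))
    simp only [Function.comp_apply] at hcv
    rw [hcv]
    have hmono : Monotone Θ :=
      monotone_of_deriv_nonneg (hΘs.differentiable (by simp)) fun φ => (hΘd φ).1
    exact intervalIntegral.integral_mono_interval (hr' _).1 (hmono (by linarith [Real.pi_pos]))
      (hr' _).2 (Eventually.of_forall fun θ => sq_nonneg _)
      ((hsc.pow 2).intervalIntegrable_of_Icc hlh)
  refine ENNReal.ofReal_le_ofReal ?_
  linarith [mul_le_mul_of_nonneg_left hI1 hA, mul_le_mul_of_nonneg_left hI2 hB]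

lemma sum_slope (c : Circ u K x r τ Ag) {e : ℝ} (he : 0 ≤ e)
    (he' : ∀ a ∈ Ag, 4 * e < a - prev Ag a) :
    ∑ a ∈ Ag, ∫ θ in (prev Ag a + e)..(a - e), slope u x r τ θ ^ 2 ≤ r * tang u x r := by
  obtain ⟨hi, he2⟩ := c.slope_sq
  rw [← he2]
  have hpi := Real.pi_pos
  rw [intervalIntegral.integral_of_le (show -π ≤ π by linarith),
    Finset.sum_congr rfl fun a ha => intervalIntegral.integral_of_le
      (show prev Ag a + e ≤ a - e by linarith [he' a ha])]
  rw [intervalIntegrable_iff_integrableOn_Ioc_of_le (by linarith)] at hi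
  have hsub : ∀ a ∈ Ag, Ioc (prev Ag a + e) (a - e) ⊆ Ioc (-π) π := fun a ha θ hθ =>
    ⟨by linarith [neg_pi_le_prev (Ag := Ag) a, hθ.1], by linarith [c.upper a ha, hθ.2]⟩
  rw [← integral_biUnion_finset _ (fun a _ => measurableSet_Ioc) ?_
    fun a ha => hi.mono_set (hsub a ha)]
  · exact setIntegral_mono_set hi (Eventually.of_forall fun θ => sq_nonneg _)
      (Eventually.of_forall (iUnion₂_subset hsub))
  · intro a ha b hb hab
    refine disjoint_left.2 fun θ h1 h2 => hab ?_
    rcases lt_trichotomy a b with h | h | h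
    · linarith [le_prev (Ag := Ag) ha h, h1.2, h2.1]
    · exact h
    · linarith [le_prev (Ag := Ag) hb h, h1.1, h2.2]

end Circ

/-! ### The label in angles -/

/-- The angle interval of an arc. -/
noncomputable def interval (τ : ℂ) (Ag : Finset ℝ) (S : Set ℂ) : ℝ :=
  next Ag (Complex.arg (Classical.epsilon (fun q => q ∈ S) / τ))

/-- The points of `K` on the circle, as directions. -/
structure Points (K : Set ℂ) (x : ℂ) (r : ℝ) (τ : ℂ) (Z : Finset ℂ) (Ag : Finset ℝ) : Prop where
  unit : ‖τ‖ = 1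
  norm : ∀ z ∈ Z, ‖z‖ = 1
  mem_iff : ∀ z : ℂ, ‖z‖ = 1 → (x + r • z ∈ K ↔ z ∈ Z)
  anti : -τ ∈ Z
  angles : ∀ θ ∈ Ioc (-π) π, θ ∈ Ag ↔ τ * Complex.exp (θ * Complex.I) ∈ Z
  range : ∀ a ∈ Ag, a ∈ Ioc (-π) π

namespace Points

variable {K : Set ℂ} {x : ℂ} {r : ℝ} {τ : ℂ} {Z : Finset ℂ} {Ag : Finset ℝ}

lemma piMem (P : Points K x r τ Z Ag) : π ∈ Ag := by
  rw [P.angles π ⟨by linarith [Real.pi_pos], le_rfl⟩, Complex.exp_pi_mul_I, mul_neg_one]
  exact P.anti

lemma spec (P : Points K x r τ Z Ag) {q : ℂ} (hq : q ∈ sphere (0 : ℂ) 1 \ ↑Z) :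
    Complex.arg (q / τ) ∈ Ioo (-π) π ∧ Complex.arg (q / τ) ∉ Ag ∧
      q = τ * Complex.exp (Complex.arg (q / τ) * Complex.I) := by
  have h0 : τ ≠ 0 := fun h => by simpa [h] using P.unit
  have hn : ‖q / τ‖ = 1 := by rw [norm_div, P.unit, div_one]; simpa using hq.1
  have he : q = τ * Complex.exp (Complex.arg (q / τ) * Complex.I) := by
    have := Complex.norm_mul_exp_arg_mul_I (q / τ)
    rw [hn, Complex.ofReal_one, one_mul] at this
    rw [this, mul_div_cancel₀ _ h0]
  have hne : Complex.arg (q / τ) ∉ Ag := fun h => hq.2 (by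
    rw [P.angles _ (Complex.arg_mem_Ioc _), ← he] at h; exact h)
  exact ⟨⟨Complex.neg_pi_lt_arg _,
    lt_of_le_of_ne (Complex.arg_le_pi _) fun h => hne (h ▸ P.piMem)⟩, hne, he⟩

lemma free_arc (P : Points K x r τ Z Ag) {a θ : ℝ} (ha : a ∈ Ag)
    (hθ : θ ∈ Ioo (prev Ag a) a) : τ * Complex.exp (θ * Complex.I) ∉ Z := fun h =>
  free_of_mem hθ ((P.angles θ ⟨by linarith [neg_pi_le_prev (Ag := Ag) a, hθ.1],
    by linarith [(P.range a ha).2, hθ.2]⟩).2 h)

lemma interval_arc (P : Points K x r τ Z Ag) {q : ℂ} (hq : q ∈ sphere (0 : ℂ) 1 \ ↑Z) :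
    interval τ Ag (arc Z q) = next Ag (Complex.arg (q / τ)) := by
  set S := arc Z q
  set p := Classical.epsilon (fun p => p ∈ S)
  have hp : p ∈ S := Classical.epsilon_spec ⟨q, mem_connectedComponentIn hq⟩
  rw [interval]
  set f : ℂ → ℝ := fun z => next Ag (Complex.arg (z / τ))
  have hloc : ∀ z ∈ S, ∀ᶠ w in 𝓝 z, f w = f z := by
    intro z hz
    have hz' := connectedComponentIn_subset _ _ hz
    obtain ⟨h1, h2, -⟩ := P.spec hz'
    obtain ⟨hm, hin⟩ := next_mem P.piMem h1.1 h1.2 h2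
    have hc : ContinuousAt (fun w => Complex.arg (w / τ)) z :=
      ContinuousAt.comp (g := Complex.arg) (f := fun w => w / τ)
        (Complex.continuousAt_arg (Complex.mem_slitPlane_iff_arg.2 ⟨h1.2.ne, fun h => by
          rw [div_eq_zero_iff] at h
          rcases h with h | h
          · simpa [h] using hz'.1
          · simpa [h] using P.unit⟩))
        (continuousAt_id.div_const τ)
    filter_upwards [hc (isOpen_Ioo.mem_nhds hin)] with w hw
    exact next_eq hm hw
  have hS : IsPreconnected S := isPreconnected_connectedComponentIn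
  by_contra hne
  obtain ⟨z, -, h1, h2⟩ := hS {z | ∀ᶠ w in 𝓝 z, f w = f q} {z | ∀ᶠ w in 𝓝 z, f w ≠ f q}
    isOpen_setOfPred_eventually_nhds isOpen_setOfPred_eventually_nhds (fun z hz => by
      by_cases h : f z = f q
      · exact Or.inl ((hloc z hz).mono fun w hw => hw.trans h)
      · exact Or.inr ((hloc z hz).mono fun w hw => hw ▸ h))
    ⟨q, mem_connectedComponentIn hq, hloc q (mem_connectedComponentIn hq)⟩
    ⟨p, hp, (hloc p hp).mono fun w hw => hw ▸ hne⟩
  exact h2.self_of_nhds h1.self_of_nhds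

end Points

/-- The profile. -/
noncomputable def profile (r t : ℝ) : ℝ := Real.smoothTransition (4 * t / r - 3)

lemma exists_profile_bound : ∃ A B : ℝ, 0 ≤ A ∧ 0 ≤ B ∧ ∀ r > (0 : ℝ),
    ContDiffOn ℝ ∞ (profile r) (Ioi 0) ∧ profile r r = 1 ∧ (∀ t ≤ r / 2, profile r t = 0) ∧
    ∫⁻ t in Ioo 0 r, ENNReal.ofReal (t * deriv (profile r) t ^ 2) ≤ ENNReal.ofReal A ∧
    ∫⁻ t in Ioo 0 r, ENNReal.ofReal (profile r t ^ 2 / t) ≤ ENNReal.ofReal B := by
  have hc : Continuous (deriv Real.smoothTransition) :=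
    (Real.smoothTransition.contDiff (n := 1)).continuous_deriv le_rfl
  obtain ⟨C, hC⟩ := (isCompact_Icc (a := (-3 : ℝ)) (b := 1)).exists_bound_of_continuousOn
    hc.continuousOn
  have hC0 : 0 ≤ C := (norm_nonneg _).trans (hC 0 ⟨by norm_num, zero_le_one⟩)
  refine ⟨16 * C ^ 2, 2, by positivity, by norm_num, fun r hr => ?_⟩
  have hd : ∀ t, HasDerivAt (profile r)
      (deriv Real.smoothTransition (4 * t / r - 3) * (4 / r)) t := fun t =>
    (((Real.smoothTransition.contDiff (n := 1)).differentiable one_ne_zero _).hasDerivAt.comp t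
      ((((hasDerivAt_id t).const_mul 4).div_const r).sub_const 3)).congr_deriv (by simp)
  have hvol : volume (Ioo (0 : ℝ) r) = ENNReal.ofReal r := by rw [Real.volume_Ioo, sub_zero]
  refine ⟨(Real.smoothTransition.contDiff.comp
    (((contDiff_const.mul contDiff_id).div_const r).sub contDiff_const)).contDiffOn, ?_,
    fun t ht => Real.smoothTransition.zero_of_nonpos ?_, ?_, ?_⟩
  · exact Real.smoothTransition.one_of_one_le (by rw [mul_div_assoc, div_self hr.ne']; norm_num)
  · have : 4 * t / r ≤ 2 := by rw [div_le_iff₀ hr]; linarith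
    linarith
  · refine (setLIntegral_mono' measurableSet_Ioo (g := fun _ => ENNReal.ofReal (16 * C ^ 2 / r))
      fun t ht => ENNReal.ofReal_le_ofReal ?_).trans ?_
    · rw [(hd t).deriv, mul_pow, div_pow]
      have h1 : deriv Real.smoothTransition (4 * t / r - 3) ^ 2 ≤ C ^ 2 := by
        have := hC (4 * t / r - 3) ⟨?_, ?_⟩
        · rw [Real.norm_eq_abs] at this
          exact sq_le_sq' (abs_le.1 this).1 (abs_le.1 this).2
        · linarith [div_nonneg (mul_nonneg (by norm_num : (0:ℝ) ≤ 4) ht.1.le) hr.le]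
        · have : 4 * t / r ≤ 4 := by rw [div_le_iff₀ hr]; linarith [ht.2]
          linarith
      calc t * (deriv Real.smoothTransition (4 * t / r - 3) ^ 2 * (4 ^ 2 / r ^ 2))
          ≤ r * (C ^ 2 * (4 ^ 2 / r ^ 2)) := mul_le_mul ht.2.le
            (mul_le_mul_of_nonneg_right h1 (by positivity)) (by positivity) hr.le
        _ = 16 * C ^ 2 / r := by field_simp; ring
    · rw [setLIntegral_const, hvol, ← ENNReal.ofReal_mul (by positivity)]
      exact ENNReal.ofReal_le_ofReal (le_of_eq (by field_simp))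
  · refine (setLIntegral_mono' measurableSet_Ioo (g := fun _ => ENNReal.ofReal (2 / r))
      fun t ht => ENNReal.ofReal_le_ofReal ?_).trans ?_
    · rcases le_or_gt t (r / 2) with h | h
      · rw [profile, Real.smoothTransition.zero_of_nonpos
          (by have : 4 * t / r ≤ 2 := by rw [div_le_iff₀ hr]; linarith
              linarith)]
        simp; positivity
      · rw [div_le_div_iff₀ ht.1 hr]
        have h2 : profile r t ^ 2 ≤ 1 :=
          pow_le_one₀ (Real.smoothTransition.nonneg _) (Real.smoothTransition.le_one _)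
        nlinarith
    · rw [setLIntegral_const, hvol, ← ENNReal.ofReal_mul (by positivity)]
      exact ENNReal.ofReal_le_ofReal (le_of_eq (by field_simp))

/-- A plan gives a competitor, up to small caps. -/
theorem cost_approx {u : ℂ → ℝ} {K : Set ℂ} {x : ℂ} {r : ℝ} {τ : ℂ} {Z : Finset ℂ}
    {Ag : Finset ℝ} (c : Circ u K x r τ Ag) (P : Points K x r τ Z Ag) {T₀ : Set ℂ}
    {ℓ : ℂ → Set ℂ} {Λ : ℝ} (hΛ : 0 ≤ Λ) (hp : Plan Z T₀ ℓ Λ) {A B : ℝ} (hA : 0 ≤ A)
    (hB : 0 ≤ B) {w : ℝ → ℝ} (hw : ContDiffOn ℝ ∞ w (Ioi 0)) (hw1 : w r = 1)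
    (hw0 : ∀ t ≤ r / 2, w t = 0)
    (hwA : ∫⁻ t in Ioo 0 r, ENNReal.ofReal (t * deriv w t ^ 2) ≤ ENNReal.ofReal A)
    (hwB : ∫⁻ t in Ioo 0 r, ENNReal.ofReal (w t ^ 2 / t) ≤ ENNReal.ofReal B) {e η : ℝ}
    (he : 0 < e) (he' : ∀ a ∈ Ag, 4 * e < a - prev Ag a) (hη : 0 < η) :
    Len K x r + En u x r ≤ r * Λ + ((Ag.card : ℝ) + 1) * (4 * e * r) +
      (4 * π ^ 2 * A + B) * (r * tang u x r) + Ag.card * η := by
  classical
  have hr := c.rpos
  have hτ0 : τ ≠ 0 := fun h => by simpa [h] using c.unit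
  choose Φ h hh hΦs hΦi hΦb hΦe using fun (a : ℝ) (ha : a ∈ Ag) =>
    c.sector hA hB hw hw1 hw0 hwA hwB ha he (he' a ha) hη
  set Φ' : ℝ → ℝ × ℝ → ℝ := fun a => if ha : a ∈ Ag then Φ a ha else fun _ => 0
  set sc : ℂ → ℂ := fun z => x + r • z
  set T := sc '' T₀ with hT
  set caps : Set ℂ := ⋃ b ∈ insert (-π) Ag,
    (fun θ => pol x τ (r, θ)) '' Icc (b - 2 * e) (b + 2 * e) with hcaps
  set us : ℂ → ℂ := fun y => r⁻¹ • (y - x)
  have hsu : ∀ y, sc (us y) = y := fun y => by
    simp only [sc, us, smul_smul, mul_inv_cancel₀ hr.ne', one_smul, add_sub_cancel]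
  have hus : ∀ z, us (sc z) = z := fun z => by
    simp only [sc, us, add_sub_cancel_left, smul_smul, inv_mul_cancel₀ hr.ne', one_smul]
  have husn : ∀ y, ‖us y‖ = ‖y - x‖ / r := fun y => by
    simp only [us, norm_smul, norm_inv, Real.norm_of_nonneg hr.le]; ring
  have hmemT : ∀ y, y ∈ T ↔ us y ∈ T₀ := fun y =>
    ⟨fun ⟨z, hz, hzy⟩ => by rw [← hzy, hus]; exact hz, fun h => ⟨us y, h, hsu y⟩⟩
  have husb : ∀ y ∈ ball x r \ (T ∪ caps), us y ∈ ball (0 : ℂ) 1 \ T₀ := fun y hy => by
    refine ⟨?_, fun h => hy.2 (Or.inl ((hmemT y).2 h))⟩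
    rw [mem_ball_zero_iff, husn, div_lt_one hr]
    exact mem_ball_iff_norm.1 hy.1
  set k : ℂ → ℝ := fun y => interval τ Ag (ℓ (us y)) with hk
  have hkmem : ∀ y ∈ ball x r \ (T ∪ caps), k y ∈ Ag := fun y hy => by
    obtain ⟨q, hq, hℓ⟩ := hp.isArc _ (husb y hy)
    simp only [hk, hℓ, P.interval_arc hq]
    obtain ⟨h1, h2, -⟩ := P.spec hq
    exact (next_mem P.piMem h1.1 h1.2 h2).1
  have hclosedT : IsClosed (T ∪ caps) := by
    refine ((hp.isCompact.image (by fun_prop)).union ?_).isClosed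
    exact Finset.isCompact_biUnion _ fun b _ => isCompact_Icc.image
      (by unfold pol circleMap; fun_prop)
  have hkloc : ∀ y ∈ ball x r \ (T ∪ caps), ∀ᶠ v in 𝓝 y, k v = k y := fun y hy => by
    have hc : ContinuousAt us y := by fun_prop
    filter_upwards [hc.eventually (hp.locallyConst _ (husb y hy))] with v hv
    simp only [hk, hv]
  -- outer points
  have harg : ∀ y, y ≠ x → Complex.arg (Tree.proj (us y) / τ) = Complex.arg ((y - x) / τ) := by
    intro y hy
    simp only [Tree.proj, us, smul_smul, smul_div_assoc]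
    refine Complex.arg_real_mul _ ?_ |>.trans rfl
    exact mul_pos (inv_pos.2 (norm_pos_iff.2 (smul_ne_zero (inv_ne_zero hr.ne')
      (sub_ne_zero.2 hy)))) (inv_pos.2 hr)
  have hprojZ : ∀ y ∈ ball x r \ (T ∪ caps), r / 2 ≤ ‖y - x‖ → Tree.proj (us y) ∉ Z := by
    intro y hy hy2 hmem
    refine (husb y hy).2 ?_
    rw [← Tree.norm_smul_proj (us y)]
    refine hp.radii _ hmem _ ⟨?_, (mem_ball_zero_iff.1 (husb y hy).1).le⟩
    rw [husn, le_div_iff₀ hr]; linarith
  have hne : ∀ y : ℂ, r / 2 ≤ ‖y - x‖ → y ≠ x := fun y hy h => by simp [h] at hy; linarith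
  have hkout : ∀ y ∈ ball x r \ (T ∪ caps), r / 2 < ‖y - x‖ →
      k y = next Ag (Complex.arg ((y - x) / τ)) := fun y hy hy2 => by
    have h2 : 1 / 2 < ‖us y‖ := by rw [husn, lt_div_iff₀ hr]; linarith
    have h0 : us y ≠ 0 := fun h => by rw [h, norm_zero] at h2; norm_num at h2
    simp only [hk, hp.outer _ (husb y hy) h2]
    rw [show ‖us y‖⁻¹ • us y = Tree.proj (us y) from rfl,
      P.interval_arc ⟨Tree.proj_mem_sphere h0, hprojZ y hy hy2.le⟩, harg y (hne y hy2.le)]
  -- near the circle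
  have hedge : ∀ y ∈ sphere x r, y ∉ T ∪ caps → ∃ a, a ∈ Ag ∧
      Complex.arg ((y - x) / τ) ∈ Ioo (prev Ag a + 2 * e) (a - 2 * e) ∧
      pol x τ (r, Complex.arg ((y - x) / τ)) = y := by
    intro y hy hyT
    have hn : ‖y - x‖ = r := mem_sphere_iff_norm.1 hy
    have heq : pol x τ (r, Complex.arg ((y - x) / τ)) = y := by
      have := pol_unpol (x := x) hτ0 c.unit y
      rwa [hn] at this
    set θ := Complex.arg ((y - x) / τ)
    have hfar : ∀ b ∈ insert (-π) Ag, θ ∉ Icc (b - 2 * e) (b + 2 * e) := fun b hb h =>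
      hyT (Or.inr (mem_iUnion₂.2 ⟨b, hb, θ, h, heq⟩))
    have hθ : θ ∉ Ag := fun h => hfar θ (Finset.mem_insert_of_mem h)
      ⟨by linarith, by linarith⟩
    obtain ⟨hm, hin⟩ := next_mem P.piMem (Complex.neg_pi_lt_arg _)
      (lt_of_le_of_ne (Complex.arg_le_pi _) fun h => hθ (by rw [show θ = π from h]; exact P.piMem)) hθ
    refine ⟨_, hm, ⟨?_, ?_⟩, heq⟩
    · by_contra hle
      push Not at hle
      have hb : prev Ag (next Ag θ) ∈ insert (-π) Ag := by
        have := Finset.max'_mem (insert (-π) (Ag.filter fun b => b < next Ag θ))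
          (Finset.insert_nonempty _ _)
        rcases Finset.mem_insert.1 this with h | h
        · exact Finset.mem_insert.2 (Or.inl h)
        · exact Finset.mem_insert_of_mem (Finset.mem_filter.1 h).1
      exact hfar _ hb ⟨by linarith [hin.1], hle⟩
    · by_contra hle
      push Not at hle
      exact hfar _ (Finset.mem_insert_of_mem hm) ⟨hle, by linarith [hin.2]⟩
  have hedgeK : ∀ y ∈ sphere x r, y ∉ T ∪ caps → y ∉ K := fun y hy hyT => by
    obtain ⟨a, ha, hin, heq⟩ := hedge y hy hyT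
    rw [← heq]
    exact c.free_interval ha ⟨by linarith [hin.1], by linarith [hin.2]⟩
  have hslit : ∀ y ∈ sphere x r, y ∉ T ∪ caps → (y - x) / τ ∈ Complex.slitPlane := fun y hy hyT => by
    obtain ⟨a, ha, hin, -⟩ := hedge y hy hyT
    refine Complex.mem_slitPlane_iff_arg.2 ⟨ne_of_lt ?_, div_ne_zero (fun h => ?_) hτ0⟩
    · linarith [c.upper a ha, hin.2]
    · have := mem_sphere_iff_norm.1 hy
      rw [h, norm_zero] at this
      linarith
  have hnear : ∀ y ∈ sphere x r, y ∉ T ∪ caps → ∃ a ∈ Ag, ∀ᶠ v in 𝓝 y,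
      Complex.arg ((v - x) / τ) ∈ Ioo (prev Ag a + 2 * e) (a - 2 * e) ∧
      (v ∈ ball x r → k v = a) := by
    intro y hy hyT
    obtain ⟨a, ha, hin, -⟩ := hedge y hy hyT
    have hc : ContinuousAt (fun v => Complex.arg ((v - x) / τ)) y :=
      ContinuousAt.comp (g := Complex.arg) (f := fun v => (v - x) / τ)
        (Complex.continuousAt_arg (hslit y hy hyT)) (by fun_prop)
    refine ⟨a, ha, ?_⟩
    filter_upwards [hc (isOpen_Ioo.mem_nhds hin), hclosedT.isOpen_compl.mem_nhds hyT,
      (isOpen_lt continuous_const (by fun_prop : Continuous fun v : ℂ => ‖v - x‖)).mem_nhds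
        (show r / 2 < ‖y - x‖ by rw [mem_sphere_iff_norm.1 hy]; linarith)] with v h1 h2 h3
    refine ⟨h1, fun hv => ?_⟩
    rw [hkout v ⟨hv, h2⟩ h3]
    exact next_eq ha ⟨by linarith [h1.1], by linarith [h1.2]⟩
  -- the competitor
  set V : ℂ → ℝ := fun y => unpol x τ (Φ' (k y)) y with hVdef
  set W : ℝ → ℂ → ℝ := fun a => unpol x τ (Φ' a)
  have hW : ∀ y ∈ ball x r \ (T ∪ caps), V =ᶠ[𝓝 y] W (k y) := fun y hy =>
    (hkloc y hy).mono fun v hv => by simp only [hVdef, W, hv]
  have hΦ' : ∀ a, ∀ ha : a ∈ Ag, Φ' a = Φ a ha := fun a ha => dif_pos ha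
  have hVs : ContDiffOn ℝ ∞ V (ball x r \ (T ∪ caps)) := fun y hy => by
    refine (ContDiffAt.congr_of_eventuallyEq ?_ (hW y hy)).contDiffWithinAt
    have ha := hkmem y hy
    simp only [W, hΦ' _ ha]
    rcases lt_or_ge ‖y - x‖ (r / 2) with hlt | hge
    · refine (contDiffAt_const (c := u (pol x τ (r, mid Ag (k y))))).congr_of_eventuallyEq ?_
      filter_upwards [(isOpen_lt (by fun_prop : Continuous fun v : ℂ => ‖v - x‖)
        continuous_const).mem_nhds hlt] with v hv
      exact hΦi _ ha _ (le_of_lt hv) _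
    · have hne' : (y - x) / τ ≠ 0 := div_ne_zero (sub_ne_zero.2 (hne y hge)) hτ0
      refine contDiffAt_unpol (Complex.mem_slitPlane_iff_arg.2 ⟨fun h => ?_, hne'⟩) ?_
      · refine hprojZ y hy hge ?_
        have h0 : us y ≠ 0 := smul_ne_zero (inv_ne_zero hr.ne') (sub_ne_zero.2 (hne y hge))
        have h1 := P.anti
        have h2 := Complex.norm_mul_exp_arg_mul_I (Tree.proj (us y) / τ)
        rw [norm_div, mem_sphere_zero_iff_norm.1 (Tree.proj_mem_sphere h0), c.unit, div_one,
          Complex.ofReal_one, one_mul, harg y (hne y hge), h, Complex.exp_pi_mul_I,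
          eq_comm, div_eq_iff hτ0, neg_one_mul] at h2
        rwa [h2]
      · have hm : ((‖y - x‖, Complex.arg ((y - x) / τ)) : ℝ × ℝ) ∈ Ioo (0 : ℝ) r ×ˢ (univ : Set ℝ) :=
          ⟨⟨by linarith, mem_ball_iff_norm.1 hy.1⟩, trivial⟩
        exact (hΦs _ ha _ hm).contDiffAt ((isOpen_Ioo.prod isOpen_univ).mem_nhds hm)
  have hglue : ∀ y ∈ sphere x r, y ∉ T ∪ caps →
      y ∉ K ∧ ∀ᶠ v in 𝓝 y, v ∈ ball x r → V v = u v := fun y hy hyT => by
    obtain ⟨a, ha, hev⟩ := hnear y hy hyT
    refine ⟨hedgeK y hy hyT, ?_⟩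
    filter_upwards [hev, (isOpen_lt continuous_const (by fun_prop : Continuous fun v : ℂ => ‖v - x‖)).mem_nhds
      (show r - h a ha < ‖y - x‖ by
        rw [mem_sphere_iff_norm.1 hy]; linarith [hh a ha])] with v h1 h2 hv
    simp only [hVdef, h1.2 hv, hΦ' a ha, unpol]
    rw [hΦb a ha _ ⟨h2, mem_ball_iff_norm.1 hv⟩ _ (Ioo_subset_Icc_self h1.1), pol_unpol hτ0 c.unit]
  -- energy
  have hpos : ∀ a ∈ Ag, 0 ≤ (4 * π ^ 2 * A + B) *
      (∫ θ in (prev Ag a + e)..(a - e), slope u x r τ θ ^ 2) + η := fun a ha => by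
    have := intervalIntegral.integral_nonneg (μ := volume)
      (show prev Ag a + e ≤ a - e by linarith [he' a ha]) (f := fun θ => slope u x r τ θ ^ 2)
      fun θ _ => sq_nonneg _
    positivity
  have hWe : ∀ a ∈ Ag, MemLp (grad (W a)) 2 (volume.restrict (ball x r)) ∧
      ∫ y in ball x r, ‖grad (W a) y‖ ^ 2 ≤ (4 * π ^ 2 * A + B) *
        (∫ θ in (prev Ag a + e)..(a - e), slope u x r τ θ ^ 2) + η := fun a ha => by
    simp only [W, hΦ' a ha]
    exact energy_unpol c.unit (hpos a ha) (hΦs a ha) (hΦe a ha)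
  have hlenT : Measure.hausdorffMeasure 1 (T ∪ caps) ≤
      ENNReal.ofReal (r * Λ + ((Ag.card : ℝ) + 1) * (4 * e * r)) := by
    rw [ENNReal.ofReal_add (by positivity) (by positivity)]
    refine (measure_union_le _ _).trans (add_le_add ?_ ?_)
    · rw [hT, lengthGoal.2.1 T₀ x r hr, ENNReal.ofReal_mul hr.le]
      exact mul_le_mul' le_rfl hp.len_le
    · refine (measure_biUnion_finset_le _ _).trans ((Finset.sum_le_sum fun b _ =>
        show _ ≤ ENNReal.ofReal (4 * e * r) from ?_).trans ?_)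
      · have hlip : LipschitzWith (Real.toNNReal r) fun θ => pol x τ (r, θ) := by
          have h1 := (lipschitzWith_circleMap x r).comp
            (LipschitzWith.of_dist_le_mul (K := 1) (f := fun θ : ℝ => θ + Complex.arg τ)
              fun a b => by simp [Real.dist_eq])
          rw [mul_one, Real.nnabs_of_nonneg hr.le] at h1
          simpa [Function.comp_def, pol_eq_circleMap c.unit] using h1
        refine (hlip.hausdorffMeasure_image_le zero_le_one _).trans (le_of_eq ?_)
        rw [hausdorffMeasure_real, Real.volume_Icc, ENNReal.rpow_one,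
          show b + 2 * e - (b - 2 * e) = 4 * e by ring, show 4 * e * r = r * (4 * e) by ring,
          ENNReal.ofReal_mul hr.le]
        rfl
      · rw [Finset.sum_const, nsmul_eq_mul, ← Nat.cast_one, ← Nat.cast_add,
          ENNReal.ofReal_mul (q := 4 * e * r) (Nat.cast_nonneg _), ENNReal.ofReal_natCast]
        exact mul_le_mul' (by exact_mod_cast Finset.card_insert_le _ _) le_rfl
  have hTfin : Measure.hausdorffMeasure 1 (T ∪ caps) ≠ ⊤ :=
    ne_top_of_le_ne_top ENNReal.ofReal_ne_top hlenT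
  have hae : ∀ᵐ y ∂(volume.restrict (ball x r)), ∃ a ∈ Ag, grad V y = grad (W a) y := by
    filter_upwards [ae_restrict_mem measurableSet_ball,
      measure_eq_zero_iff_ae_notMem.1 (Measure.restrict_le_self.absolutelyContinuous
        (volume_eq_zero_of_length hTfin))] with y hy hyT
    exact ⟨k y, hkmem y ⟨hy, hyT⟩, grad_congr (hW y ⟨hy, hyT⟩)⟩
  have hmeas : Measurable (grad V) := by
    have e' : grad V = fun y => ((fderiv ℝ V y 1 : ℝ) : ℂ) +
        ((fderiv ℝ V y Complex.I : ℝ) : ℂ) * Complex.I := by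
      funext y; simp [grad, Complex.ext_iff]
    rw [e']
    exact (Complex.measurable_ofReal.comp (measurable_fderiv_apply_const ℝ V 1)).add
      ((Complex.measurable_ofReal.comp (measurable_fderiv_apply_const ℝ V Complex.I)).mul_const _)
  have hmem : MemLp (grad V) 2 (volume.restrict (ball x r)) := by
    refine (memLp_finsetSum (μ := volume.restrict (ball x r)) Ag
      fun a ha => (hWe a ha).1.norm).of_le hmeas.aestronglyMeasurable ?_
    filter_upwards [hae] with y ⟨a, ha, hy⟩
    rw [Real.norm_of_nonneg (Finset.sum_nonneg fun b _ => norm_nonneg _), hy]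
    exact Finset.single_le_sum (f := fun b => ‖grad (W b) y‖) (fun b _ => norm_nonneg _) ha
  have hen : ∫ y in ball x r, ‖grad V y‖ ^ 2 ≤
      (4 * π ^ 2 * A + B) * (r * tang u x r) + Ag.card * η := by
    refine (integral_mono_ae hmem.norm.integrable_sq
      (integrable_finsetSum _ fun a ha => (hWe a ha).1.norm.integrable_sq)
      (g := fun y => ∑ a ∈ Ag, ‖grad (W a) y‖ ^ 2) ?_).trans ?_
    · filter_upwards [hae] with y ⟨a, ha, hy⟩
      simp only [hy]
      exact Finset.single_le_sum (f := fun b => ‖grad (W b) y‖ ^ 2) (fun b _ => sq_nonneg _) ha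
    · rw [integral_finsetSum _ fun a ha => (hWe a ha).1.norm.integrable_sq]
      refine (Finset.sum_le_sum fun a ha => (hWe a ha).2).trans ?_
      rw [Finset.sum_add_distrib, ← Finset.mul_sum, Finset.sum_const, nsmul_eq_mul]
      exact add_le_add (mul_le_mul_of_nonneg_left (c.sum_slope he.le he') (by positivity)) le_rfl
  -- separation
  have hsep : ∃ R₀, ∀ R ≥ R₀, KeepsSeparation K ((K \ ball x r) ∪ (T ∪ caps)) (ball 0 R) := by
    refine ⟨‖x‖ + r + 1, fun R hR => keepsSeparation_label c.reg.isClosed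
      (closedBall_subset_ball' (by rw [dist_zero_right]; linarith))
      (F := fun y => connectedComponentIn Kᶜ (pol x τ (r, mid Ag (k y))))
      (fun y hy => (hkloc y hy).mono fun v hv => by rw [hv]) fun y hy hyT => ?_⟩
    refine ⟨hedgeK y hy hyT, ?_⟩
    obtain ⟨a, ha, hev⟩ := hnear y hy hyT
    have hya := hev.self_of_nhds.1
    filter_upwards [hev] with v hv hvb
    rw [hv.2 hvb]
    refine connectedComponentIn_eq ?_
    have hconn : IsPreconnected ((fun θ => pol x τ (r, θ)) '' Ioo (prev Ag a) a) :=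
      isPreconnected_Ioo.image _ (by unfold pol circleMap; fun_prop)
    have hlt := prev_lt c.lower ha
    have heq : pol x τ (r, Complex.arg ((y - x) / τ)) = y := by
      have := pol_unpol (x := x) hτ0 c.unit y
      rwa [mem_sphere_iff_norm.1 hy] at this
    refine hconn.subset_connectedComponentIn
      (mem_image_of_mem _ (show mid Ag a ∈ _ from ⟨by rw [mid]; linarith, by rw [mid]; linarith⟩))
      ?_ ⟨_, ⟨by linarith [hya.1], by linarith [hya.2]⟩, heq⟩
    rintro _ ⟨θ, hθ, rfl⟩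
    exact c.free_interval ha hθ
  have hTb : T ∪ caps ⊆ closedBall x r := by
    refine union_subset ?_ (iUnion₂_subset fun b _ => ?_)
    · rintro _ ⟨z, hz, rfl⟩
      have := hp.subset hz
      rw [mem_closedBall_zero_iff] at this
      rw [mem_closedBall_iff_norm]
      simp only [sc, add_sub_cancel_left, norm_smul, Real.norm_of_nonneg hr.le]
      exact mul_le_of_le_one_right hr.le this
    · rintro _ ⟨θ, -, rfl⟩
      rw [mem_closedBall_iff_norm, dist_pol c.unit hr.le]
  have key := vary_ball c.reg hclosedT hTb hTfin hVs hglue hmem hsep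
  have hl := ENNReal.toReal_le_of_le_ofReal (by positivity) hlenT
  linarith

/-- The radial plan, or any other, gives a competitor. -/
theorem exists_cost : ∃ C : ℝ, ∀ (u : ℂ → ℝ) (K : Set ℂ) (x : ℂ), Reg u K →
    ∀ᵐ r : ℝ, 0 < r → ∀ hf : (K ∩ sphere x r).Finite, (K ∩ sphere x r).Nonempty →
      ∀ T ℓ, ∀ Λ : ℝ, 0 ≤ Λ → Plan (hf.toFinset.image (dir x)) T ℓ Λ →
        Len K x r + En u x r ≤ (Λ + C * tang u x r) * r := by
  classical
  obtain ⟨A, B, hA, hB, hprof⟩ := exists_profile_bound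
  refine ⟨4 * π ^ 2 * A + B, fun u K x hreg => ?_⟩
  filter_upwards [ae_intervalIntegrable_tang hreg x] with r hint hr hf hne T ℓ Λ hΛ hp
  obtain ⟨hw, hw1, hw0, hwA, hwB⟩ := hprof r hr
  set Z := hf.toFinset.image (dir x) with hZ
  have hdir : ∀ y ∈ K ∩ sphere x r, ‖dir x y‖ = 1 ∧ x + r • dir x y = y := fun y hy => by
    have hn : ‖y - x‖ = r := mem_sphere_iff_norm.1 hy.2
    constructor
    · rw [dir, norm_smul, norm_inv, norm_norm, hn, inv_mul_cancel₀ hr.ne']
    · rw [dir, hn, smul_smul, mul_inv_cancel₀ hr.ne', one_smul, add_sub_cancel]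
  have hZn : ∀ z ∈ Z, ‖z‖ = 1 := fun z hz => by
    obtain ⟨y, hy, rfl⟩ := Finset.mem_image.1 hz
    exact (hdir y (hf.mem_toFinset.1 hy)).1
  obtain ⟨y₀, hy₀⟩ := hne
  set τ := -dir x y₀ with hτdef
  have hτ : ‖τ‖ = 1 := by rw [hτdef, norm_neg]; exact (hdir y₀ hy₀).1
  set Ag := Z.image fun z => Complex.arg (z / τ) with hAg
  have hτ0 : τ ≠ 0 := fun h => by simp [h] at hτ
  have hmem : ∀ z : ℂ, ‖z‖ = 1 → (x + r • z ∈ K ↔ z ∈ Z) := fun z hz => by
    have hs : x + r • z ∈ sphere x r := by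
      rw [mem_sphere_iff_norm, add_sub_cancel_left, norm_smul, hz, mul_one,
        Real.norm_of_nonneg hr.le]
    constructor
    · intro hK
      refine Finset.mem_image.2 ⟨_, hf.mem_toFinset.2 ⟨hK, hs⟩, ?_⟩
      rw [dir, add_sub_cancel_left, norm_smul, hz, mul_one, Real.norm_of_nonneg hr.le, smul_smul,
        inv_mul_cancel₀ hr.ne', one_smul]
    · intro hzZ
      obtain ⟨y, hy, rfl⟩ := Finset.mem_image.1 hzZ
      have hy' := hf.mem_toFinset.1 hy
      rw [(hdir y hy').2]
      exact hy'.1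
  have P : Points K x r τ Z Ag := by
    refine ⟨hτ, hZn, hmem, ?_, fun θ hθ => ?_, fun a ha => ?_⟩
    · rw [hτdef, neg_neg]; exact Finset.mem_image_of_mem _ (hf.mem_toFinset.2 hy₀)
    · constructor
      · intro h
        obtain ⟨z, hz, rfl⟩ := Finset.mem_image.1 h
        have h2 := Complex.norm_mul_exp_arg_mul_I (z / τ)
        rw [norm_div, hZn z hz, hτ, div_one, Complex.ofReal_one, one_mul] at h2
        rwa [h2, mul_div_cancel₀ _ hτ0]
      · intro h
        refine Finset.mem_image.2 ⟨_, h, ?_⟩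
        rw [mul_div_cancel_left₀ _ hτ0, Complex.arg_exp_mul_I]
        exact toIocMod_eq_self _ |>.2 (by rwa [show -π + 2 * π = π by ring])
    · obtain ⟨z, -, rfl⟩ := Finset.mem_image.1 ha
      exact Complex.arg_mem_Ioc _
  have c : Circ u K x r τ Ag := by
    refine ⟨hreg, hr, hτ, fun a ha => (P.range a ha).1, fun a ha => (P.range a ha).2, P.piMem,
      fun θ hθ hθA hK => hθA ?_, fun a b => hint hr a b⟩
    rw [P.angles θ (Ioo_subset_Ioc_self hθ), ← hmem _ (by simp [hτ])]
    convert hK using 1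
    simp [pol, circleMap]
    ring
  -- letting the caps shrink
  refine le_of_forall_pos_le_add fun ε hε => ?_
  obtain ⟨e₀, he₀, hgap⟩ : ∃ e₀ > 0, ∀ a ∈ Ag, 4 * e₀ < a - prev Ag a := by
    have hne' : Ag.Nonempty := ⟨π, P.piMem⟩
    refine ⟨(Ag.image fun a => a - prev Ag a).min' (hne'.image _) / 5, ?_, fun a ha => ?_⟩
    · refine div_pos ?_ (by norm_num)
      obtain ⟨a, ha, h⟩ := Finset.mem_image.1 (Finset.min'_mem _ (hne'.image fun a => a - prev Ag a))
      rw [← h]
      linarith [prev_lt c.lower ha]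
    · have := Finset.min'_le _ _ (Finset.mem_image_of_mem (fun a => a - prev Ag a) ha)
      linarith [prev_lt c.lower ha]
  set e := min e₀ (ε / (((Ag.card : ℝ) + 1) * (8 * r) + 1)) with he
  have he0 : 0 < e := lt_min he₀ (by positivity)
  have hη : 0 < ε / (2 * (Ag.card : ℝ) + 1) := by positivity
  have h := cost_approx c P hΛ hp hA hB hw hw1 hw0 hwA hwB he0
    (fun a ha => lt_of_le_of_lt (by linarith [min_le_left e₀ (ε / (((Ag.card : ℝ) + 1) * (8 * r) + 1))])
      (hgap a ha)) hη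
  have h1 : ((Ag.card : ℝ) + 1) * (4 * e * r) ≤ ε / 2 := by
    have := min_le_right e₀ (ε / (((Ag.card : ℝ) + 1) * (8 * r) + 1))
    rw [← he, le_div_iff₀ (by positivity)] at this
    nlinarith
  have h2 : (Ag.card : ℝ) * (ε / (2 * (Ag.card : ℝ) + 1)) ≤ ε / 2 := by
    rw [← mul_div_assoc, div_le_iff₀ (by positivity)]
    nlinarith
  linarith

/-- The whole circle. -/
lemma circle_cost {u : ℂ → ℝ} {K : Set ℂ} (h : Reg u K) (x : ℂ) {r : ℝ} (hr : 0 < r) :
    Len K x r + En u x r ≤ 2 * π * r := by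
  have hle := lengthGoal.2.2.1 x r hr.le
  have key := vary_ball h (x := x) (r := r) (T := sphere x r) (V := fun _ => (0 : ℝ))
    isClosed_sphere sphere_subset_closedBall (ne_top_of_le_ne_top ENNReal.ofReal_ne_top hle)
    contDiffOn_const (fun y hy hyT => absurd hy hyT) (by
      rw [show grad (fun _ : ℂ => (0 : ℝ)) = fun _ => 0 from funext fun y => by
        simp [grad, Complex.ext_iff]]
      exact MemLp.zero')
    ⟨‖x‖ + r + 1, fun R hR => keepsSeparation_circle
      (closedBall_subset_ball' (by rw [dist_zero_right]; linarith))⟩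
  have h0 : ∫ y in ball x r, ‖grad (fun _ => (0 : ℝ)) y‖ ^ 2 = 0 := by simp [grad, Complex.ext_iff]
  have := ENNReal.toReal_le_of_le_ofReal (by positivity) hle
  linarith

end Vale.Agent.P128.Bonnet.Tree

namespace Vale.Agent.P128.Bonnet

open MeasureTheory Filter Metric Set Islands Connected Bonnet.Tree
open scoped Topology Real

theorem treeGoal : TreeGoal := by
  classical
  obtain ⟨C, hC⟩ := exists_cost
  intro δ hδ
  set δ' := min δ 1
  have hδ' : 0 < δ' := lt_min hδ one_pos
  have h4 : δ' ^ 4 / 4000 ≤ 1 / 4000 :=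
    div_le_div_of_nonneg_right (pow_le_one₀ hδ'.le (min_le_right _ _)) (by norm_num)
  refine ⟨δ' ^ 4 / 4000, by positivity, max C 0, fun u K x hu => ?_⟩
  filter_upwards [hC u K x hu] with r hcost hr hf hN
  set N := (K ∩ sphere x r).ncard with hNdef
  set Z := hf.toFinset.image (dir x) with hZ
  have hinj : Set.InjOn (dir x) (hf.toFinset : Set ℂ) := fun a ha b hb hab => by
    have ha' := mem_sphere_iff_norm.1 (hf.mem_toFinset.1 ha).2
    have hb' := mem_sphere_iff_norm.1 (hf.mem_toFinset.1 hb).2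
    rw [dir, dir, ha', hb'] at hab
    have := smul_right_injective ℂ (inv_ne_zero hr.ne') hab
    linear_combination this
  have hcard : Z.card = N := by
    rw [hZ, Finset.card_image_of_injOn hinj, hNdef, Set.ncard_eq_toFinset_card _ hf]
  have hZn : ∀ z ∈ Z, ‖z‖ = 1 := fun z hz => by
    obtain ⟨y, hy, rfl⟩ := Finset.mem_image.1 hz
    rw [dir, norm_smul, norm_inv, norm_norm, mem_sphere_iff_norm.1 (hf.mem_toFinset.1 hy).2,
      inv_mul_cancel₀ hr.ne']
  have hne : (K ∩ sphere x r).Nonempty := Set.nonempty_of_ncard_ne_zero (by omega)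
  have hrt : 0 ≤ tang u x r := by
    unfold tang Bonnet.circ
    exact mul_nonneg hr.le (integral_nonneg fun θ => sq_nonneg _)
  have hfinish : ∀ {X Y : ℝ}, X ≤ Y → Len K x r + En u x r ≤ (X + C * tang u x r) * r →
      Len K x r + En u x r ≤ (Y + max C 0 * tang u x r) * r := fun hXY h => h.trans
    (mul_le_mul_of_nonneg_right (add_le_add hXY
      (mul_le_mul_of_nonneg_right (le_max_left C 0) hrt)) hr.le)
  have hNR : (2 : ℝ) ≤ N := by exact_mod_cast hN
  have hshort : (Z.card ≤ 3 → δ' ≤ ‖∑ z ∈ Z, z‖) →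
      Len K x r + En u x r ≤ (((N : ℝ) - δ' ^ 4 / 4000) + max C 0 * tang u x r) * r := by
    intro hoff
    obtain ⟨T, ℓ, hp⟩ := exists_short Z hZn (by omega) hδ' (min_le_right _ _) hoff
    rw [hcard] at hp
    exact hfinish le_rfl (hcost hr hf hne T ℓ _ (by linarith) hp)
  refine ⟨?_, fun h4N => ?_, fun h3N hoff => ?_⟩
  · have hZne : Z.Nonempty := Finset.card_pos.1 (by omega)
    have := hcost hr hf hne _ _ _ (Nat.cast_nonneg Z.card) (plan_star Z hZn hZne)
    rw [hcard] at this
    exact hfinish le_rfl this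
  · rcases Nat.lt_or_ge N 7 with h7 | h7
    · refine (hshort fun h => absurd h (by omega)).trans
        (mul_le_mul_of_nonneg_right (add_le_add (le_min le_rfl ?_) le_rfl) hr.le)
      have : (N : ℝ) ≤ 6 := by exact_mod_cast (show N ≤ 6 by omega)
      have : (0 : ℝ) ≤ δ' ^ 4 / 4000 := by positivity
      linarith
    · refine (circle_cost hu x hr).trans (mul_le_mul_of_nonneg_right ?_ hr.le)
      have h7' : (7 : ℝ) ≤ N := by exact_mod_cast h7
      have : (0 : ℝ) ≤ max C 0 * tang u x r := mul_nonneg (le_max_right _ _) hrt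
      have := Real.pi_lt_d2
      refine le_trans ?_ (le_add_of_nonneg_right (by assumption))
      exact le_min (by linarith) (by linarith)
  · refine hshort fun _ => (min_le_left δ 1).trans (hoff.trans (le_of_eq ?_))
    rw [finsum_mem_eq_finite_toFinset_sum _ hf, hZ, Finset.sum_image hinj]

end Vale.Agent.P128.Bonnet
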